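import Vale.Agent.P049.TS.Alg.IntPT

/-!
The greedy algorithm, as computable functions on lists.

Stubs are the numbers `0, …, m - 1` with `m = n * d`, the vertex of the stub `i` is `i / d`.
A matrix is a list of rows. The integer matrices approximate `q` times real matrices.
`R` is always the list `[0, …, m - 1]`.
-/

namespace Vale.Agent.P049.TS

/-- entry of a matrix given as a list of rows -/
def ent (M : List (List ℤ)) (i j : ℕ) : ℤ := (M.getD i []).getD j 0

/-- truncation to `[-B, B]` -/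
def clip (B x : ℤ) : ℤ := if B < x then B else if x < -B then -B else x

/-- rounded update of one entry, `x` and `y` are the rows of the two stubs to be joined -/
def updE (q B saa sab sbb : ℤ) (x y : List ℤ) (v : ℤ) (i j : ℕ) : ℤ :=
  clip B (v + (sbb * (x.getD i 0 * x.getD j 0) +
    (q - sab) * (x.getD i 0 * y.getD j 0 + y.getD i 0 * x.getD j 0) +
    saa * (y.getD i 0 * y.getD j 0)) / ((q - sab) * (q - sab) - saa * sbb))

/-- rounded update of a matrix -/
def updM (q B : ℤ) (R : List ℕ) (M : List (List ℤ)) (p : ℕ × ℕ) : List (List ℤ) :=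
  R.map fun i => R.map fun j =>
    if i = p.1 ∨ i = p.2 ∨ j = p.1 ∨ j = p.2 then 0 else
      updE q B (ent M p.1 p.1) (ent M p.1 p.2) (ent M p.2 p.2) (M.getD p.1 []) (M.getD p.2 [])
        (ent M i j) i j

/-- The state of the algorithm: free stubs, the two matrices, the joined pairs. -/
abbrev St := List ℕ × (List (List ℤ) × List (List ℤ)) × List (ℕ × ℕ)

/-- joining a pair -/
def join (q B : ℤ) (R : List ℕ) (s : St) (p : ℕ × ℕ) : St :=
  (s.1.filter fun i => decide (i ≠ p.1) && decide (i ≠ p.2),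
    (updM q B R s.2.1.1 p, updM q B R s.2.1.2 p), p :: s.2.2)

/-- the vertices of a pair of stubs -/
def vtx (d : ℕ) (p : ℕ × ℕ) : ℕ × ℕ := (p.1 / d, p.2 / d)

/-- the vertices `u`, `v` are joined by one of the edges -/
def adjE (E : List (ℕ × ℕ)) (u v : ℕ) : Bool :=
  E.any fun e => (decide (e.1 = u) && decide (e.2 = v)) || (decide (e.1 = v) && decide (e.2 = u))

/-- the denominator of the update is not too small, `c` is a constant -/
def alB (c : ℕ) (q : ℤ) (M : List (List ℤ)) (p : ℕ × ℕ) : Bool :=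
  decide (q * q ≤ c * ((q - ent M p.1 p.2) * (q - ent M p.1 p.2) -
    ent M p.1 p.1 * ent M p.2 p.2))

/-- admissible pairs -/
def admB (d c : ℕ) (q : ℤ) (s : St) (p : ℕ × ℕ) : Bool :=
  (!(decide (p.1 / d = p.2 / d)) && !(adjE (s.2.2.map (vtx d)) (p.1 / d) (p.2 / d))) &&
    (alB c q s.2.1.1 p && alB c q s.2.1.2 p)

/-- all admissible pairs of free stubs -/
def cands (d c : ℕ) (q : ℤ) (s : St) : List (ℕ × ℕ) :=
  (s.1.flatMap fun a => s.1.map fun b => (a, b)).filter fun p => admB d c q s p

/-- the pair for which the potential of the next state is minimal -/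
def pick (V : List ℕ → ℤ → St → ℤ) (d c : ℕ) (q B : ℤ) (R : List ℕ) (s : St) : ℕ × ℕ :=
  ((cands d c q s).find? fun p => (cands d c q s).all fun p' =>
    decide (V R q (join q B R s p) ≤ V R q (join q B R s p'))).getD (0, 0)

/-- one step of the greedy algorithm -/
def gstep (V : List ℕ → ℤ → St → ℤ) (d c : ℕ) (q B : ℤ) (R : List ℕ) (s : St) : St :=
  join q B R s (pick V d c q B R s)

/-- `rootL D L = ⌊2 ^ L / √D⌋` -/
def rootStep (D : ℕ) (s : ℕ × ℕ) : ℕ × ℕ :=
  (if (2 * s.1 + 1) * (2 * s.1 + 1) * D ≤ 4 * s.2 then 2 * s.1 + 1 else 2 * s.1, 4 * s.2)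

/-- `⌊2 ^ L / √D⌋` for `D ≥ 2` -/
def rootL (D L : ℕ) : ℕ := ((rootStep D)^[L] (0, 1)).1

/-- the matrix with entries `r ([same vertex] - [i = j]) - t` -/
def initM (d : ℕ) (r t : ℤ) (R : List ℕ) : List (List ℤ) :=
  R.map fun i => R.map fun j =>
    r * ((if i / d = j / d then 1 else 0) - (if i = j then 1 else 0)) - t

/-- the initial state -/
def init (d : ℕ) (r q : ℤ) (R : List ℕ) : St :=
  (R, (initM d r (((d - 1 : ℕ) * r - q) / R.length) R,
    initM d (-r) (((d - 1 : ℕ) * (-r) - q) / R.length) R), [])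

/-- number of bits -/
def bits (R : List ℕ) : ℕ := 40 * (R.length + 2) ^ 2

/-- scale -/
def scale (R : List ℕ) : ℤ := 2 ^ bits R

/-- bound for the entries -/
def bnd (R : List ℕ) : ℤ := (R.length + 2) ^ 5 * scale R

/-- the state after `k` steps of the greedy algorithm -/
def run (V : List ℕ → ℤ → St → ℤ) (d c : ℕ) (R : List ℕ) (k : ℕ) : St :=
  (gstep V d c (scale R) (bnd R) R)^[k] (init d (rootL (d - 1) (bits R)) (scale R) R)

end Vale.Agent.P049.TS
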