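import Mathlib

/-!
The base `s` of all scales: the greatest `s` with `s ^ 1000 ≤ n`.
-/

namespace Vale.Agent.P049.TS

/-- the greatest `s` with `s ^ 1000 ≤ n` -/
def sR (n : ℕ) : ℕ := Nat.findGreatest (fun s => s ^ 1000 ≤ n) n

theorem sR_pow_le (n : ℕ) : sR n ^ 1000 ≤ n :=
  Nat.findGreatest_spec (P := fun s => s ^ 1000 ≤ n) (Nat.zero_le n) (by simp)

theorem lt_sR_succ_pow (n : ℕ) : n < (sR n + 1) ^ 1000 := by
  by_contra h
  push Not at h
  have h1 : sR n + 1 ≤ n := (Nat.le_self_pow (by norm_num) _).trans h
  have := Nat.le_findGreatest (P := fun s => s ^ 1000 ≤ n) h1 h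
  change sR n + 1 ≤ sR n at this
  omega

theorem le_sR_iff (n s : ℕ) : s ≤ sR n ↔ s ^ 1000 ≤ n := by
  constructor
  · intro h
    exact (Nat.pow_le_pow_left h _).trans (sR_pow_le n)
  · intro h
    by_contra h'
    push Not at h'
    have := (Nat.pow_le_pow_left (show sR n + 1 ≤ s from h') 1000).trans h
    exact absurd this (not_le.2 (lt_sR_succ_pow n))

theorem sR_le (n : ℕ) : sR n ≤ n := Nat.findGreatest_le _

/-- the same number computed on lists -/
theorem sR_eq (n : ℕ) :
    sR n = ((List.range (n + 1)).filter fun s => decide (s ^ 1000 ≤ n)).length - 1 := by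
  have h : (List.range (n + 1)).filter (fun s => decide (s ^ 1000 ≤ n)) =
      List.range (sR n + 1) := by
    have e : n + 1 = (sR n + 1) + (n - sR n) := by have := sR_le n; omega
    rw [e, List.range_add, List.filter_append]
    have h1 : (List.range (sR n + 1)).filter (fun s => decide (s ^ 1000 ≤ n)) =
        List.range (sR n + 1) := by
      rw [List.filter_eq_self]
      intro s hs
      rw [List.mem_range] at hs
      exact decide_eq_true ((le_sR_iff n s).1 (by omega))
    have h2 : ((List.range (n - sR n)).map (sR n + 1 + ·)).filter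
        (fun s => decide (s ^ 1000 ≤ n)) = [] := by
      rw [List.filter_eq_nil_iff]
      intro s hs
      obtain ⟨i, -, rfl⟩ := List.mem_map.1 hs
      rw [decide_eq_true_eq, ← le_sR_iff]
      omega
    rw [h1, h2, List.append_nil]
  rw [h, List.length_range]
  rfl

end Vale.Agent.P049.TS
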