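import Vale.Agent.P049.TS.Alg.Alg

/-!
Completion of a partial graph to a regular graph, by adding edges and switching new edges.
The whole algorithm.
-/

namespace Vale.Agent.P049.TS

/-- the stubs `a`, `b` may be joined, `E` is the list of all pairs of stubs joined so far -/
def okE (d : ℕ) (E : List (ℕ × ℕ)) (a b : ℕ) : Bool :=
  !(decide (a / d = b / d)) && !(adjE (E.map (vtx d)) (a / d) (b / d))

/-- the pair `e` may be replaced by `(a, e.1)` and `(c, e.2)` -/
def swapOk (d : ℕ) (E : List (ℕ × ℕ)) (a c : ℕ) (e : ℕ × ℕ) : Bool :=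
  (okE d E a e.1 && okE d E c e.2) && !(decide (e.1 / d = c / d))

/-- one step of the completion; the state consists of the free stubs and the new pairs -/
def compStep (d : ℕ) (E₀ : List (ℕ × ℕ)) (s : List ℕ × List (ℕ × ℕ)) :
    List ℕ × List (ℕ × ℕ) :=
  if okE d (s.2 ++ E₀) (s.1.headD 0)
      ((s.1.tail.find? fun b => okE d (s.2 ++ E₀) (s.1.headD 0) b).getD (s.1.headD 0)) then
    (s.1.tail.filter fun i => decide (i ≠
      (s.1.tail.find? fun b => okE d (s.2 ++ E₀) (s.1.headD 0) b).getD (s.1.headD 0)),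
      (s.1.headD 0,
        (s.1.tail.find? fun b => okE d (s.2 ++ E₀) (s.1.headD 0) b).getD (s.1.headD 0)) :: s.2)
  else
    (s.1.tail.tail,
      (s.1.headD 0, ((s.2.find? fun e =>
        swapOk d (s.2 ++ E₀) (s.1.headD 0) (s.1.tail.headD 0) e).getD (0, 0)).1) ::
      (s.1.tail.headD 0, ((s.2.find? fun e =>
        swapOk d (s.2 ++ E₀) (s.1.headD 0) (s.1.tail.headD 0) e).getD (0, 0)).2) ::
      s.2.filter fun e' => decide (e' ≠ (s.2.find? fun e =>
        swapOk d (s.2 ++ E₀) (s.1.headD 0) (s.1.tail.headD 0) e).getD (0, 0)))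

/-- the completion -/
def comp (d : ℕ) (F : List ℕ) (E₀ : List (ℕ × ℕ)) : List (ℕ × ℕ) :=
  ((compStep d E₀)^[F.length / 2] (F, [])).2 ++ E₀

/-- the bits of the adjacency matrix -/
def outB (d : ℕ) (L : List ℕ) (E : List (ℕ × ℕ)) : List Bool :=
  L.flatMap fun u => L.map fun v => adjE (E.map (vtx d)) u v

/-- the whole algorithm: `V` is the potential, `K` the number of greedy steps -/
def allBits (V : List ℕ → ℤ → St → ℤ) (K : List ℕ → ℕ) (d c n : ℕ) : List Bool :=
  outB d (List.range n)
    (comp d (run V d c (List.range (n * d)) (K (List.range (n * d)))).1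
      (run V d c (List.range (n * d)) (K (List.range (n * d)))).2.2)

end Vale.Agent.P049.TS
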