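import Mathlib
import Vale.Agent.P049.TS.Alg.Comp

/-!
Correctness of the completion.
-/

namespace Vale.Agent.P049.TS

/-- all stubs of a list of pairs -/
def stubs (E : List (ℕ × ℕ)) : List ℕ := E.flatMap fun e => [e.1, e.2]

theorem stubs_cons (e : ℕ × ℕ) (E : List (ℕ × ℕ)) : stubs (e :: E) = e.1 :: e.2 :: stubs E := rfl

theorem stubs_append (E E' : List (ℕ × ℕ)) : stubs (E ++ E') = stubs E ++ stubs E' :=
  List.flatMap_append

/-- the unordered pair of vertices of a pair of stubs -/
def vs (d : ℕ) (e : ℕ × ℕ) : Sym2 ℕ := s(e.1 / d, e.2 / d)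

/-- The graph given by a list of pairs of stubs is simple. -/
def Simp (d : ℕ) (E : List (ℕ × ℕ)) : Prop :=
  (∀ e ∈ E, e.1 / d ≠ e.2 / d) ∧ E.Pairwise fun e f => vs d e ≠ vs d f

theorem adjE_iff {d : ℕ} {E : List (ℕ × ℕ)} {u v : ℕ} :
    adjE (E.map (vtx d)) u v = true ↔ ∃ e ∈ E, vs d e = s(u, v) := by
  unfold adjE vs vtx
  rw [List.any_map, List.any_eq_true]
  refine exists_congr fun e => and_congr_right fun _ => ?_
  simp only [Function.comp_apply, Bool.or_eq_true, Bool.and_eq_true, decide_eq_true_eq,
    Sym2.eq_iff]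

theorem okE_iff {d : ℕ} {E : List (ℕ × ℕ)} {a b : ℕ} :
    okE d E a b = true ↔ a / d ≠ b / d ∧ ∀ e ∈ E, vs d e ≠ vs d (a, b) := by
  unfold okE
  rw [Bool.and_eq_true, Bool.not_eq_true', decide_eq_false_iff_not, Bool.not_eq_true',
    ← Bool.not_eq_true, adjE_iff]
  push Not
  rfl

theorem vs_swap (d : ℕ) (a b : ℕ) : vs d (a, b) = vs d (b, a) := Sym2.eq_swap

/-- list of the neighbours of `u` -/
def nbs (d : ℕ) (E : List (ℕ × ℕ)) (u : ℕ) : List ℕ :=
  E.flatMap fun e => (if e.1 / d = u then [e.2 / d] else []) ++
    (if e.2 / d = u then [e.1 / d] else [])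

theorem mem_nbs {d : ℕ} {E : List (ℕ × ℕ)} {u v : ℕ} :
    v ∈ nbs d E u ↔ ∃ e ∈ E, vs d e = s(u, v) := by
  unfold nbs vs
  rw [List.mem_flatMap]
  refine exists_congr fun e => and_congr_right fun _ => ?_
  rw [List.mem_append, Sym2.eq_iff]
  constructor
  · rintro (h | h)
    · split_ifs at h with h'
      · left; exact ⟨h', (List.mem_singleton.1 h).symm⟩
      · simp at h
    · split_ifs at h with h'
      · right; exact ⟨(List.mem_singleton.1 h).symm, h'⟩
      · simp at h
  · rintro (⟨h, h'⟩ | ⟨h, h'⟩)
    · left; rw [if_pos h, h']; exact List.mem_singleton_self _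
    · right; rw [if_pos h', h]; exact List.mem_singleton_self _

theorem length_nbs (d : ℕ) (E : List (ℕ × ℕ)) (u : ℕ) :
    (nbs d E u).length = (stubs E).countP fun i => decide (i / d = u) := by
  induction E with
  | nil => rfl
  | cons e E ih =>
    have h : nbs d (e :: E) u = ((if e.1 / d = u then [e.2 / d] else []) ++
      (if e.2 / d = u then [e.1 / d] else [])) ++ nbs d E u := rfl
    rw [h, stubs_cons, List.length_append, ih, List.countP_cons, List.countP_cons,
      List.length_append]
    split_ifs <;> simp_all <;> omega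

theorem nodup_nbs {d : ℕ} {E : List (ℕ × ℕ)} (hE : Simp d E) (u : ℕ) : (nbs d E u).Nodup := by
  induction E with
  | nil => exact List.nodup_nil
  | cons e E ih =>
    obtain ⟨h1, h2⟩ := hE
    rw [List.pairwise_cons] at h2
    have h : nbs d (e :: E) u = ((if e.1 / d = u then [e.2 / d] else []) ++
      (if e.2 / d = u then [e.1 / d] else [])) ++ nbs d E u := rfl
    rw [h]
    have hne := h1 e List.mem_cons_self
    refine List.Nodup.append ?_ (ih ⟨fun f hf => h1 f (List.mem_cons_of_mem _ hf), h2.2⟩) ?_
    · split_ifs with h3 h4 h4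
      · exact absurd (h3.trans h4.symm) hne
      · simp
      · simp
      · simp
    · intro v hv hv'
      obtain ⟨f, hf, hf'⟩ := mem_nbs.1 hv'
      refine h2.1 f hf ?_
      rw [hf']
      unfold vs
      rcases List.mem_append.1 hv with hv | hv
      · split_ifs at hv with h3
        · rw [h3, List.mem_singleton.1 hv]
        · simp at hv
      · split_ifs at hv with h3
        · rw [h3, List.mem_singleton.1 hv, Sym2.eq_swap]
        · simp at hv

theorem countP_range_div (n d : ℕ) (hd : 0 < d) (u : ℕ) :
    (List.range (n * d)).countP (fun i => decide (i / d = u)) = if u < n then d else 0 := by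
  induction n with
  | zero => simp
  | succ n ih =>
    rw [add_mul, one_mul, List.range_add, List.countP_append, ih, List.countP_map]
    have : ((fun i => decide (i / d = u)) ∘ fun x => n * d + x) = fun x => decide
        ((n * d + x) / d = u) := rfl
    rw [this]
    by_cases h : u = n
    · have h1 : (List.range d).countP (fun x => decide ((n * d + x) / d = u)) = d := by
        conv_rhs => rw [← List.length_range (n := d)]
        rw [List.countP_eq_length]
        intro x hx
        rw [List.mem_range] at hx
        rw [decide_eq_true_eq, h, add_comm, Nat.add_mul_div_right _ _ hd, Nat.div_eq_of_lt hx,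
          zero_add]
      rw [h1, if_neg (by omega), if_pos (by omega), zero_add]
    · have h1 : (List.range d).countP (fun x => decide ((n * d + x) / d = u)) = 0 := by
        rw [List.countP_eq_zero]
        intro x hx
        rw [List.mem_range] at hx
        rw [decide_eq_true_eq, add_comm, Nat.add_mul_div_right _ _ hd, Nat.div_eq_of_lt hx,
          zero_add]
        exact fun h' => h h'.symm
      rw [h1, add_zero]
      by_cases h2 : u < n
      · rw [if_pos h2, if_pos (by omega)]
      · rw [if_neg h2, if_neg (by omega)]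

/-- The invariant: the free stubs and the stubs of all the pairs are all stubs, and the graph is
simple. -/
structure CInv (n d : ℕ) (F : List ℕ) (E : List (ℕ × ℕ)) : Prop where
  perm : (F ++ stubs E).Perm (List.range (n * d))
  simp : Simp d E

theorem CInv.nbs_le {n d : ℕ} {F : List ℕ} {E : List (ℕ × ℕ)} (h : CInv n d F E) (hd : 0 < d)
    (u : ℕ) : (nbs d E u).length ≤ d := by
  rw [length_nbs]
  have h1 := h.perm.countP_eq fun i => decide (i / d = u)
  rw [countP_range_div n d hd, List.countP_append] at h1
  split_ifs at h1 <;> omega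

theorem CInv.nodup {n d : ℕ} {F : List ℕ} {E : List (ℕ × ℕ)} (h : CInv n d F E) :
    (F ++ stubs E).Nodup := h.perm.nodup_iff.2 List.nodup_range

/-- The number of elements of a list without repetitions with values in a list of vertices. -/
theorem length_le_of_div_mem {d : ℕ} (hd : 0 < d) {L W : List ℕ} (hL : L.Nodup)
    (h : ∀ i ∈ L, i / d ∈ W) : L.length ≤ W.length * d := by
  induction W generalizing L with
  | nil =>
    rcases L with _ | ⟨a, L⟩
    · simp
    · exact absurd (h a List.mem_cons_self) (by simp)
  | cons w W ih =>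
    have h1 : L.length = (L.filter fun i => decide (i / d = w)).length +
        (L.filter fun i => !decide (i / d = w)).length := by
      rw [← List.countP_eq_length_filter, ← List.countP_eq_length_filter]
      rw [List.length_eq_countP_add_countP (fun i => decide (i / d = w)) (l := L)]
      congr 2
      ext i
      simp
    have h2 := ih (hL.filter fun i => !decide (i / d = w)) fun i hi => by
      rw [List.mem_filter] at hi
      have h3 := h i hi.1
      rw [List.mem_cons] at h3
      rcases h3 with h3 | h3
      · simp [h3] at hi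
      · exact h3
    have h3 : (L.filter fun i => decide (i / d = w)).length ≤ d := by
      have h4 : (L.filter fun i => decide (i / d = w)) ⊆
          (List.range ((w + 1) * d)).filter fun i => decide (i / d = w) := by
        intro i hi
        rw [List.mem_filter, decide_eq_true_eq] at hi
        rw [List.mem_filter, decide_eq_true_eq, List.mem_range]
        refine ⟨?_, hi.2⟩
        rw [← hi.2]
        exact Nat.lt_of_lt_of_le (Nat.lt_mul_div_succ i hd) (by rw [mul_comm])
      have h5 := (List.subperm_of_subset (hL.filter _) h4).length_le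
      rw [← List.countP_eq_length_filter (l := List.range ((w + 1) * d)),
        countP_range_div _ _ hd, if_pos (by omega)] at h5
      exact h5
    rw [List.length_cons, add_mul, one_mul]
    omega

theorem stubs_perm {E E' : List (ℕ × ℕ)} (h : E.Perm E') : (stubs E).Perm (stubs E') :=
  h.flatMap_right _

theorem Simp.perm {d : ℕ} {E E' : List (ℕ × ℕ)} (hE : Simp d E) (h : E.Perm E') : Simp d E' :=
  ⟨fun e he => hE.1 e (h.mem_iff.2 he), (h.pairwise_iff fun h' => h'.symm).1 hE.2⟩

theorem nodup_of_stubs {E : List (ℕ × ℕ)} (h : (stubs E).Nodup) :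
    E.Nodup ∧ (E.map Prod.fst).Nodup ∧ (E.map Prod.snd).Nodup := by
  have key : ∀ (e : ℕ × ℕ) (E : List (ℕ × ℕ)), e ∈ E → e.1 ∈ stubs E ∧ e.2 ∈ stubs E := by
    intro e E he
    exact ⟨List.mem_flatMap.2 ⟨e, he, by simp⟩, List.mem_flatMap.2 ⟨e, he, by simp⟩⟩
  induction E with
  | nil => simp
  | cons e E ih =>
    rw [stubs_cons, List.nodup_cons, List.nodup_cons] at h
    obtain ⟨h1, h2, h3⟩ := ih h.2.2
    refine ⟨List.nodup_cons.2 ⟨fun he => h.2.1 (key e E he).2, h1⟩, ?_, ?_⟩
    · rw [List.map_cons, List.nodup_cons]
      refine ⟨fun he => ?_, h2⟩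
      obtain ⟨f, hf, hf'⟩ := List.mem_map.1 he
      exact h.1 (List.mem_cons_of_mem _ (hf' ▸ (key f E hf).1))
    · rw [List.map_cons, List.nodup_cons]
      refine ⟨fun he => ?_, h3⟩
      obtain ⟨f, hf, hf'⟩ := List.mem_map.1 he
      exact h.2.1 (hf' ▸ (key f E hf).2)

theorem filter_ne_perm {β : Type*} [DecidableEq β] {L : List β} (hL : L.Nodup) {b : β}
    (hb : b ∈ L) : L.Perm (b :: L.filter fun i => decide (i ≠ b)) := by
  have h1 := List.perm_cons_erase hb
  rw [hL.erase_eq_filter b] at h1
  refine h1.trans (List.Perm.cons _ (List.Perm.of_eq (List.filter_congr fun x _ => ?_)))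
  by_cases h : x = b <;> simp [h]

theorem compStep_cons (d : ℕ) (E₀ En : List (ℕ × ℕ)) (a c : ℕ) (T' : List ℕ) :
    compStep d E₀ (a :: c :: T', En) =
      if okE d (En ++ E₀) a (((c :: T').find? fun b => okE d (En ++ E₀) a b).getD a) = true then
        ((c :: T').filter fun i => decide (i ≠
          ((c :: T').find? fun b => okE d (En ++ E₀) a b).getD a),
          (a, ((c :: T').find? fun b => okE d (En ++ E₀) a b).getD a) :: En)
      else
        (T', (a, ((En.find? fun e => swapOk d (En ++ E₀) a c e).getD (0, 0)).1) ::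
          (c, ((En.find? fun e => swapOk d (En ++ E₀) a c e).getD (0, 0)).2) ::
          En.filter fun e' => decide (e' ≠
            (En.find? fun e => swapOk d (En ++ E₀) a c e).getD (0, 0))) := rfl

/-- One step of the completion. -/
theorem compStep_inv {n d : ℕ} (hd : 3 ≤ d) {E₀ : List (ℕ × ℕ)} {s : List ℕ × List (ℕ × ℕ)}
    (h : CInv n d s.1 (s.2 ++ E₀)) (h2 : 2 ≤ s.1.length)
    (hN : 8 * d ^ 2 ≤ s.1.length + 2 * s.2.length) :
    CInv n d (compStep d E₀ s).1 ((compStep d E₀ s).2 ++ E₀) ∧
      (compStep d E₀ s).1.length + 2 = s.1.length ∧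
      (compStep d E₀ s).2.length = s.2.length + 1 := by
  obtain ⟨F, En⟩ := s
  simp only at h h2 hN
  obtain ⟨a, T, rfl⟩ : ∃ a T, F = a :: T := by
    rcases F with _ | ⟨a, T⟩
    · simp at h2
    · exact ⟨a, T, rfl⟩
  obtain ⟨c, T', rfl⟩ : ∃ c T', T = c :: T' := by
    rcases T with _ | ⟨a, T⟩
    · simp at h2
    · exact ⟨a, T, rfl⟩
  have hd0 : 0 < d := by omega
  have hnd := h.nodup
  have hndF : (a :: c :: T').Nodup := (List.nodup_append.1 hnd).1
  have hnds : (stubs (En ++ E₀)).Nodup := (List.nodup_append.1 hnd).2.1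
  rw [compStep_cons]
  by_cases hok : okE d (En ++ E₀) a
      (((c :: T').find? fun b => okE d (En ++ E₀) a b).getD a) = true
  · -- a new edge
    rw [if_pos hok]
    rcases e : ((c :: T').find? fun b => okE d (En ++ E₀) a b) with _ | b
    · rw [e, Option.getD_none, okE_iff] at hok
      exact absurd rfl hok.1
    have hb : b ∈ c :: T' := List.mem_of_find?_eq_some e
    have hok' := okE_iff.1 (List.find?_some e)
    have hp := filter_ne_perm (List.nodup_cons.1 hndF).2 hb
    simp only [Option.getD_some]
    refine ⟨⟨?_, ?_⟩, ?_, by simp⟩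
    · refine List.Perm.trans ?_ h.perm
      rw [List.cons_append, stubs_cons]
      have h3 : (a :: c :: T').Perm (a :: b :: (c :: T').filter fun i => decide (i ≠ b)) :=
        hp.cons _
      refine List.Perm.trans ?_ (h3.append_right _).symm
      rw [List.cons_append, List.cons_append]
      exact List.perm_middle.trans (List.Perm.cons _ List.perm_middle)
    · refine ⟨fun f hf => ?_, ?_⟩
      · rcases List.mem_cons.1 hf with rfl | hf
        · exact hok'.1
        · exact h.simp.1 f hf
      · rw [List.cons_append, List.pairwise_cons]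
        exact ⟨fun f hf h' => hok'.2 f hf h'.symm, h.simp.2⟩
    · have := hp.length_eq
      simp only [List.length_cons] at this ⊢
      omega
  · -- switching
    rw [if_neg hok]
    have hT : ∀ b ∈ c :: T', b / d ∈ a / d :: nbs d (En ++ E₀) (a / d) := by
      intro b hb
      rcases e : ((c :: T').find? fun b => okE d (En ++ E₀) a b) with _ | b'
      · rw [List.find?_eq_none] at e
        have h3 := e b hb
        rw [okE_iff] at h3
        push Not at h3
        by_cases h4 : a / d = b / d
        · rw [h4]; exact List.mem_cons_self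
        · obtain ⟨f, hf, hf'⟩ := h3 h4
          exact List.mem_cons_of_mem _ (mem_nbs.2 ⟨f, hf, hf'⟩)
      · exfalso
        rw [e, Option.getD_some] at hok
        exact hok (List.find?_some (p := fun b => okE d (En ++ E₀) a b) e)
    have hTl := length_le_of_div_mem hd0 (List.nodup_cons.1 hndF).2 hT
    have hna := h.nbs_le hd0 (a / d)
    have hnc := h.nbs_le hd0 (c / d)
    rw [List.length_cons] at hTl
    have hnds' : (stubs En).Nodup := by
      rw [stubs_append] at hnds
      exact (List.nodup_append.1 hnds).1
    obtain ⟨hE1, hE2, hE3⟩ := nodup_of_stubs hnds'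
    rcases e : (En.find? fun e => swapOk d (En ++ E₀) a c e) with _ | e₁
    · exfalso
      rw [List.find?_eq_none] at e
      have key : ∀ f ∈ En, ¬ (f.1 / d ∈ a / d :: c / d :: nbs d (En ++ E₀) (a / d)) →
          f.2 / d ∈ c / d :: nbs d (En ++ E₀) (c / d) := by
        intro f hf hf1
        by_contra hf2
        rw [List.mem_cons, List.mem_cons] at hf1
        rw [List.mem_cons] at hf2
        push Not at hf1 hf2
        refine e f hf ?_
        unfold swapOk
        rw [Bool.and_eq_true, Bool.and_eq_true, okE_iff, okE_iff, Bool.not_eq_true',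
          decide_eq_false_iff_not]
        refine ⟨⟨⟨fun h' => hf1.1 h'.symm, fun g hg hg' => hf1.2.2 (mem_nbs.2 ⟨g, hg, hg'⟩)⟩,
          fun h' => hf2.1 h'.symm, fun g hg hg' => hf2.2 (mem_nbs.2 ⟨g, hg, hg'⟩)⟩, hf1.2.1⟩
      have hc := List.length_eq_countP_add_countP
        (fun f : ℕ × ℕ => decide (f.1 / d ∈ a / d :: c / d :: nbs d (En ++ E₀) (a / d))) (l := En)
      rw [List.countP_eq_length_filter, List.countP_eq_length_filter] at hc
      have hc1 : (En.filter fun f : ℕ × ℕ => decide (f.1 / d ∈ a / d :: c / d ::
          nbs d (En ++ E₀) (a / d))).length ≤ (d + 2) * d := by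
        have := length_le_of_div_mem (L := (En.filter fun f : ℕ × ℕ => decide (f.1 / d ∈ a / d ::
          c / d :: nbs d (En ++ E₀) (a / d))).map Prod.fst) hd0
          (hE2.sublist ((List.filter_sublist).map _)) (W := a / d ::
          c / d :: nbs d (En ++ E₀) (a / d)) fun i hi => by
            obtain ⟨f, hf, rfl⟩ := List.mem_map.1 hi
            exact of_decide_eq_true (List.mem_filter.1 hf).2
        rw [List.length_map] at this
        refine this.trans (Nat.mul_le_mul_right _ ?_)
        simp only [List.length_cons]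
        omega
      have hc2 : (En.filter fun f : ℕ × ℕ => decide (¬ (decide (f.1 / d ∈ a / d :: c / d ::
          nbs d (En ++ E₀) (a / d)) = true))).length ≤ (d + 1) * d := by
        have := length_le_of_div_mem (L := (En.filter fun f : ℕ × ℕ => decide
          (¬ (decide (f.1 / d ∈ a / d :: c / d ::
          nbs d (En ++ E₀) (a / d)) = true))).map Prod.snd) hd0
          (hE3.sublist ((List.filter_sublist).map _)) (W := c / d :: nbs d (En ++ E₀) (c / d))
          fun i hi => by
            obtain ⟨f, hf, rfl⟩ := List.mem_map.1 hi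
            have h5 := of_decide_eq_true (List.mem_filter.1 hf).2
            rw [decide_eq_true_eq] at h5
            exact key f (List.mem_filter.1 hf).1 h5
        rw [List.length_map] at this
        refine this.trans (Nat.mul_le_mul_right _ ?_)
        simp only [List.length_cons]
        omega
      have h6 : (a :: c :: T').length ≤ (d + 1) * d + 1 := by
        rw [List.length_cons] at hTl
        simp only [List.length_cons]
        have : ((nbs d (En ++ E₀) (a / d)).length + 1) * d ≤ (d + 1) * d :=
          Nat.mul_le_mul_right _ (by omega)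
        omega
      have h7 : 8 * d ^ 2 ≤ (d + 1) * d + 1 + 2 * ((d + 2) * d + (d + 1) * d) := by omega
      nlinarith
    have he₁ : e₁ ∈ En := List.mem_of_find?_eq_some e
    have hsw := List.find?_some e
    unfold swapOk at hsw
    rw [Bool.and_eq_true, Bool.and_eq_true, okE_iff, okE_iff, Bool.not_eq_true',
          decide_eq_false_iff_not] at hsw
    obtain ⟨⟨⟨ha1, ha2⟩, hc1, hc2⟩, hne⟩ := hsw
    have hp := filter_ne_perm hE1 he₁
    have hp' : (En ++ E₀).Perm (e₁ :: ((En.filter fun i => decide (i ≠ e₁)) ++ E₀)) :=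
      hp.append_right _
    have hs' := h.simp.perm hp'
    simp only [Option.getD_some]
    refine ⟨⟨?_, ?_⟩, by simp, ?_⟩
    · refine List.Perm.trans ?_ h.perm
      refine List.Perm.trans ?_ ((stubs_perm hp').append_left _).symm
      simp only [List.cons_append, stubs_cons]
      generalize stubs ((En.filter fun i => decide (i ≠ e₁)) ++ E₀) = S
      have e1 : (T' ++ a :: e₁.1 :: c :: e₁.2 :: S) = T' ++ ([a, e₁.1, c, e₁.2] ++ S) := rfl
      have e2 : (a :: c :: (T' ++ e₁.1 :: e₁.2 :: S)) = [a, c] ++ (T' ++ ([e₁.1, e₁.2] ++ S)) :=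
        rfl
      rw [e1, e2, ← Multiset.coe_eq_coe]
      simp only [← Multiset.coe_add]
      have e3 : (([a, e₁.1, c, e₁.2] : List ℕ) : Multiset ℕ) = ([a, c] : List ℕ) +
          ([e₁.1, e₁.2] : List ℕ) := by
        rw [Multiset.coe_add, Multiset.coe_eq_coe]
        exact List.Perm.cons _ (List.Perm.swap _ _ _)
      rw [e3]
      abel
    · obtain ⟨hs1, hs2⟩ := hs'
      rw [List.pairwise_cons] at hs2
      have hmem : ∀ f ∈ ((En.filter fun i => decide (i ≠ e₁)) ++ E₀), f ∈ En ++ E₀ :=
        fun f hf => hp'.mem_iff.2 (List.mem_cons_of_mem _ hf)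
      refine ⟨fun f hf => ?_, ?_⟩
      · rcases List.mem_cons.1 hf with rfl | hf
        · exact ha1
        · rcases List.mem_cons.1 hf with rfl | hf
          · exact hc1
          · exact h.simp.1 f (hmem f hf)
      · rw [List.cons_append, List.cons_append, List.pairwise_cons, List.pairwise_cons]
        refine ⟨fun f hf => ?_, fun f hf h' => hc2 f (hmem f hf) h'.symm, hs2.2⟩
        rcases List.mem_cons.1 hf with rfl | hf
        · intro h'
          unfold vs at h'
          rw [Sym2.eq_iff] at h'
          rcases h' with h' | h'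
          · exact h.simp.1 e₁ (List.mem_append_left _ he₁) h'.2
          · exact hne h'.2
        · exact fun h' => ha2 f (hmem f hf) h'.symm
    · have := hp.length_eq
      simp only [List.length_cons] at this ⊢
      omega

/-- Correctness of the completion. -/
theorem comp_correct {n d : ℕ} (hd : 3 ≤ d) {F : List ℕ} {E₀ : List (ℕ × ℕ)}
    (h : CInv n d F E₀) (hF : Even F.length) (hN : 8 * d ^ 2 ≤ F.length) :
    CInv n d [] (comp d F E₀) ∧ ∀ e ∈ E₀, e ∈ comp d F E₀ := by
  have key : ∀ k, 2 * k ≤ F.length →
      CInv n d ((compStep d E₀)^[k] (F, [])).1 (((compStep d E₀)^[k] (F, [])).2 ++ E₀) ∧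
      ((compStep d E₀)^[k] (F, [])).1.length + 2 * k = F.length ∧
      ((compStep d E₀)^[k] (F, [])).2.length = k := by
    intro k
    induction k with
    | zero => exact fun _ => ⟨h, rfl, rfl⟩
    | succ k ih =>
      intro hk
      obtain ⟨h1, h2, h3⟩ := ih (by omega)
      rw [Function.iterate_succ_apply']
      obtain ⟨g1, g2, g3⟩ := compStep_inv hd h1 (by omega) (by omega)
      exact ⟨g1, by omega, by omega⟩
  obtain ⟨r, hr⟩ := hF
  have hk : F.length / 2 = r := by omega
  obtain ⟨h1, h2, h3⟩ := key r (by omega)
  unfold comp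
  rw [hk]
  have h4 : ((compStep d E₀)^[r] (F, [])).1 = [] := List.eq_nil_of_length_eq_zero (by omega)
  rw [h4] at h1
  exact ⟨h1, fun e he => List.mem_append_right _ he⟩

end Vale.Agent.P049.TS
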