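import Mathlib

/-!
The number `kapN = ⌊d (d-2) n / √(d-1)⌋`.
-/

namespace Vale.Agent.P049.TS

/-- `⌊d (d-2) n / √(d-1)⌋` -/
def kapN (n d : ℕ) : ℕ := Nat.sqrt (d ^ 2 * (d - 2) ^ 2 * n ^ 2 / (d - 1))

theorem kapN_le (n d : ℕ) : kapN n d ≤ d * d * n := by
  unfold kapN
  have h1 : d ^ 2 * (d - 2) ^ 2 * n ^ 2 / (d - 1) ≤ (d * d * n) * (d * d * n) := by
    refine (Nat.div_le_self _ _).trans ?_
    have h2 : (d - 2) ^ 2 ≤ d ^ 2 := Nat.pow_le_pow_left (Nat.sub_le _ _) 2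
    calc d ^ 2 * (d - 2) ^ 2 * n ^ 2 ≤ d ^ 2 * d ^ 2 * n ^ 2 := by gcongr
      _ = (d * d * n) * (d * d * n) := by ring
  exact (Nat.sqrt_le_sqrt h1).trans_eq (Nat.sqrt_eq _)

/-- the same number computed on lists -/
theorem kapN_eq (n d : ℕ) : kapN n d = ((List.range (d * d * n + 1)).filter fun i =>
    decide (i * i ≤ d ^ 2 * (d - 2) ^ 2 * n ^ 2 / (d - 1))).length - 1 := by
  have h0 := kapN_le n d
  have hiff : ∀ i, i ≤ kapN n d ↔ i * i ≤ d ^ 2 * (d - 2) ^ 2 * n ^ 2 / (d - 1) :=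
    fun i => Nat.le_sqrt
  generalize d ^ 2 * (d - 2) ^ 2 * n ^ 2 / (d - 1) = M at *
  generalize kapN n d = k at *
  have h : (List.range (d * d * n + 1)).filter (fun i => decide (i * i ≤ M)) =
      List.range (k + 1) := by
    have e : d * d * n + 1 = (k + 1) + (d * d * n - k) := by omega
    rw [e, List.range_add, List.filter_append]
    have h1 : (List.range (k + 1)).filter (fun i => decide (i * i ≤ M)) =
        List.range (k + 1) := by
      rw [List.filter_eq_self]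
      intro s hs
      rw [List.mem_range] at hs
      exact decide_eq_true ((hiff s).1 (by omega))
    have h2 : ((List.range (d * d * n - k)).map (k + 1 + ·)).filter
        (fun i => decide (i * i ≤ M)) = [] := by
      rw [List.filter_eq_nil_iff]
      intro s hs
      obtain ⟨i, -, rfl⟩ := List.mem_map.1 hs
      rw [decide_eq_true_eq, ← hiff]
      omega
    rw [h1, h2, List.append_nil]
  rw [h, List.length_range]
  rfl

theorem abs_kapN_sub_le {n d : ℕ} (hd : 3 ≤ d) :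
    |(kapN n d : ℝ) - d * (d - 2) * n / √((d : ℝ) - 1)| ≤ 1 := by
  have hd' : (3 : ℝ) ≤ d := by exact_mod_cast hd
  have hd1 : (0 : ℝ) < (d : ℝ) - 1 := by linarith
  have hD : ((d - 1 : ℕ) : ℝ) = (d : ℝ) - 1 := by rw [Nat.cast_sub (by omega)]; simp
  have hD2 : ((d - 2 : ℕ) : ℝ) = (d : ℝ) - 2 := by rw [Nat.cast_sub (by omega)]; simp
  set k := kapN n d with hk
  set M := d ^ 2 * (d - 2) ^ 2 * n ^ 2 with hM
  have h1 : k * k ≤ M / (d - 1) := Nat.sqrt_le _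
  have h2 : M / (d - 1) < (k + 1) * (k + 1) := Nat.sqrt_lt.1 (Nat.lt_succ_self _)
  have h3 : k * k * (d - 1) ≤ M := (Nat.le_div_iff_mul_le (by omega)).1 h1
  have h4 : M < (k + 1) * (k + 1) * (d - 1) := (Nat.div_lt_iff_lt_mul (by omega)).1 h2
  have h3' : (k : ℝ) ^ 2 * ((d : ℝ) - 1) ≤ (d * (d - 2) * n) ^ 2 := by
    have : ((k * k * (d - 1) : ℕ) : ℝ) ≤ ((M : ℕ) : ℝ) := by exact_mod_cast h3
    rw [hM] at this
    push_cast [hD, hD2] at this
    nlinarith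
  have h4' : ((d : ℝ) * (d - 2) * n) ^ 2 < ((k : ℝ) + 1) ^ 2 * ((d : ℝ) - 1) := by
    have : ((M : ℕ) : ℝ) < (((k + 1) * (k + 1) * (d - 1) : ℕ) : ℝ) := by exact_mod_cast h4
    rw [hM] at this
    push_cast [hD, hD2] at this
    nlinarith
  set w := √((d : ℝ) - 1) with hw
  have hw0 : 0 < w := Real.sqrt_pos.2 hd1
  have hw2 : (d : ℝ) - 1 = w ^ 2 := (Real.sq_sqrt hd1.le).symm
  have hX : 0 ≤ (d : ℝ) * (d - 2) * n := by
    have : (0 : ℝ) ≤ (d : ℝ) - 2 := by linarith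
    positivity
  rw [hw2, ← mul_pow] at h3' h4'
  have h5 : (k : ℝ) * w ≤ (d : ℝ) * (d - 2) * n := le_of_sq_le_sq h3' hX
  have h6 : (d : ℝ) * (d - 2) * n < ((k : ℝ) + 1) * w :=
    lt_of_pow_lt_pow_left₀ 2 (by positivity) h4'
  rw [abs_sub_le_iff]
  constructor
  · rw [sub_le_iff_le_add, ← sub_le_iff_le_add', le_div_iff₀ hw0]
    nlinarith
  · rw [sub_le_iff_le_add, div_le_iff₀ hw0]
    nlinarith

end Vale.Agent.P049.TS
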