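import Vale.Agent.P049.TS.Alg.Alg

/-!
Fixed point versions of the quantities used in the potential; all numbers are scaled by `q`.
-/

namespace Vale.Agent.P049.TS

/-- product of two fixed point numbers -/
def fmul (q x y : ℤ) : ℤ := x * y / q

/-- product of two fixed point matrices -/
def mulM (q : ℤ) (R : List ℕ) (A B : List (List ℤ)) : List (List ℤ) :=
  R.map fun i => R.map fun j => (R.map fun k => fmul q (ent A i k) (ent B k j)).sum

/-- trace -/
def trM (R : List ℕ) (A : List (List ℤ)) : ℤ := (R.map fun i => ent A i i).sum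

/-- trace of a product -/
def trMul (q : ℤ) (R : List ℕ) (A B : List (List ℤ)) : ℤ :=
  (R.map fun i => (R.map fun j => fmul q (ent A i j) (ent B j i)).sum).sum

/-- sum of the squares of the diagonal entries minus `t` over a list of indices -/
def dgM (q t : ℤ) (L : List ℕ) (A : List (List ℤ)) : ℤ :=
  (L.map fun i => fmul q (ent A i i - t) (ent A i i - t)).sum

/-- The values for one sign: `T₁, T₂, T₃, T₄`, `∑ Z_aa²`, `∑ (w_a - 1)²`, `∑ w_a²`
(the sums over the free stubs). -/
def vals (q : ℤ) (R L : List ℕ) (M M2 : List (List ℤ)) : List ℤ :=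
  [trM R M, trMul q R M M, trMul q R M2 M, trMul q R M2 M2, dgM q 0 L M, dgM q q L M2,
    dgM q 0 L M2]

/-- All values: for `Z₊`, for `Z₋`, and the trace of `Z₊² Z₋²`. -/
def allVals (q : ℤ) (R : List ℕ) (s : St) : List ℤ × List ℤ × ℤ :=
  (vals q R s.1 s.2.1.1 (mulM q R s.2.1.1 s.2.1.1),
    vals q R s.1 s.2.1.2 (mulM q R s.2.1.2 s.2.1.2),
    trMul q R (mulM q R s.2.1.1 s.2.1.1) (mulM q R s.2.1.2 s.2.1.2))

end Vale.Agent.P049.TS
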