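import Vale.Agent.P049.TS.Alg.Rel
import Vale.Agent.P049.TS.Alg.Fun

/-!
Error calculus for fixed point numbers: `Nice q e P k x X` says that `x / q` approximates `X`
with error `e P ^ k` and `|X| ≤ P ^ k`.
-/

namespace Vale.Agent.P049.TS

open Finset

/-- the parameters of the error calculus -/
structure NP (q : ℤ) (e P : ℝ) : Prop where
  hq : 0 < q
  hP : 4 ≤ P
  he : 0 ≤ e
  he1 : e ≤ 1
  hqe : 1 / (q : ℝ) ≤ e

/-- `x / q` approximates `X` with error `e P ^ k`, and `|X| ≤ P ^ k` -/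
structure Nice (q : ℤ) (e P : ℝ) (k : ℕ) (x : ℤ) (X : ℝ) : Prop where
  size : |X| ≤ P ^ k
  err : |(x : ℝ) / q - X| ≤ e * P ^ k

section

variable {q : ℤ} {e P : ℝ} {k k' l : ℕ} {x y : ℤ} {X Y : ℝ}

theorem NP.hP1 (h : NP q e P) : 1 ≤ P := by have := h.hP; linarith

theorem NP.pow_le (h : NP q e P) (hk : k ≤ l) : P ^ k ≤ P ^ l := pow_le_pow_right₀ h.hP1 hk

theorem NP.pow_pos (h : NP q e P) (k : ℕ) : 0 < P ^ k := by
  have := h.hP1
  positivity

theorem NP.four_mul_le (h : NP q e P) (k : ℕ) : 4 * P ^ k ≤ P ^ (k + 1) := by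
  rw [pow_succ]
  have := h.pow_pos k
  nlinarith [h.hP]

theorem Nice.mono (h : NP q e P) (hx : Nice q e P k x X) (hk : k ≤ l) : Nice q e P l x X :=
  ⟨hx.size.trans (h.pow_le hk), hx.err.trans (mul_le_mul_of_nonneg_left (h.pow_le hk) h.he)⟩

theorem Nice.neg (hx : Nice q e P k x X) : Nice q e P k (-x) (-X) := by
  refine ⟨by rw [abs_neg]; exact hx.size, ?_⟩
  have : ((-x : ℤ) : ℝ) / q - -X = -((x : ℝ) / q - X) := by push_cast; ring
  rw [this, abs_neg]
  exact hx.err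

theorem Nice.add (h : NP q e P) (hx : Nice q e P k x X) (hy : Nice q e P k y Y) :
    Nice q e P (k + 1) (x + y) (X + Y) := by
  have h4 := h.four_mul_le k
  have h5 := h.pow_pos k
  refine ⟨(abs_add_le _ _).trans (by linarith [hx.size, hy.size]), ?_⟩
  have : ((x + y : ℤ) : ℝ) / q - (X + Y) = ((x : ℝ) / q - X) + ((y : ℝ) / q - Y) := by
    push_cast; ring
  rw [this]
  refine (abs_add_le _ _).trans ?_
  have h6 : e * (4 * P ^ k) ≤ e * P ^ (k + 1) := mul_le_mul_of_nonneg_left h4 h.he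
  have h7 : 0 ≤ e * P ^ k := mul_nonneg h.he h5.le
  linarith [hx.err, hy.err]

theorem Nice.add' (h : NP q e P) (hx : Nice q e P k x X) (hy : Nice q e P k' y Y) :
    Nice q e P (max k k' + 1) (x + y) (X + Y) :=
  (hx.mono h (le_max_left _ _)).add h (hy.mono h (le_max_right _ _))

theorem Nice.sub' (h : NP q e P) (hx : Nice q e P k x X) (hy : Nice q e P k' y Y) :
    Nice q e P (max k k' + 1) (x - y) (X - Y) := by
  rw [sub_eq_add_neg, sub_eq_add_neg]
  exact hx.add' h hy.neg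

/-- natural number constants -/
theorem Nice.nat (h : NP q e P) {c : ℕ} (hc : (c : ℝ) ≤ P ^ k) :
    Nice q e P k (c * q) c := by
  have hq : (q : ℝ) ≠ 0 := by exact_mod_cast h.hq.ne'
  refine ⟨by rw [Nat.abs_cast]; exact hc, ?_⟩
  have : ((c * q : ℤ) : ℝ) / q - c = 0 := by push_cast; field_simp; simp
  rw [this, abs_zero]
  exact mul_nonneg h.he (h.pow_pos k).le

theorem Nice.one (h : NP q e P) : Nice q e P 0 q 1 := by
  have := Nice.nat (k := 0) (c := 1) h (by simp)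
  simpa using this

theorem Nice.zero (h : NP q e P) : Nice q e P 0 0 0 := by
  have := Nice.nat (k := 0) (c := 0) h (by simp)
  simpa using this

theorem Nice.ediv_err (h : NP q e P) (N : ℤ) {D : ℤ} (hD : 0 < D) :
    |((N / D : ℤ) : ℝ) / q - (N : ℝ) / D / q| ≤ e := by
  have hq : (0 : ℝ) < q := by exact_mod_cast h.hq
  rw [← sub_div, abs_div, abs_of_pos hq]
  refine le_trans ?_ h.hqe
  have := abs_ediv_sub_le (N := N) hD
  gcongr

/-- products -/
theorem Nice.mul (h : NP q e P) (hx : Nice q e P k x X) (hy : Nice q e P k' y Y) :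
    Nice q e P (k + k' + 1) (fmul q x y) (X * Y) := by
  have hq : (0 : ℝ) < q := by exact_mod_cast h.hq
  have h4 := h.four_mul_le (k + k')
  have hk := h.pow_pos k
  have hk' := h.pow_pos k'
  have hkk : P ^ (k + k') = P ^ k * P ^ k' := pow_add _ _ _
  have hP0 : 0 < P ^ (k + k') := h.pow_pos _
  have hs : |X * Y| ≤ P ^ (k + k') := by
    rw [abs_mul, hkk]
    exact mul_le_mul hx.size hy.size (abs_nonneg _) hk.le
  refine ⟨hs.trans (by linarith), ?_⟩
  set dx := (x : ℝ) / q - X with hdx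
  set dy := (y : ℝ) / q - Y with hdy
  have e1 : ((x * y : ℤ) : ℝ) / q / q = ((x : ℝ) / q) * ((y : ℝ) / q) := by
    push_cast; field_simp
  have e2 : (fmul q x y : ℝ) / q - X * Y = ((fmul q x y : ℝ) / q - ((x * y : ℤ) : ℝ) / q / q) +
      (X * dy + Y * dx + dx * dy) := by
    rw [e1, hdx, hdy]; ring
  rw [e2]
  have h1 : |(fmul q x y : ℝ) / q - ((x * y : ℤ) : ℝ) / q / q| ≤ e :=
    Nice.ediv_err h (x * y) h.hq
  have h2 : |X * dy| ≤ e * P ^ (k + k') := by
    rw [abs_mul, hkk]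
    calc |X| * |dy| ≤ P ^ k * (e * P ^ k') := mul_le_mul hx.size hy.err (abs_nonneg _) hk.le
      _ = e * (P ^ k * P ^ k') := by ring
  have h3 : |Y * dx| ≤ e * P ^ (k + k') := by
    rw [abs_mul, hkk]
    calc |Y| * |dx| ≤ P ^ k' * (e * P ^ k) := mul_le_mul hy.size hx.err (abs_nonneg _) hk'.le
      _ = e * (P ^ k * P ^ k') := by ring
  have h5 : |dx * dy| ≤ e * P ^ (k + k') := by
    rw [abs_mul, hkk]
    calc |dx| * |dy| ≤ (e * P ^ k) * (e * P ^ k') :=
          mul_le_mul hx.err hy.err (abs_nonneg _) (mul_nonneg h.he hk.le)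
      _ = e * (e * (P ^ k * P ^ k')) := by ring
      _ ≤ e * (1 * (P ^ k * P ^ k')) := by
          have := h.he
          have := h.he1
          gcongr
      _ = e * (P ^ k * P ^ k') := by ring
  have h6 : e ≤ e * P ^ (k + k') := by
    have : 1 ≤ P ^ (k + k') := one_le_pow₀ h.hP1
    nlinarith [h.he]
  have h7 : e * (4 * P ^ (k + k')) ≤ e * P ^ (k + k' + 1) :=
    mul_le_mul_of_nonneg_left h4 h.he
  have h8 := abs_add_le ((fmul q x y : ℝ) / q - ((x * y : ℤ) : ℝ) / q / q)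
    (X * dy + Y * dx + dx * dy)
  have h9 := abs_add_le (X * dy + Y * dx) (dx * dy)
  have h10 := abs_add_le (X * dy) (Y * dx)
  linarith

/-- multiplication by a natural number -/
theorem Nice.natMul (h : NP q e P) {c : ℕ} (hc : (c : ℝ) ≤ P ^ k') (hx : Nice q e P k x X) :
    Nice q e P (k + k') (c * x) (c * X) := by
  have hk := h.pow_pos k
  have hc0 : (0 : ℝ) ≤ c := Nat.cast_nonneg _
  refine ⟨?_, ?_⟩
  · rw [abs_mul, Nat.abs_cast, pow_add, mul_comm (P ^ k)]
    exact mul_le_mul hc hx.size (abs_nonneg _) (h.pow_pos k').le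
  · have : ((c * x : ℤ) : ℝ) / q - c * X = c * ((x : ℝ) / q - X) := by push_cast; ring
    rw [this, abs_mul, Nat.abs_cast, pow_add]
    calc (c : ℝ) * |(x : ℝ) / q - X| ≤ P ^ k' * (e * P ^ k) :=
          mul_le_mul hc hx.err (abs_nonneg _) (h.pow_pos k').le
      _ = e * (P ^ k * P ^ k') := by ring

/-- division by a natural number -/
theorem Nice.divNat (h : NP q e P) {D : ℕ} (hD : 0 < D) (hx : Nice q e P k x X) :
    Nice q e P (k + 1) (x / D) (X / D) := by
  have hD' : (0 : ℝ) < D := by exact_mod_cast hD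
  have hD1 : (1 : ℝ) ≤ D := by exact_mod_cast hD
  have h4 := h.four_mul_le k
  have hk := h.pow_pos k
  have key : ∀ y : ℝ, |y / D| ≤ |y| := fun y => by
    rw [abs_div, Nat.abs_cast]
    exact div_le_self (abs_nonneg _) hD1
  refine ⟨(key X).trans (hx.size.trans (by linarith)), ?_⟩
  have e1 : ((x / (D : ℤ) : ℤ) : ℝ) / q - X / D = (((x / (D : ℤ) : ℤ) : ℝ) / q -
      (x : ℝ) / ((D : ℤ) : ℝ) / q) + ((x : ℝ) / q - X) / D := by
    push_cast
    have hq : (q : ℝ) ≠ 0 := by exact_mod_cast h.hq.ne'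
    field_simp
    ring
  rw [e1]
  have h1 := Nice.ediv_err h x (D := (D : ℤ)) (by exact_mod_cast hD)
  have h2 := (key ((x : ℝ) / q - X)).trans hx.err
  have h6 : e ≤ e * P ^ k := by
    have : 1 ≤ P ^ k := one_le_pow₀ h.hP1
    nlinarith [h.he]
  have h7 : e * (4 * P ^ k) ≤ e * P ^ (k + 1) := mul_le_mul_of_nonneg_left h4 h.he
  have h8 : 0 ≤ e * P ^ k := mul_nonneg h.he hk.le
  refine (abs_add_le _ _).trans ?_
  linarith

/-- positive part -/
theorem Nice.pos (h : NP q e P) (hx : Nice q e P k x X) : Nice q e P k (max x 0) (max X 0) := by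
  have hq : (0 : ℝ) < q := by exact_mod_cast h.hq
  refine ⟨?_, ?_⟩
  · refine le_trans ?_ hx.size
    rw [abs_of_nonneg (le_max_right _ _)]
    exact max_le (le_abs_self _) (abs_nonneg _)
  · have : ((max x 0 : ℤ) : ℝ) / q = max ((x : ℝ) / q) 0 := by
      rw [Int.cast_max, Int.cast_zero, ← max_div_div_right hq.le, zero_div]
    rw [this]
    exact (abs_max_sub_max_le_abs _ _ _).trans hx.err

theorem Nice.ite {p : Prop} [Decidable p] (hx : Nice q e P k x X) (hy : Nice q e P k y Y) :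
    Nice q e P k (if p then x else y) (if p then X else Y) := by
  split_ifs
  · exact hx
  · exact hy

/-- sums over a finite set of at most `P` elements -/
theorem Nice.sum {ι : Type*} (h : NP q e P) {s : Finset ι} (hs : (s.card : ℝ) ≤ P)
    {f : ι → ℤ} {F : ι → ℝ} (hf : ∀ i ∈ s, Nice q e P k (f i) (F i)) :
    Nice q e P (k + 1) (∑ i ∈ s, f i) (∑ i ∈ s, F i) := by
  have hk := h.pow_pos k
  refine ⟨?_, ?_⟩
  · calc |∑ i ∈ s, F i| ≤ ∑ i ∈ s, |F i| := abs_sum_le_sum_abs _ _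
      _ ≤ ∑ _i ∈ s, P ^ k := sum_le_sum fun i hi => (hf i hi).size
      _ = s.card * P ^ k := by rw [sum_const, nsmul_eq_mul]
      _ ≤ P * P ^ k := mul_le_mul_of_nonneg_right hs hk.le
      _ = P ^ (k + 1) := by rw [pow_succ, mul_comm]
  · have : ((∑ i ∈ s, f i : ℤ) : ℝ) / q - ∑ i ∈ s, F i = ∑ i ∈ s, ((f i : ℝ) / q - F i) := by
      rw [Int.cast_sum, sum_div, sum_sub_distrib]
    rw [this]
    calc |∑ i ∈ s, ((f i : ℝ) / q - F i)| ≤ ∑ i ∈ s, |(f i : ℝ) / q - F i| :=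
          abs_sum_le_sum_abs _ _
      _ ≤ ∑ _i ∈ s, e * P ^ k := sum_le_sum fun i hi => (hf i hi).err
      _ = s.card * (e * P ^ k) := by rw [sum_const, nsmul_eq_mul]
      _ ≤ P * (e * P ^ k) := mul_le_mul_of_nonneg_right hs (mul_nonneg h.he hk.le)
      _ = e * P ^ (k + 1) := by rw [pow_succ]; ring

end

/-! ### Sums over lists -/

theorem sum_map_range_eq {m : ℕ} (f : ℕ → ℤ) :
    ((List.range m).map f).sum = ∑ i : Fin m, f i := by
  rw [← List.sum_toFinset _ List.nodup_range, List.toFinset_range, Finset.sum_range]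

theorem sum_map_free {n d : ℕ} {q : ℤ} {e : ℝ} {s : St} {σ : RSt (Fin (n * d))}
    (h : Rel n d q e s σ) (f : ℕ → ℤ) : (s.1.map f).sum = ∑ i ∈ σ.F, f i.val := by
  have hnd : s.1.Nodup := (List.nodup_append.1 h.cinv.nodup).1
  rw [← List.sum_toFinset _ hnd]
  have : s.1.toFinset = σ.F.map ⟨Fin.val, Fin.val_injective⟩ := by
    ext i
    rw [List.mem_toFinset, h.free, Finset.mem_map]
    rfl
  rw [this, Finset.sum_map]
  rfl

/-! ### The quantities -/

section

variable {q : ℤ} {e P : ℝ} {k k' m : ℕ} {A B : List (List ℤ)} {X Y : Matrix (Fin m) (Fin m) ℝ}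

/-- all entries are nice -/
def NiceM (q : ℤ) (e P : ℝ) (k : ℕ) {m : ℕ} (A : List (List ℤ))
    (X : Matrix (Fin m) (Fin m) ℝ) : Prop :=
  ∀ i j : Fin m, Nice q e P k (ent A i j) (X i j)

theorem NiceM.mulM (h : NP q e P) (hm : (m : ℝ) ≤ P) (hA : NiceM q e P k A X)
    (hB : NiceM q e P k' B Y) :
    NiceM q e P (k + k' + 2) (mulM q (List.range m) A B) (X * Y) := by
  intro i j
  unfold TS.mulM
  rw [ent_map_range _ i.2 j.2, sum_map_range_eq, Matrix.mul_apply]
  exact Nice.sum h (by simpa using hm) fun k _ => (hA i k).mul h (hB k j)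

theorem NiceM.trM (h : NP q e P) (hm : (m : ℝ) ≤ P) (hA : NiceM q e P k A X) :
    Nice q e P (k + 1) (trM (List.range m) A) X.trace := by
  unfold TS.trM
  rw [sum_map_range_eq]
  exact Nice.sum h (by simpa using hm) fun i _ => hA i i

theorem NiceM.trMul (h : NP q e P) (hm : (m : ℝ) ≤ P) (hA : NiceM q e P k A X)
    (hB : NiceM q e P k' B Y) :
    Nice q e P (k + k' + 3) (trMul q (List.range m) A B) (X * Y).trace := by
  unfold TS.trMul
  rw [sum_map_range_eq]
  simp only [sum_map_range_eq]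
  unfold Matrix.trace
  simp only [Matrix.diag_apply, Matrix.mul_apply]
  exact Nice.sum h (by simpa using hm) fun i _ =>
    Nice.sum h (by simpa using hm) fun j _ => (hA i j).mul h (hB j i)

/-- sums of squares of diagonal entries over the free stubs -/
theorem NiceM.dgM {n d : ℕ} {s : St} {σ : RSt (Fin (n * d))} {e' : ℝ}
    {A : List (List ℤ)} {X : Matrix (Fin (n * d)) (Fin (n * d)) ℝ} (h : NP q e P)
    (hm : ((n * d : ℕ) : ℝ) ≤ P) (hrel : Rel n d q e' s σ) (hA : NiceM q e P k A X) {t : ℤ}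
    {T : ℝ} (ht : Nice q e P 0 t T) :
    Nice q e P (2 * k + 4) (dgM q t s.1 A) (∑ i ∈ σ.F, (X i i - T) ^ 2) := by
  unfold TS.dgM
  rw [sum_map_free hrel]
  have hc : (σ.F.card : ℝ) ≤ P := by
    refine le_trans ?_ hm
    exact_mod_cast (Finset.card_le_univ σ.F).trans_eq (Fintype.card_fin _)
  refine (Nice.sum h hc (k := k + 1 + (k + 1) + 1) fun i _ => ?_).mono h (by omega)
  rw [sq]
  have h1 : Nice q e P (k + 1) (ent A i i - t) (X i i - T) := by
    have := (hA i i).sub' h ht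
    rwa [max_eq_left (Nat.zero_le _)] at this
  exact h1.mul h h1

end

/-- The values of one sign approximate the real values. -/
structure ValsOK {ι : Type*} [Fintype ι] [DecidableEq ι] (q : ℤ) (e P : ℝ) (v : List ℤ)
    (F : Finset ι) (Z : Matrix ι ι ℝ) : Prop where
  T1 : Nice q e P 28 (v.getD 0 0) Z.trace
  T2 : Nice q e P 28 (v.getD 1 0) (Z ^ 2).trace
  T3 : Nice q e P 28 (v.getD 2 0) (Z ^ 3).trace
  T4 : Nice q e P 28 (v.getD 3 0) (Z ^ 4).trace
  S : Nice q e P 28 (v.getD 4 0) (∑ a ∈ F, Z a a ^ 2)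
  V : Nice q e P 28 (v.getD 5 0) (∑ a ∈ F, ((Z ^ 2) a a - 1) ^ 2)
  V2 : Nice q e P 28 (v.getD 6 0) (∑ a ∈ F, (Z ^ 2) a a ^ 2)

theorem valsOK_of_nice {n d : ℕ} {q : ℤ} {e e' P : ℝ} {s : St} {σ : RSt (Fin (n * d))}
    (h : NP q e P) (hm : ((n * d : ℕ) : ℝ) ≤ P) (hrel : Rel n d q e' s σ) {M : List (List ℤ)}
    {Z : Matrix (Fin (n * d)) (Fin (n * d)) ℝ} (hM : NiceM q e P 5 M Z) :
    ValsOK q e P (vals q (List.range (n * d)) s.1 M (mulM q (List.range (n * d)) M M)) σ.F Z := by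
  have hM2 : NiceM q e P 12 (mulM q (List.range (n * d)) M M) (Z ^ 2) := by
    rw [sq]; exact hM.mulM h hm hM
  refine ⟨?_, ?_, ?_, ?_, ?_, ?_, ?_⟩
  · exact (hM.trM h hm).mono h (by norm_num)
  · rw [sq]; exact (hM.trMul h hm hM).mono h (by norm_num)
  · rw [show 3 = 2 + 1 from rfl, pow_succ]; exact (hM2.trMul h hm hM).mono h (by norm_num)
  · rw [show 4 = 2 + 2 from rfl, pow_add]; exact (hM2.trMul h hm hM2).mono h (by norm_num)
  · have := (hM.dgM h hm hrel (Nice.zero h)).mono h (show 2 * 5 + 4 ≤ 28 by norm_num)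
    simp only [sub_zero] at this
    exact this
  · exact (hM2.dgM h hm hrel (Nice.one h)).mono h (by norm_num)
  · have := (hM2.dgM h hm hrel (Nice.zero h)).mono h (show 2 * 12 + 4 ≤ 28 by norm_num)
    simp only [sub_zero] at this
    exact this

theorem niceM_of_close {m : ℕ} {q : ℤ} {e e' P : ℝ} {M : List (List ℤ)}
    {Z : Matrix (Fin m) (Fin m) ℝ} (h : NP q e P) (he : e' ≤ e) (hM : Close q e' M Z)
    (hZ : ∀ i j, |Z i j| ≤ P ^ 5) : NiceM q e P 5 M Z := by
  intro i j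
  refine ⟨hZ i j, (hM i j).trans (he.trans ?_)⟩
  have : 1 ≤ P ^ 5 := one_le_pow₀ h.hP1
  nlinarith [h.he]

/-- All values of the algorithm approximate the real values. -/
theorem allVals_nice {n d : ℕ} {q : ℤ} {e e' P : ℝ} {s : St} {σ : RSt (Fin (n * d))}
    (h : NP q e P) (hm : ((n * d : ℕ) : ℝ) ≤ P) (he : e' ≤ e) (hrel : Rel n d q e' s σ)
    (hZ : ∀ i j, |σ.Zp i j| ≤ P ^ 5 ∧ |σ.Zm i j| ≤ P ^ 5) :
    ValsOK q e P (allVals q (List.range (n * d)) s).1 σ.F σ.Zp ∧
    ValsOK q e P (allVals q (List.range (n * d)) s).2.1 σ.F σ.Zm ∧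
    Nice q e P 28 (allVals q (List.range (n * d)) s).2.2 (σ.Zp ^ 2 * σ.Zm ^ 2).trace := by
  have h1 := niceM_of_close h he hrel.cp fun i j => (hZ i j).1
  have h2 := niceM_of_close h he hrel.cm fun i j => (hZ i j).2
  refine ⟨valsOK_of_nice h hm hrel h1, valsOK_of_nice h hm hrel h2, ?_⟩
  rw [sq, sq]
  exact ((h1.mulM h hm h1).trMul h hm (h2.mulM h hm h2)).mono h (by norm_num)

end Vale.Agent.P049.TS
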