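import Vale.Agent.P049.TS.Alg.VA
import Vale.Agent.P049.TS.Alg.Nice
import Vale.Agent.P049.TS.Alg.Kap

/-!
The fixed point version of `PhiA` approximates `PhiA`.
-/

namespace Vale.Agent.P049.TS

open Asm (k1 k2 Nk)

/-- the common assumptions -/
structure NB (n d : ℕ) (q r : ℤ) (e P : ℝ) : Prop where
  np : NP q e P
  hP : P = ((n * d : ℕ) : ℝ) + 2
  hr : Nice q e P 0 r (√((d : ℝ) - 1))⁻¹
  hd : 3 ≤ d
  hn : 0 < n
  sm : e * P ^ 200 ≤ 1 / 2

section

variable {n d : ℕ} {q r : ℤ} {e P : ℝ} {k : ℕ}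

theorem NB.nd_le (h : NB n d q r e P) : ((n * d : ℕ) : ℝ) ≤ P := by rw [h.hP]; linarith

theorem NB.nat_le (h : NB n d q r e P) {c : ℕ} (hc : c ≤ n * d) : (c : ℝ) ≤ P ^ 1 := by
  rw [pow_one]
  exact (by exact_mod_cast hc : (c : ℝ) ≤ ((n * d : ℕ) : ℝ)).trans h.nd_le

theorem NB.two_le (h : NB n d q r e P) : ((2 : ℕ) : ℝ) ≤ P ^ 1 :=
  h.nat_le (by nlinarith [h.hd, h.hn])

theorem NB.Nn_le (h : NB n d q r e P) (k : ℕ) : (Nn n d k : ℝ) ≤ P ^ 1 :=
  h.nat_le (Nat.sub_le _ _)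

theorem sR_pos' {n : ℕ} (hn : 0 < n) : 0 < sR n := (le_sR_iff n 1).2 (by rw [one_pow]; exact hn)

theorem sR_pow_le' {n : ℕ} (hn : 0 < n) {j : ℕ} (hj : j ≤ 1000) : sR n ^ j ≤ n :=
  (Nat.pow_le_pow_right (sR_pos' hn) hj).trans (sR_pow_le n)

theorem Nk_eq_Nn (hk : 2 * k ≤ n * d) : Nk n d k = (Nn n d k : ℕ) := by
  unfold Nk Nn
  rw [Nat.cast_sub hk]
  push_cast
  ring

theorem nice_invI (h : NP q e P) {D : ℕ} (hD : 0 < D) :
    Nice q e P 1 (invI q D) ((D : ℝ))⁻¹ := by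
  have := (Nice.one h).divNat h hD
  rw [one_div] at this
  exact this

theorem nice_natI (h : NB n d q r e P) {c : ℕ} (hc : c ≤ n * d) :
    Nice q e P 1 (natI q c) c := Nice.nat h.np (h.nat_le hc)

theorem nice_kapI (h : NB n d q r e P) : Nice q e P 2 (kapI n d q) (Asm.kap n d) := by
  refine Nice.nat h.np ?_
  have h1 : Asm.kapN n d ≤ (n * d) * (n * d) := by
    have h2 : Asm.kapN n d ≤ d * d * n := kapN_le n d
    have h3 : 1 ≤ n := h.hn
    calc Asm.kapN n d ≤ d * d * n := h2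
      _ ≤ d * d * (n * n) := Nat.mul_le_mul_left _ (by nlinarith)
      _ = (n * d) * (n * d) := by ring
  have h4 : (Asm.kapN n d : ℝ) ≤ (((n * d) * (n * d) : ℕ) : ℝ) := by
    exact_mod_cast h1
  refine h4.trans ?_
  rw [Nat.cast_mul, sq]
  have := h.nd_le
  have h0 : (0 : ℝ) ≤ ((n * d : ℕ) : ℝ) := Nat.cast_nonneg _
  exact mul_le_mul this this h0 (h0.trans this)

theorem nice_kickI (h : NB n d q r e P) (hk : 2 * k < n * d) :
    Nice q e P 6 (kickI n d q k)
      (Asm.lam n * Asm.kap n d * ((Nk n d k)⁻¹ - (Nk n d 0)⁻¹)) := by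
  have hlam : ((sR n ^ 186 : ℕ) : ℝ) ≤ P ^ 1 :=
    h.nat_le ((sR_pow_le' h.hn (by norm_num)).trans
      (Nat.le_mul_of_pos_right _ (by have := h.hd; omega)))
  have h1 := (nice_kapI h).natMul h.np hlam
  have h2 := nice_invI (q := q) h.np (D := Nn n d k) (by unfold Nn; omega)
  have h3 := nice_invI (q := q) h.np (D := Nn n d 0) (by unfold Nn; omega)
  have h4 := h1.mul h.np (h2.sub' h.np h3)
  rw [Nk_eq_Nn hk.le, Nk_eq_Nn (k := 0) (by omega)]
  unfold Asm.lam kickI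
  have e1 : ((sR n ^ 186 : ℕ) : ℝ) = (sR n : ℝ) ^ 186 := by push_cast; rfl
  rw [e1] at h4
  exact h4

theorem nice_t1I (h : NB n d q r e P) (hk : 2 * k < n * d) :
    Nice q e P 6 (t1I n d q k) (Asm.t1 n d k) := by
  have := (nice_kickI h (k := min k (k1 n d))
    (lt_of_le_of_lt (Nat.mul_le_mul_left _ (min_le_left _ _)) hk)).neg
  exact this

theorem nice_tDI (h : NB n d q r e P) (hk : 2 * k < n * d) (hk1 : 2 * k1 n d < n * d) :
    Nice q e P 13 (tDI n d q k) (Asm.tD n d k) := by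
  have h1 := ((nice_kickI h hk1).natMul h.np h.two_le).mul h.np (nice_kapI h)
  have hm : 2 * max k (k1 n d) < n * d := by
    rcases max_cases k (k1 n d) with h | h <;> omega
  have h2 := nice_invI (q := q) h.np (D := Nn n d (max k (k1 n d))) (by unfold Nn; omega)
  have h3 := nice_invI (q := q) h.np (D := Nn n d (k1 n d)) (by unfold Nn; omega)
  have h4 := (h1.mul h.np (h2.sub' h.np h3)).neg
  unfold Asm.tD tDI Asm.K1
  rw [Nk_eq_Nn hm.le, Nk_eq_Nn hk1.le]
  rw [Nk_eq_Nn hk1.le] at h4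
  have e1 : ((2 : ℕ) : ℝ) = 2 := by norm_num
  rw [e1] at h4
  exact h4

theorem nice_sqI {k : ℕ} {x : ℤ} {X : ℝ} (h : NP q e P) (hx : Nice q e P k x X) :
    Nice q e P (2 * k + 1) (sqI q x) (X ^ 2) := by
  have := hx.mul h hx
  rw [← two_mul, ← sq] at this
  exact this

theorem nice_sgI {k : ℕ} {x : ℤ} {X : ℝ} (b : Bool) (hx : Nice q e P k x X) :
    Nice q e P k (sgI b x) ((if b then (1 : ℝ) else -1) * X) := by
  unfold sgI
  cases b
  · have := hx.neg
    simpa using this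
  · simpa using hx

theorem iteN_cast {n d k x y : ℕ} :
    ((iteN n d k x y : ℕ) : ℝ) = if k < k1 n d then (x : ℝ) else y := by
  unfold iteN
  split_ifs <;> rfl

theorem iteN_pos {n d k x y : ℕ} (hx : 0 < x) (hy : 0 < y) : 0 < iteN n d k x y := by
  unfold iteN
  split_ifs <;> assumption

theorem Nice.divNat' {k D : ℕ} {x : ℤ} {X Y : ℝ} (h : NP q e P) (hD : 0 < D)
    (hY : (D : ℝ) = Y) (hx : Nice q e P k x X) :
    Nice q e P (k + 1) (x / (D : ℕ)) (X / Y) := by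
  rw [← hY]; exact hx.divNat h hD

/-- The potential of one sign. -/
theorem nice_fOneI (h : NB n d q r e P) (hk : 2 * k < n * d) (hk1 : 2 * k1 n d < n * d)
    {ι : Type*} [Fintype ι] [DecidableEq ι] {v : List ℤ} {F : Finset ι} {Z : Matrix ι ι ℝ}
    (hv : ValsOK q e P v F Z) (b : Bool) :
    Nice q e P 70 (fOneI n d q k b v)
      (Asm.fOne n d k (if b then (1 : ℝ) else -1) F Z) := by
  have hs := sR_pos' h.hn
  have np := h.np
  have g1 : Nice q e P 60 (sqI q (sgI b (v.getD 0 0) - t1I n d q k) / (sR n ^ 754 : ℕ))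
      (Asm.f1 n d k (if b then (1 : ℝ) else -1) Z) :=
    Nice.divNat' np (by positivity) (by push_cast; rfl)
      (nice_sqI np ((nice_sgI b hv.T1).sub' np (nice_t1I h hk)))
  have g2 : Nice q e P 62 (sqI q (v.getD 1 0 - natI q (Nn n d k) - tDI n d q k) /
      (sR n ^ 1366 : ℕ)) (Asm.fD n d k Z) := by
    refine Nice.divNat' np (by positivity) (by push_cast; rfl) (nice_sqI (k := 30) np ?_)
    have h1 := nice_natI h (c := Nn n d k) (Nat.sub_le _ _)
    rw [← Nk_eq_Nn hk.le] at h1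
    exact (hv.T2.sub' np h1).sub' np (nice_tDI h hk hk1)
  have g3 : Nice q e P 60 (sqI q (sgI b (v.getD 2 0) - kapI n d q) /
      (iteN n d k (sR n ^ 1900) (sR n ^ 1986) : ℕ))
      (Asm.f3 n d k (if b then (1 : ℝ) else -1) Z) := by
    refine Nice.divNat' np (iteN_pos (by positivity) (by positivity)) ?_
      (nice_sqI (k := 29) np ((nice_sgI b hv.T3).sub' np (nice_kapI h)))
    rw [iteN_cast]
    push_cast
    rfl
  have g4 : Nice q e P 30 ((Nn n d k * v.getD 3 0) / (sR n ^ 2003 : ℕ))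
      (Asm.f4 n d k Z) := by
    have h1 := hv.T4.natMul np (h.Nn_le k)
    unfold Asm.f4
    rw [Nk_eq_Nn hk.le, mul_comm (Matrix.trace _)]
    exact Nice.divNat' np (by positivity) (by push_cast; rfl) h1
  have g5 : Nice q e P 29 (v.getD 5 0 /
      (iteN n d k (sR n ^ 610) (sR n ^ 690) : ℕ)) (Asm.fV n d k F Z) := by
    refine Nice.divNat' np (iteN_pos (by positivity) (by positivity)) ?_ hv.V
    rw [iteN_cast]
    push_cast
    rfl
  have g6 : Nice q e P 29 (v.getD 4 0 / (sR n ^ 80 : ℕ)) (Asm.fS n F Z) :=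
    Nice.divNat' np (by positivity) (by push_cast; rfl) hv.S
  unfold fOneI Asm.fOne
  exact (((((g1.add' np g2).add' np g3).add' np g4).add' np g5).add' np g6).mono np (by norm_num)

theorem nice_fWI (h : NB n d q r e P) (hk : 2 * k < n * d) {w : ℤ} {W : ℝ}
    (hw : Nice q e P 28 w W) :
    Nice q e P 29 (fWI n d k w)
      (if k < k1 n d then W / ((sR n : ℝ) ^ 60 * Nk n d k) else 0) := by
  have hs := sR_pos' h.hn
  unfold fWI
  refine Nice.ite (Nice.divNat' h.np ?_ ?_ hw) ((Nice.zero h.np).mono h.np (Nat.zero_le _))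
  · unfold Nn
    have : 0 < n * d - 2 * k := by omega
    positivity
  · rw [Nk_eq_Nn hk.le]
    push_cast
    rfl

/-- The fixed point version of `PhiA` approximates `PhiA`. -/
theorem nice_PhiAI {n d : ℕ} {q r : ℤ} {e P : ℝ} {k : ℕ} (h : NB n d q r e P)
    (hk : 2 * k < n * d) (hk1 : 2 * k1 n d < n * d) {v : List ℤ × List ℤ × ℤ}
    {σ : RSt (Fin (n * d))} (h1 : ValsOK q e P v.1 σ.F σ.Zp)
    (h2 : ValsOK q e P v.2.1 σ.F σ.Zm)
    (h3 : Nice q e P 28 v.2.2 (σ.Zp ^ 2 * σ.Zm ^ 2).trace) :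
    Nice q e P 80 (PhiAI n d q k v) (Asm.PhiA n d k σ) := by
  have g1 := nice_fOneI h hk hk1 h1 true
  have g2 := nice_fOneI h hk hk1 h2 false
  have g3 := nice_fWI h hk h3
  have e1 : (if true then (1 : ℝ) else -1) = 1 := by simp
  have e2 : (if false then (1 : ℝ) else -1) = -1 := by simp
  rw [e1] at g1
  rw [e2] at g2
  exact ((g1.add' h.np g2).add' h.np g3).mono h.np (by norm_num)

end

end Vale.Agent.P049.TS
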