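import Vale.Agent.P049.TS.Alg.PTFun
import Vale.Agent.P049.TS.Alg.Base
import Vale.Agent.P049.TS.Alg.Kap

/-!
The base of the scales is computable in polynomial time.
-/

open Function Vale.Agent.Lib.PolyTime

namespace Vale.Agent.P049.TS

variable {A : Set Word} {α : Type*} [Enc α]

theorem pt_sR {n : α → ℕ} (hn : PT A n) (hb : PBd n) : PT A (fun a => sR (n a)) := by
  refine (PT.sub (PT.length (PT.filter (f := fun a s => decide (s ^ 1000 ≤ n a))
    (PT.range (hn.add (PT.const 1)) (hb.add (PBd.const 1))) ?_)) (PT.const 1)).congr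
    fun a => (sR_eq (n a)).symm
  exact PT.le (PT.powConst PT.snd' 1000) (hn.comp PT.fst')

theorem pt_kapN (d : ℕ) {n : α → ℕ} (hn : PT A n) (hb : PBd n) :
    PT A (fun a => kapN (n a) d) := by
  refine (PT.sub (PT.length (PT.filter (f := fun a i => decide (i * i ≤
      d ^ 2 * (d - 2) ^ 2 * n a ^ 2 / (d - 1)))
    (PT.range (((PT.const (d * d)).mul hn).add (PT.const 1))
      (((PBd.const (d * d)).mul hb).add (PBd.const 1))) ?_)) (PT.const 1)).congr
    fun a => (kapN_eq (n a) d).symm
  exact PT.le (PT.snd'.mul PT.snd') (PT.div ((PT.const (d ^ 2 * (d - 2) ^ 2)).mul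
    (PT.powConst (hn.comp PT.fst') 2)) (PT.const (d - 1)))

end Vale.Agent.P049.TS
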