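import Vale.Agent.P049.TS.Alg.VA
import Vale.Agent.P049.TS.Alg.PTBase

/-!
The fixed point version of `PhiA` is computable in polynomial time.
-/

open Function Vale.Agent.Lib.PolyTime

namespace Vale.Agent.P049.TS

open Asm (k1 k2)

variable {A : Set Word} {α : Type*} [Enc α]

/-- a pair (order, base of the scales) -/
structure NPT (A : Set Word) {α : Type*} [Enc α] (n : α → ℕ) : Prop where
  pt : PT A n
  pb : PBd n

section

variable {n k : α → ℕ} {q : α → ℤ}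

theorem pt_sR' (hn : NPT A n) : PT A (fun a => sR (n a)) := pt_sR hn.pt hn.pb

theorem pt_sRpow (hn : NPT A n) (j : ℕ) : PT A (fun a => sR (n a) ^ j) :=
  PT.powConst (pt_sR' hn) j

theorem pt_kN (hn : NPT A n) (d j : ℕ) :
    PT A (fun a => (n a * d - sR (n a) ^ j + 1) / 2) :=
  PT.div (((hn.pt.mul (PT.const d)).sub (pt_sRpow hn j)).add (PT.const 1)) (PT.const 2)

theorem pt_k1 (hn : NPT A n) (d : ℕ) : PT A (fun a => k1 (n a) d) := pt_kN hn d 802

theorem pt_k2 (hn : NPT A n) (d : ℕ) : PT A (fun a => k2 (n a) d) := pt_kN hn d 699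

theorem pt_Nn (hn : NPT A n) (d : ℕ) (hk : PT A k) : PT A (fun a => Nn (n a) d (k a)) :=
  (hn.pt.mul (PT.const d)).sub ((PT.const 2).mul hk)

theorem pt_invI {D : α → ℕ} (hq : PT A q) (hD : PT A D) : PT A (fun a => invI (q a) (D a)) :=
  PT.intDiv hq (PT.natCast hD)

theorem pt_natI {c : α → ℕ} (hq : PT A q) (hc : PT A c) : PT A (fun a => natI (q a) (c a)) :=
  PT.intMul (PT.natCast hc) hq

theorem pt_kapI (hn : NPT A n) (d : ℕ) (hq : PT A q) : PT A (fun a => kapI (n a) d (q a)) :=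
  pt_natI hq (pt_kapN d hn.pt hn.pb)

theorem pt_kickI (hn : NPT A n) (d : ℕ) (hq : PT A q) (hk : PT A k) :
    PT A (fun a => kickI (n a) d (q a) (k a)) :=
  pt_fmul hq (PT.intMul (PT.natCast (pt_sRpow hn 186)) (pt_kapI hn d hq))
    (PT.intSub (pt_invI hq (pt_Nn hn d hk)) (pt_invI hq (pt_Nn hn d (PT.const 0))))

theorem pt_t1I (hn : NPT A n) (d : ℕ) (hq : PT A q) (hk : PT A k) :
    PT A (fun a => t1I (n a) d (q a) (k a)) :=
  (pt_kickI hn d hq (PT.min hk (pt_k1 hn d))).intNeg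

theorem pt_tDI (hn : NPT A n) (d : ℕ) (hq : PT A q) (hk : PT A k) :
    PT A (fun a => tDI (n a) d (q a) (k a)) :=
  (pt_fmul hq (pt_fmul hq (PT.intMul (PT.const ((2 : ℕ) : ℤ)) (pt_kickI hn d hq (pt_k1 hn d)))
    (pt_kapI hn d hq)) (PT.intSub (pt_invI hq (pt_Nn hn d (PT.max hk (pt_k1 hn d))))
      (pt_invI hq (pt_Nn hn d (pt_k1 hn d))))).intNeg

theorem pt_sqI {x : α → ℤ} (hq : PT A q) (hx : PT A x) : PT A (fun a => sqI (q a) (x a)) :=
  pt_fmul hq hx hx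

theorem pt_sgI (b : Bool) {x : α → ℤ} (hx : PT A x) : PT A (fun a => sgI b (x a)) := by
  cases b
  · exact hx.intNeg.congr fun a => by simp [sgI]
  · exact hx.congr fun a => by simp [sgI]

theorem pt_iteN (hn : NPT A n) (d : ℕ) (hk : PT A k) {x y : α → ℕ} (hx : PT A x)
    (hy : PT A y) : PT A (fun a => iteN (n a) d (k a) (x a) (y a)) :=
  PT.ite (p := fun a => k a < k1 (n a) d) (PT.lt hk (pt_k1 hn d)) hx hy

theorem pt_divN {x : α → ℤ} {D : α → ℕ} (hx : PT A x) (hD : PT A D) :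
    PT A (fun a => x a / (D a : ℕ)) :=
  PT.intDiv hx (PT.natCast hD)

theorem pt_fOneI (hn : NPT A n) (d : ℕ) (hq : PT A q) (hk : PT A k) (b : Bool)
    {v : α → List ℤ} (hv : PT A v) :
    PT A (fun a => fOneI (n a) d (q a) (k a) b (v a)) := by
  have hg : ∀ i : ℕ, PT A (fun a => (v a).getD i 0) := fun i =>
    PT.getD hv (PT.const i) (PT.const 0)
  unfold fOneI
  refine PT.intAdd (PT.intAdd (PT.intAdd (PT.intAdd (PT.intAdd ?_ ?_) ?_) ?_) ?_) ?_
  · exact pt_divN (pt_sqI hq (PT.intSub (pt_sgI b (hg 0)) (pt_t1I hn d hq hk)))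
      (pt_sRpow hn 754)
  · exact pt_divN (pt_sqI hq (PT.intSub (PT.intSub (hg 1) (pt_natI hq (pt_Nn hn d hk)))
      (pt_tDI hn d hq hk))) (pt_sRpow hn 1366)
  · exact pt_divN (pt_sqI hq (PT.intSub (pt_sgI b (hg 2)) (pt_kapI hn d hq)))
      (pt_iteN hn d hk (pt_sRpow hn 1900) (pt_sRpow hn 1986))
  · exact pt_divN (PT.intMul (PT.natCast (pt_Nn hn d hk)) (hg 3)) (pt_sRpow hn 2003)
  · exact pt_divN (hg 5) (pt_iteN hn d hk (pt_sRpow hn 610) (pt_sRpow hn 690))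
  · exact pt_divN (hg 4) (pt_sRpow hn 80)

theorem pt_fWI (hn : NPT A n) (d : ℕ) (hk : PT A k) {w : α → ℤ} (hw : PT A w) :
    PT A (fun a => fWI (n a) d (k a) (w a)) :=
  PT.ite (p := fun a => k a < k1 (n a) d) (PT.lt hk (pt_k1 hn d))
    (pt_divN hw ((pt_sRpow hn 60).mul (pt_Nn hn d hk))) (PT.const 0)

theorem pt_PhiAI (hn : NPT A n) (d : ℕ) (hq : PT A q) (hk : PT A k)
    {v : α → List ℤ × List ℤ × ℤ} (hv : PT A v) :
    PT A (fun a => PhiAI (n a) d (q a) (k a) (v a)) :=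
  PT.intAdd (PT.intAdd (pt_fOneI hn d hq hk true hv.fst)
    (pt_fOneI hn d hq hk false hv.snd.fst)) (pt_fWI hn d hk hv.snd.snd)

end

end Vale.Agent.P049.TS
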