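import Vale.Agent.P049.TS.Alg.Reduce
import Vale.Agent.P049.TS.Alg.NiceVA
import Vale.Agent.P049.TS.Alg.PTVA

/-!
The whole problem reduced to the analysis of a potential which is a formula in the traces.
-/

open Function Vale.Agent.Lib.PolyTime

namespace Vale.Agent.P049.TS

/-- the potential as a function of (list of stubs, scale, state) -/
def Vof (U : ℕ → ℤ → ℤ → ℕ → List ℤ × List ℤ × ℤ → ℤ) (d : ℕ) (R : List ℕ) (q : ℤ) (s : St) :
    ℤ :=
  U (R.length / d) q (rootL (d - 1) (bits R)) ((R.length - s.1.length) / 2) (allVals q R s)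

/-- the formula is computable in polynomial time (the order is given in unary) -/
def PTU (U : ℕ → ℤ → ℤ → ℕ → List ℤ × List ℤ × ℤ → ℤ) : Prop :=
  ∀ (α : Type) [Enc α] (n k : α → ℕ) (q r : α → ℤ) (v : α → List ℤ × List ℤ × ℤ),
    NPT ∅ n → PT ∅ q → PT ∅ r → PT ∅ k → PT ∅ v →
      PT ∅ (fun a => U (n a) (q a) (r a) (k a) (v a))

theorem pt_Vof {U : ℕ → ℤ → ℤ → ℕ → List ℤ × List ℤ × ℤ → ℤ} (hU : PTU U) (d : ℕ) :
    PT ∅ (fun p : List ℕ × ℤ × St => Vof U d p.1 p.2.1 p.2.2) := by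
  have hR : PT ∅ (fun p : List ℕ × ℤ × St => p.1) := PT.fst'
  have hl : PT ∅ (fun p : List ℕ × ℤ × St => p.1.length) := PT.length hR
  have hlb : PBd (fun p : List ℕ × ℤ × St => p.1.length) := PBd.length hR
  exact hU _ _ _ _ _ _ ⟨PT.div hl (PT.const d), hlb.mono fun _ => Nat.div_le_self _ _⟩
    PT.snd'.fst (PT.natCast (pt_rootL (d - 1) (pt_bits hR) (pbd_bits hR)))
    (PT.div (hl.sub PT.snd'.snd.fst.length) (PT.const 2)) (pt_allVals PT.snd'.fst hR PT.snd'.snd)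

/-- **The reduction.** `Φ` is the potential, `U` its fixed point version, `b` the bounds. -/
theorem final_U {d c ex n₀ k₀ : ℕ} (hd : 3 ≤ d) (hc : 0 < c) (hex : 1 ≤ ex) (hex' : ex ≤ 1000)
    {U : ℕ → ℤ → ℤ → ℕ → List ℤ × List ℤ × ℤ → ℤ} (hU : PTU U)
    (Φ : ∀ n, ℕ → RSt (Fin (n * d)) → ℝ) (b : ℕ → ℕ → ℝ)
    (hA : ∀ n ≥ n₀, Even (d * n) → ∀ k < (n * d - sR n ^ ex) / 2, ∀ σ,
      Reach (vertF n d) (start (vertF n d) d) k σ → ∀ δ : ℝ, 0 ≤ δ →
      δ ≤ (1 / 2) ^ (n * d) → Φ n k σ ≤ b n k + δ → ∃ x y, σ.Adm (vertF n d) (2 / c) x y ∧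
        Φ n (k + 1) (σ.join x y) ≤ b n (k + 1) + 2 * δ)
    (hB : ∀ n ≥ n₀, Even (d * n) → ∀ k < (n * d - sR n ^ ex) / 2, ∀ σ,
      Reach (vertF n d) (start (vertF n d) d) k σ → Φ n k σ ≤ b n k + (1 / 2) ^ (n * d) →
        ∀ i j, |σ.Zp i j| ≤ (n * d : ℕ) ∧ |σ.Zm i j| ≤ (n * d : ℕ))
    (hC : ∀ n ≥ n₀, Even (d * n) → Φ n 0 (start (vertF n d) d) ≤ b n 0)
    (hN : ∀ n ≥ n₀, Even (d * n) → ∀ k, 0 < k → k ≤ (n * d - sR n ^ ex) / 2 →
      ∀ (q r : ℤ) (e P : ℝ) (v : List ℤ × List ℤ × ℤ) (σ : RSt (Fin (n * d))),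
      NB n d q r e P → Reach (vertF n d) (start (vertF n d) d) k σ →
      ValsOK q e P v.1 σ.F σ.Zp → ValsOK q e P v.2.1 σ.F σ.Zm →
      Nice q e P 28 v.2.2 (σ.Zp ^ 2 * σ.Zm ^ 2).trace →
      Nice q e P k₀ (U n q r k v) (Φ n k σ))
    (hend : ∀ n ≥ n₀, Even (d * n) → ∀ σ,
      Reach (vertF n d) (start (vertF n d) d) ((n * d - sR n ^ ex) / 2) σ →
      Φ n ((n * d - sR n ^ ex) / 2) σ ≤ b n ((n * d - sR n ^ ex) / 2) + (1 / 2) ^ (n * d) →
      (σ.Zp ^ 2).trace ≤ 2 ∧ (σ.Zm ^ 2).trace ≤ 2) :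
    ∃ f : ℕ → List Bool,
      (∃ M : Turing.TM2ComputableInPolyTime (fun n : ℕ => List.replicate n true)
        (id : List Bool → List Bool) f, ∀ k, Finite (M.tm.Γ k)) ∧
      ∃ n₁ : ℕ, ∀ n : ℕ, n₁ ≤ n → Even (d * n) →
        ∃ (G : SimpleGraph (Fin n)) (_ : DecidableRel G.Adj),
          IsRamanujanUpTo d 0 G ∧
          f n = (List.ofFn fun i : Fin n => List.ofFn fun j : Fin n =>
            decide (G.Adj i j)).flatten := by
  have hsn : ∀ n, sR n ^ ex ≤ n := by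
    intro n
    rcases Nat.eq_zero_or_pos (sR n) with h | h
    · rw [h, zero_pow (by omega)]; exact Nat.zero_le _
    · exact (Nat.pow_le_pow_right h hex').trans (sR_pow_le n)
  have hs8 : ∀ n, (8 * d ^ 2) ^ 1000 ≤ n → 8 * d ^ 2 ≤ sR n ^ ex := by
    intro n hn
    have h1 : 8 * d ^ 2 ≤ sR n := (le_sR_iff n _).2 hn
    exact h1.trans (Nat.le_self_pow (by omega) _)
  have hnd : ∀ n, n ≤ n * d := fun n => Nat.le_mul_of_pos_right _ (by omega)
  refine main_of_good (n₀ := n₀ + (8 * d ^ 2) ^ 1000 + k₀ + 200) hd hc (pt_Vof hU d)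
    (pt_Kst d ex) (pbd_Kst d ex) (fun n _ => (scale (List.range (n * d)) : ℤ)) Φ b ?_ ?_ ?_
  · intro n hn he
    rw [Kst_range (by omega)]
    have h1 := hnd n
    refine Good.mk' (k₀ := k₀) (by omega) (by omega) (hA n (by omega) he) (hB n (by omega) he)
      (hC n (by omega) he) fun k hk0 hk s σ hr hrel g1 g2 g3 => ?_
    have hl : (List.range (n * d)).length = n * d := List.length_range
    have hlen := hrel.length
    have hcard := hr.base.2.2.2
    rw [Fintype.card_fin] at hcard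
    have hkk : ((List.range (n * d)).length - s.1.length) / 2 = k := by
      rw [hl, hlen]; omega
    unfold Vof
    rw [hkk, hl, Nat.mul_div_cancel _ (by omega : 0 < d)]
    have np := np_run (n := n) (d := d) (by omega)
    have hscale : scale (List.range (n * d)) = 2 ^ bits (List.range (n * d)) := rfl
    have hsm : ((1 : ℝ) / 2) ^ (30 * (n * d + 2) ^ 2) * (((n * d : ℕ) : ℝ) + 2) ^ 200 ≤ 1 / 2 := by
      refine (err_small (k₀ := 200) (by omega)).trans ?_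
      calc ((1 : ℝ) / 2) ^ (2 * (n * d)) ≤ (1 / 2) ^ 1 :=
            pow_le_pow_of_le_one (by norm_num) (by norm_num) (by omega)
        _ = 1 / 2 := pow_one _
    refine hN n (by omega) he k hk0 hk _ _ _ _ _ σ ⟨np, rfl, ⟨?_, ?_⟩, hd, by omega, hsm⟩ hr
      g1 g2 g3
    · obtain ⟨hm, hm1, -⟩ := mu_facts hd
      rw [abs_of_pos hm, pow_zero]
      exact hm1.le
    · rw [pow_zero, mul_one]
      refine le_trans ?_ np.hqe
      have := rootL_close hd (bits (List.range (n * d)))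
      rw [hscale]
      push_cast
      exact this
  · intro n hn
    rw [Kst_range (by omega)]
    have h1 := hnd n
    have h2 := hsn n
    have h3 := hs8 n (by omega)
    omega
  · intro n hn he σ hr hΦ G _ hreg hadj
    rw [Kst_range (by omega)] at hr hΦ
    obtain ⟨h1, h2⟩ := hend n (by omega) he σ hr hΦ
    have h3 := hnd n
    have h4 := hs8 n (by omega)
    have h5 : 0 < 8 * d ^ 2 := by positivity
    have h6 := hsn n
    exact hr.isRamanujan_vertF hd (by omega) (by omega) h1 h2 G hreg hadj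

end Vale.Agent.P049.TS
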