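import Vale.Agent.P049.TS.Alg.RunCorrect
import Vale.Agent.P049.TS.Alg.Nice

/-!
The hypothesis `hV` of `Good` from the error calculus.
-/

namespace Vale.Agent.P049.TS

/-- the parameters of the error calculus for the run of the algorithm -/
theorem np_run {n d : ℕ} (h : 2 ≤ n * d) :
    NP (scale (List.range (n * d))) ((1 / 2) ^ (30 * (n * d + 2) ^ 2))
      (((n * d : ℕ) : ℝ) + 2) := by
  have hl : (List.range (n * d)).length = n * d := List.length_range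
  have hscale : scale (List.range (n * d)) = 2 ^ (40 * (n * d + 2) ^ 2) := by
    unfold scale bits
    rw [hl]
  refine ⟨by rw [hscale]; exact pow_pos (by norm_num) _, ?_, by positivity,
    pow_le_one₀ (by norm_num) (by norm_num), ?_⟩
  · have : (2 : ℝ) ≤ ((n * d : ℕ) : ℝ) := by exact_mod_cast h
    linarith
  · rw [hscale]
    push_cast
    rw [one_div_pow]
    exact one_div_pow_le_one_div_pow_of_le (by norm_num) (Nat.mul_le_mul_right _ (by norm_num))

theorem err_small {n d k₀ : ℕ} (hk : k₀ ≤ n * d) :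
    ((1 : ℝ) / 2) ^ (30 * (n * d + 2) ^ 2) * (((n * d : ℕ) : ℝ) + 2) ^ k₀ ≤
      (1 / 2) ^ (2 * (n * d)) := by
  generalize n * d = m at *
  have h1 : ((m : ℝ) + 2) ≤ 2 ^ (m + 2) := by
    have := (Nat.lt_two_pow_self (n := m + 2)).le
    exact_mod_cast this
  have h2 : ((m : ℝ) + 2) ^ k₀ ≤ 2 ^ ((m + 2) ^ 2) := by
    calc ((m : ℝ) + 2) ^ k₀ ≤ (2 ^ (m + 2)) ^ k₀ := by gcongr
      _ = 2 ^ ((m + 2) * k₀) := by rw [← pow_mul]
      _ ≤ 2 ^ ((m + 2) ^ 2) := by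
          apply pow_le_pow_right₀ (by norm_num)
          rw [sq]
          exact Nat.mul_le_mul_left _ (by omega)
  calc ((1 : ℝ) / 2) ^ (30 * (m + 2) ^ 2) * ((m : ℝ) + 2) ^ k₀
      ≤ (1 / 2) ^ (30 * (m + 2) ^ 2) * 2 ^ ((m + 2) ^ 2) := by gcongr
    _ = (1 / 2) ^ (29 * (m + 2) ^ 2) := by
        have e : 30 * (m + 2) ^ 2 = 29 * (m + 2) ^ 2 + (m + 2) ^ 2 := by ring
        rw [e, pow_add, mul_assoc, ← mul_pow]
        norm_num
    _ ≤ (1 / 2) ^ (2 * m) := by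
        apply pow_le_pow_of_le_one (by norm_num) (by norm_num)
        nlinarith

/-- `Good` from the error calculus. -/
theorem Good.mk' {n d c K k₀ : ℕ} {V : List ℕ → ℤ → St → ℤ}
    {Φ : ℕ → RSt (Fin (n * d)) → ℝ} {b : ℕ → ℝ} (h2 : 2 ≤ n * d) (hk₀ : k₀ ≤ n * d)
    (hA : ∀ k < K, ∀ σ, Reach (vertF n d) (start (vertF n d) d) k σ → ∀ δ : ℝ, 0 ≤ δ →
      δ ≤ (1 / 2) ^ (n * d) → Φ k σ ≤ b k + δ → ∃ x y, σ.Adm (vertF n d) (2 / c) x y ∧
        Φ (k + 1) (σ.join x y) ≤ b (k + 1) + 2 * δ)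
    (hB : ∀ k < K, ∀ σ, Reach (vertF n d) (start (vertF n d) d) k σ →
      Φ k σ ≤ b k + (1 / 2) ^ (n * d) →
        ∀ i j, |σ.Zp i j| ≤ (n * d : ℕ) ∧ |σ.Zm i j| ≤ (n * d : ℕ))
    (hC : Φ 0 (start (vertF n d) d) ≤ b 0)
    (hN : ∀ k, 0 < k → k ≤ K → ∀ s σ, Reach (vertF n d) (start (vertF n d) d) k σ →
      Rel n d (scale (List.range (n * d))) ((1 / 2) ^ (30 * (n * d + 2) ^ 2)) s σ →
      ValsOK (scale (List.range (n * d))) ((1 / 2) ^ (30 * (n * d + 2) ^ 2))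
        (((n * d : ℕ) : ℝ) + 2)
        (allVals (scale (List.range (n * d))) (List.range (n * d)) s).1 σ.F σ.Zp →
      ValsOK (scale (List.range (n * d))) ((1 / 2) ^ (30 * (n * d + 2) ^ 2))
        (((n * d : ℕ) : ℝ) + 2)
        (allVals (scale (List.range (n * d))) (List.range (n * d)) s).2.1 σ.F σ.Zm →
      Nice (scale (List.range (n * d))) ((1 / 2) ^ (30 * (n * d + 2) ^ 2))
        (((n * d : ℕ) : ℝ) + 2) 28
        (allVals (scale (List.range (n * d))) (List.range (n * d)) s).2.2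
        (σ.Zp ^ 2 * σ.Zm ^ 2).trace →
      Nice (scale (List.range (n * d))) ((1 / 2) ^ (30 * (n * d + 2) ^ 2))
        (((n * d : ℕ) : ℝ) + 2) k₀
        (V (List.range (n * d)) (scale (List.range (n * d))) s) (Φ k σ)) :
    Good n d c K V (fun _ => (scale (List.range (n * d)) : ℤ)) Φ b := by
  have np := np_run (n := n) (d := d) h2
  refine ⟨fun _ => by exact_mod_cast np.hq, hA, hB, hC, fun k hk0 hk s σ hr hrel hb => ?_⟩
  obtain ⟨g1, g2, g3⟩ := allVals_nice np (by simp) le_rfl hrel hb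
  exact (hN k hk0 hk s σ hr hrel g1 g2 g3).err.trans (err_small hk₀)

end Vale.Agent.P049.TS
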