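import Vale.Agent.P049.TS.Alg.CompCorrect

/-!
The graph given by a list of pairs of stubs.
-/

namespace Vale.Agent.P049.TS

/-- the graph on the vertices `0, …, n - 1` given by a list of pairs of stubs -/
def grE (n d : ℕ) (E : List (ℕ × ℕ)) : SimpleGraph (Fin n) :=
  SimpleGraph.fromRel fun u v => ∃ e ∈ E, vs d e = s(u.val, v.val)

theorem grE_adj {n d : ℕ} {E : List (ℕ × ℕ)} (hE : ∀ e ∈ E, e.1 / d ≠ e.2 / d) {u v : Fin n} :
    (grE n d E).Adj u v ↔ ∃ e ∈ E, vs d e = s(u.val, v.val) := by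
  unfold grE
  rw [SimpleGraph.fromRel_adj]
  constructor
  · rintro ⟨-, h | ⟨e, he, h⟩⟩
    · exact h
    · exact ⟨e, he, h.trans Sym2.eq_swap⟩
  · rintro ⟨e, he, h⟩
    refine ⟨fun h' => hE e he ?_, Or.inl ⟨e, he, h⟩⟩
    subst h'
    unfold vs at h
    rw [Sym2.eq_iff] at h
    rcases h with h | h <;> rw [h.1, h.2]

theorem grE_mono {n d : ℕ} {E E' : List (ℕ × ℕ)} (h : ∀ e ∈ E, e ∈ E')  :
    grE n d E ≤ grE n d E' := by
  intro u v huv
  unfold grE at huv ⊢
  rw [SimpleGraph.fromRel_adj] at huv ⊢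
  refine ⟨huv.1, ?_⟩
  rcases huv.2 with ⟨e, he, h'⟩ | ⟨e, he, h'⟩
  · exact Or.inl ⟨e, h e he, h'⟩
  · exact Or.inr ⟨e, h e he, h'⟩

/-- The degrees in the graph of a partial pairing. -/
theorem grE_degree {n d : ℕ} (hd : 0 < d) {F : List ℕ} {E : List (ℕ × ℕ)} (h : CInv n d F E)
    [DecidableRel (grE n d E).Adj] (u : Fin n) :
    (grE n d E).degree u + F.countP (fun i => decide (i / d = u.val)) = d := by
  have h1 := h.perm.countP_eq fun i => decide (i / d = u.val)
  rw [countP_range_div n d hd, List.countP_append, if_pos u.2, ← length_nbs] at h1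
  have h2 : (grE n d E).degree u = (nbs d E u.val).length := by
    rw [← List.toFinset_card_of_nodup (nodup_nbs h.simp u.val), SimpleGraph.degree]
    refine Finset.card_bij (fun v _ => v.val) (fun v hv => ?_) (fun v _ w _ h' => Fin.ext h')
      fun v hv => ?_
    · rw [SimpleGraph.mem_neighborFinset, grE_adj h.simp.1] at hv
      exact List.mem_toFinset.2 (mem_nbs.2 hv)
    · rw [List.mem_toFinset, mem_nbs] at hv
      obtain ⟨e, he, hev⟩ := hv
      have hlt : v < n := by
        have h3 : ∀ i ∈ stubs E, i < n * d := fun i hi =>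
          List.mem_range.1 (h.perm.mem_iff.1 (List.mem_append_right _ hi))
        have h4 : e.1 ∈ stubs E ∧ e.2 ∈ stubs E :=
          ⟨List.mem_flatMap.2 ⟨e, he, by simp⟩, List.mem_flatMap.2 ⟨e, he, by simp⟩⟩
        have h5 := (Nat.div_lt_iff_lt_mul hd).2 (h3 _ h4.1)
        have h6 := (Nat.div_lt_iff_lt_mul hd).2 (h3 _ h4.2)
        unfold vs at hev
        rw [Sym2.eq_iff] at hev
        rcases hev with h' | h'
        · rw [← h'.2]; exact h6
        · rw [← h'.1]; exact h5
      refine ⟨⟨v, hlt⟩, ?_, rfl⟩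
      rw [SimpleGraph.mem_neighborFinset, grE_adj h.simp.1]
      exact ⟨e, he, hev⟩
  rw [h2]
  omega

theorem grE_regular {n d : ℕ} (hd : 0 < d) {E : List (ℕ × ℕ)} (h : CInv n d [] E)
    [DecidableRel (grE n d E).Adj] : (grE n d E).IsRegularOfDegree d := fun u => by
  have := grE_degree hd h u
  simpa using this

theorem outB_eq {n d : ℕ} {E : List (ℕ × ℕ)} (hE : ∀ e ∈ E, e.1 / d ≠ e.2 / d)
    [DecidableRel (grE n d E).Adj] :
    outB d (List.range n) E = (List.ofFn fun i : Fin n => List.ofFn fun j : Fin n =>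
            decide ((grE n d E).Adj i j)).flatten := by
  unfold outB
  have key : ∀ {β : Type} (f : ℕ → β), (List.range n).map f = List.ofFn fun i : Fin n => f i := by
    intro β f
    apply List.ext_getElem <;> simp
  rw [List.flatMap, key]
  congr 1
  refine congrArg _ (funext fun i => ?_)
  rw [key]
  refine congrArg _ (funext fun j => ?_)
  rw [Bool.eq_iff_iff, adjE_iff, decide_eq_true_eq, grE_adj hE]

end Vale.Agent.P049.TS
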