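import Vale.Agent.P049.TS.Alg.Rel

/-!
The run of the algorithm follows a run of the real process with small potential.
-/

open Function

namespace Vale.Agent.P049.TS

/-! ### The square root -/

theorem rootStep_spec {D : ℕ} (hD : 2 ≤ D) (j : ℕ) :
    ((rootStep D)^[j] (0, 1)).2 = 4 ^ j ∧ ((rootStep D)^[j] (0, 1)).1 ^ 2 * D ≤ 4 ^ j ∧
      4 ^ j < (((rootStep D)^[j] (0, 1)).1 + 1) ^ 2 * D := by
  induction j with
  | zero => simp; omega
  | succ j ih =>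
    rw [iterate_succ_apply']
    obtain ⟨h1, h2, h3⟩ := ih
    set s := (rootStep D)^[j] (0, 1)
    unfold rootStep
    simp only [h1]
    refine ⟨by rw [pow_succ]; ring, ?_⟩
    have e4 : (4 : ℕ) ^ (j + 1) = 4 * 4 ^ j := by rw [pow_succ]; ring
    rw [e4]
    split_ifs with h
    · refine ⟨by nlinarith, ?_⟩
      calc 4 * 4 ^ j < 4 * ((s.1 + 1) ^ 2 * D) := by omega
        _ = (2 * s.1 + 1 + 1) ^ 2 * D := by ring
    · refine ⟨?_, ?_⟩
      · calc (2 * s.1) ^ 2 * D = 4 * (s.1 ^ 2 * D) := by ring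
          _ ≤ 4 * 4 ^ j := by omega
      · push Not at h
        calc 4 * 4 ^ j < (2 * s.1 + 1) * (2 * s.1 + 1) * D := h
          _ = (2 * s.1 + 1) ^ 2 * D := by ring

theorem rootL_close {d : ℕ} (hd : 3 ≤ d) (L : ℕ) :
    |(rootL (d - 1) L : ℝ) / 2 ^ L - (√((d : ℝ) - 1))⁻¹| ≤ 1 / 2 ^ L := by
  obtain ⟨-, h2, h3⟩ := rootStep_spec (D := d - 1) (by omega) L
  change (rootL (d - 1) L) ^ 2 * (d - 1) ≤ 4 ^ L at h2
  change 4 ^ L < (rootL (d - 1) L + 1) ^ 2 * (d - 1) at h3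
  set r := rootL (d - 1) L
  have hD : ((d - 1 : ℕ) : ℝ) = (d : ℝ) - 1 := by
    rw [Nat.cast_sub (by omega)]; simp
  have hd' : (0 : ℝ) < (d : ℝ) - 1 := by rw [← hD]; exact_mod_cast (by omega : 0 < d - 1)
  set w := √((d : ℝ) - 1) with hw
  have hw0 : 0 < w := Real.sqrt_pos.2 hd'
  have hw2 : w ^ 2 = (d : ℝ) - 1 := Real.sq_sqrt hd'.le
  have h4 : ((4 : ℝ)) ^ L = (2 ^ L) ^ 2 := by rw [← pow_mul, mul_comm L 2, pow_mul]; norm_num
  have h2' : ((r : ℝ)) ^ 2 * w ^ 2 ≤ (2 ^ L) ^ 2 := by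
    rw [hw2, ← hD, ← h4]
    exact_mod_cast h2
  have h3' : ((2 : ℝ) ^ L) ^ 2 < ((r : ℝ) + 1) ^ 2 * w ^ 2 := by
    rw [hw2, ← hD, ← h4]
    exact_mod_cast h3
  rw [← mul_pow] at h2' h3'
  have h5 : (r : ℝ) * w ≤ 2 ^ L := le_of_sq_le_sq h2' (by positivity)
  have h6 : (2 : ℝ) ^ L < ((r : ℝ) + 1) * w := lt_of_pow_lt_pow_left₀ 2 (by positivity) h3'
  have h2L : (0 : ℝ) < 2 ^ L := by positivity
  have h7 : (r : ℝ) / 2 ^ L - w⁻¹ = (r * w - 2 ^ L) / (2 ^ L * w) := by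
    field_simp
  rw [h7, abs_div, abs_of_pos (show (0 : ℝ) < 2 ^ L * w by positivity),
    div_le_div_iff₀ (by positivity) h2L, one_mul]
  have h8 : |(r : ℝ) * w - 2 ^ L| ≤ w := by
    rw [abs_le]; constructor <;> nlinarith
  calc |(r : ℝ) * w - 2 ^ L| * 2 ^ L ≤ w * 2 ^ L := by gcongr
    _ = 2 ^ L * w := mul_comm _ _

theorem abs_ediv_sub_div_le (N : ℤ) {D : ℕ} (hD : 0 < D) :
    |((N / (D : ℤ) : ℤ) : ℝ) - (N : ℝ) / D| ≤ 1 := by
  have := abs_ediv_sub_le (N := N) (D := (D : ℤ)) (by exact_mod_cast hD)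
  simpa using this

/-- The start. -/
theorem initM_close {n d : ℕ} (hd : 3 ≤ d) (hn : 0 < n) {q r : ℤ} {ν : ℝ} (hq : 0 < q)
    (hr : |(r : ℝ) / q - ν| ≤ 1 / q) :
    Close q (3 / q) (initM d r (((d - 1 : ℕ) * r - q) / (n * d : ℕ)) (List.range (n * d)))
      (Z₀ (vertF n d) d ν) := by
  intro i j
  have hq' : (0 : ℝ) < q := by exact_mod_cast hq
  have hm : 0 < n * d := Nat.mul_pos hn (by omega)
  have hm' : (0 : ℝ) < (n * d : ℕ) := by exact_mod_cast hm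
  unfold initM
  rw [ent_map_range _ i.2 j.2]
  have h1 := abs_ediv_sub_div_le ((d - 1 : ℕ) * r - q) hm
  have hif : (vertF n d i = vertF n d j) ↔ (i.val / d = j.val / d) := by
    simp [vertF]
  have hif2 : (i = j) ↔ (i.val = j.val) := Fin.ext_iff
  unfold Z₀
  rw [Matrix.of_apply, Fintype.card_fin]
  simp only [hif, hif2]
  have hD : ((d - 1 : ℕ) : ℝ) = (d : ℝ) - 1 := by
    rw [Nat.cast_sub (by omega)]; simp
  set T : ℤ := ((d - 1 : ℕ) * r - q) / (n * d : ℕ) with hT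
  have h2 : |(T : ℝ) / q - (((d : ℝ) - 1) * ν - 1) / (n * d : ℕ)| ≤ 2 / q := by
    have e1 : (T : ℝ) / q - (((d : ℝ) - 1) * ν - 1) / (n * d : ℕ) =
        ((T : ℝ) - ((((d - 1 : ℕ) * r - q : ℤ)) : ℝ) / (n * d : ℕ)) / q +
        ((d : ℝ) - 1) / (n * d : ℕ) * ((r : ℝ) / q - ν) := by
      rw [← hD]
      push_cast
      field_simp
      ring
    rw [e1]
    refine (abs_add_le _ _).trans ?_
    have h3 : |((T : ℝ) - ((((d - 1 : ℕ) * r - q : ℤ)) : ℝ) / (n * d : ℕ)) / q| ≤ 1 / q := by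
      rw [abs_div, abs_of_pos hq']
      gcongr
    have h4 : |((d : ℝ) - 1) / (n * d : ℕ) * ((r : ℝ) / q - ν)| ≤ 1 / q := by
      rw [abs_mul]
      have h5 : |((d : ℝ) - 1) / (n * d : ℕ)| ≤ 1 := by
        rw [abs_div, abs_of_pos hm', div_le_one hm', ← hD, Nat.abs_cast]
        have : d - 1 ≤ n * d := (Nat.sub_le _ _).trans (Nat.le_mul_of_pos_left _ hn)
        exact_mod_cast this
      calc |((d : ℝ) - 1) / (n * d : ℕ)| * |(r : ℝ) / q - ν| ≤ 1 * (1 / q) := by gcongr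
        _ = 1 / q := one_mul _
    calc _ ≤ 1 / (q : ℝ) + 1 / q := add_le_add h3 h4
      _ = 2 / q := by ring
  set δ : ℤ := (if i.val / d = j.val / d then 1 else 0) - (if i.val = j.val then 1 else 0)
    with hδ
  have hδ' : ((if i.val / d = j.val / d then 1 else 0) - (if i.val = j.val then 1 else 0) : ℝ) =
      (δ : ℝ) := by
    rw [hδ]; push_cast; rfl
  rw [hδ']
  have hδ1 : |(δ : ℝ)| ≤ 1 := by
    have : |δ| ≤ 1 := by
      rw [hδ]; split_ifs <;> simp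
    exact_mod_cast this
  have e2 : ((r * δ - T : ℤ) : ℝ) / q - (ν * δ - (((d : ℝ) - 1) * ν - 1) / (n * d : ℕ)) =
      ((r : ℝ) / q - ν) * δ - ((T : ℝ) / q - (((d : ℝ) - 1) * ν - 1) / (n * d : ℕ)) := by
    push_cast
    ring
  rw [e2]
  refine (abs_sub _ _).trans ?_
  rw [abs_mul]
  calc |(r : ℝ) / q - ν| * |(δ : ℝ)| + |(T : ℝ) / q - (((d : ℝ) - 1) * ν - 1) / (n * d : ℕ)|
      ≤ 1 / q * 1 + 2 / q := by gcongr
    _ = 3 / q := by ring

theorem init_rel {n d : ℕ} (hd : 3 ≤ d) (hn : 0 < n) (L : ℕ) :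
    Rel n d (2 ^ L) (3 / 2 ^ L) (init d (rootL (d - 1) L) (2 ^ L) (List.range (n * d)))
      (start (vertF n d) d) := by
  have hr := rootL_close hd L
  have hq : (0 : ℤ) < 2 ^ L := by positivity
  have hl : (List.range (n * d)).length = n * d := List.length_range
  refine ⟨fun i => ?_, ?_, ?_, rfl, ?_, ?_, ?_⟩
  · simp only [init, start, Finset.mem_univ, true_and, List.mem_range]
    exact ⟨fun h => ⟨⟨i, h⟩, rfl⟩, fun ⟨x, hx⟩ => hx ▸ x.2⟩
  · have := initM_close (n := n) (r := (rootL (d - 1) L : ℤ)) (ν := (√((d : ℝ) - 1))⁻¹) hd hn hq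
      (by push_cast; exact hr)
    simp only [init, start, hl]
    convert this using 1
    push_cast
    rfl
  · have := initM_close (n := n) (r := -(rootL (d - 1) L : ℤ)) (ν := -(√((d : ℝ) - 1))⁻¹) hd hn
      hq (by
        push_cast
        have e : -(rootL (d - 1) L : ℝ) / 2 ^ L - -(√((d : ℝ) - 1))⁻¹ =
          -((rootL (d - 1) L : ℝ) / 2 ^ L - (√((d : ℝ) - 1))⁻¹) := by ring
        rw [e, abs_neg]; exact hr)
    simp only [init, start, hl]
    convert this using 1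
    push_cast
    rfl
  · simp only [init, stubs, List.flatMap_nil, List.append_nil]
    exact List.Perm.refl _
  · simp [init]
  · simp [init]

end Vale.Agent.P049.TS
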