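import Vale.Agent.Lib.PolyTime.NatArith2
import Vale.Agent.Lib.PolyTime.Typed
import Vale.Agent.Lib.PolyTime.Lists3
import Vale.Agent.Lib.PolyTime.Lists2
import Vale.Agent.Lib.PolyTime.Official
import Vale.Agent.Lib.PolyTime.TM2

set_option linter.all false

/-!
Integers in the typed polynomial time layer: encoding by sign and absolute value, ring operations,
Euclidean division, comparisons, sums and products of lists.
-/

namespace Vale.Agent.Lib.PolyTime

open Function

variable {A : Set Word} {α β γ δ : Type*} [Enc α] [Enc β] [Enc γ] [Enc δ]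

/-- Integers are encoded by sign and absolute value. -/
instance : Enc ℤ := ⟨fun z => enc (decide (z < 0), z.natAbs)⟩

theorem enc_int (z : ℤ) : enc z = enc (decide (z < 0), z.natAbs) := rfl

theorem esize_int (z : ℤ) : esize z = esize z.natAbs + 3 := by
  have h : esize z = esize (decide (z < 0), z.natAbs) := rfl
  rw [h, esize_pair, esize_bool]
  omega

theorem esize_int_le {z : ℤ} {k : ℕ} (h : z.natAbs < 2 ^ k) : esize z ≤ k + 3 := by
  rw [esize_int]
  have := esize_nat_le h
  omega

theorem natAbs_lt_two_pow (z : ℤ) : z.natAbs < 2 ^ esize z := by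
  refine (lt_two_pow_esize z.natAbs).trans_le (Nat.pow_le_pow_right (by norm_num) ?_)
  rw [esize_int]; omega

/-! ### Constructors and destructors -/

theorem PT.natAbs {f : α → ℤ} (hf : PT A f) : PT A (fun a => (f a).natAbs) := by
  have h : PT A (fun a => (decide (f a < 0), (f a).natAbs)) := by
    obtain ⟨F, hF, hF'⟩ := hf
    exact ⟨F, hF, fun a => by rw [hF', enc_int]⟩
  exact h.snd

theorem PT.intNeg? {f : α → ℤ} (hf : PT A f) : PT A (fun a => decide (f a < 0)) := by
  have h : PT A (fun a => (decide (f a < 0), (f a).natAbs)) := by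
    obtain ⟨F, hF, hF'⟩ := hf
    exact ⟨F, hF, fun a => by rw [hF', enc_int]⟩
  exact h.fst

/-- The difference of two natural numbers as an integer. -/
theorem PT.subNat {f g : α → ℕ} (hf : PT A f) (hg : PT A g) :
    PT A (fun a => (f a : ℤ) - (g a : ℤ)) := by
  have h : PT A (fun a => (decide (f a < g a), (f a - g a) + (g a - f a))) :=
    (PT.lt hf hg).pair ((hf.sub hg).add (hg.sub hf))
  obtain ⟨F, hF, hF'⟩ := h
  refine ⟨F, hF, fun a => ?_⟩
  have e : (decide (f a < g a), (f a - g a) + (g a - f a)) =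
      (decide ((f a : ℤ) - (g a : ℤ) < 0), ((f a : ℤ) - (g a : ℤ)).natAbs) :=
    Prod.ext (decide_eq_decide.2 (by omega)) (by simp only; omega)
  rw [hF', enc_int]
  exact congrArg enc e

theorem PT.natCast {f : α → ℕ} (hf : PT A f) : PT A (fun a => (f a : ℤ)) :=
  (PT.subNat hf (PT.const 0)).congr fun a => by simp

theorem PT.posPart {f : α → ℤ} (hf : PT A f) : PT A (fun a => (f a).toNat) :=
  (PT.ite (p := fun a => f a < 0) hf.intNeg? (PT.const 0) hf.natAbs).congr fun a => by
    split_ifs with h <;> omega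

theorem PT.intNeg {f : α → ℤ} (hf : PT A f) : PT A (fun a => - f a) := by
  have h : PT A (fun a => if f a < 0 then ((f a).natAbs : ℤ) - ((0 : ℕ) : ℤ)
      else ((0 : ℕ) : ℤ) - ((f a).natAbs : ℤ)) :=
    PT.ite (p := fun a => f a < 0) hf.intNeg? (PT.subNat hf.natAbs (PT.const 0))
      (PT.subNat (PT.const 0) hf.natAbs)
  exact h.congr fun a => by split_ifs with h <;> omega

theorem PT.negPart {f : α → ℤ} (hf : PT A f) : PT A (fun a => (- f a).toNat) := hf.intNeg.posPart

/-! ### Ring operations -/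

theorem PT.intAdd {f g : α → ℤ} (hf : PT A f) (hg : PT A g) : PT A (fun a => f a + g a) :=
  (PT.subNat (hf.posPart.add hg.posPart) (hf.negPart.add hg.negPart)).congr fun a => by
    push_cast; omega

theorem PT.intSub {f g : α → ℤ} (hf : PT A f) (hg : PT A g) : PT A (fun a => f a - g a) :=
  (PT.subNat (hf.posPart.add hg.negPart) (hf.negPart.add hg.posPart)).congr fun a => by
    push_cast; omega

theorem PT.intMul {f g : α → ℤ} (hf : PT A f) (hg : PT A g) : PT A (fun a => f a * g a) := by
  refine (PT.subNat ((hf.posPart.mul hg.posPart).add (hf.negPart.mul hg.negPart))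
    ((hf.posPart.mul hg.negPart).add (hf.negPart.mul hg.posPart))).congr fun a => ?_
  have h1 : f a = ((f a).toNat : ℤ) - ((- f a).toNat : ℤ) := by omega
  have h2 : g a = ((g a).toNat : ℤ) - ((- g a).toNat : ℤ) := by omega
  conv_rhs => rw [h1, h2]
  push_cast
  ring

theorem PT.intAbs {f : α → ℤ} (hf : PT A f) : PT A (fun a => |f a|) :=
  (PT.natCast hf.natAbs).congr fun a => by rw [Int.abs_eq_natAbs]

/-! ### Comparisons -/

theorem PT.intLt {f g : α → ℤ} (hf : PT A f) (hg : PT A g) :
    PT A (fun a => decide (f a < g a)) :=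
  (hf.intSub hg).intNeg?.congr fun a => decide_eq_decide.2 (by omega)

theorem PT.intLe {f g : α → ℤ} (hf : PT A f) (hg : PT A g) :
    PT A (fun a => decide (f a ≤ g a)) :=
  (PT.intLt hg hf).not.congr fun a => by
    rw [← _root_.decide_not]
    exact decide_eq_decide.2 not_lt

theorem PT.intEq {f g : α → ℤ} (hf : PT A f) (hg : PT A g) :
    PT A (fun a => decide (f a = g a)) :=
  ((hf.intLe hg).and (hg.intLe hf)).congr fun a => by
    rw [← Bool.decide_and]
    exact decide_eq_decide.2 le_antisymm_iff.symm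

/-! ### Division -/

theorem ediv_eq (x y : ℤ) : x / y =
    if y = 0 then 0 else
      if 0 ≤ x then (if 0 < y then ((x.natAbs / y.natAbs : ℕ) : ℤ)
        else - ((x.natAbs / y.natAbs : ℕ) : ℤ))
      else (if 0 < y then - (((x.natAbs - 1) / y.natAbs + 1 : ℕ) : ℤ)
        else (((x.natAbs - 1) / y.natAbs + 1 : ℕ) : ℤ)) := by
  by_cases hy : y = 0
  · rw [if_pos hy, hy, Int.ediv_zero]
  rw [if_neg hy]
  have key : ∀ y : ℤ, 0 < y → x / y = if 0 ≤ x then ((x.natAbs / y.natAbs : ℕ) : ℤ)
      else - (((x.natAbs - 1) / y.natAbs + 1 : ℕ) : ℤ) := by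
    intro y hy
    obtain ⟨n, rfl⟩ : ∃ n : ℕ, y = n := ⟨y.toNat, by omega⟩
    by_cases hx : 0 ≤ x
    · rw [if_pos hx]
      obtain ⟨k, rfl⟩ : ∃ k : ℕ, x = k := ⟨x.toNat, by omega⟩
      simp only [Int.natAbs_natCast, Int.natCast_ediv]
    · rw [if_neg hx]
      obtain ⟨k, rfl⟩ : ∃ k : ℕ, x = Int.negSucc k := ⟨(-x - 1).toNat, by omega⟩
      rw [Int.negSucc_ediv _ hy]
      simp only [neg_add_rev, Int.reduceNeg, Int.natAbs_negSucc, Nat.succ_eq_add_one, add_tsub_cancel_right, Int.natAbs_natCast, Nat.cast_add, Int.natCast_ediv, Nat.cast_one, add_right_inj, neg_inj]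
      rfl
  rcases lt_trichotomy y 0 with h | h | h
  · have h1 : x / y = - (x / (-y)) := by rw [Int.ediv_neg, neg_neg]
    rw [h1, key (-y) (by omega), Int.natAbs_neg]
    have h2 : ¬ 0 < y := by omega
    simp only [h2, if_false]
    split_ifs <;> simp
  · exact absurd h hy
  · rw [key y h]
    simp only [h, if_true]

theorem PT.intDiv {f g : α → ℤ} (hf : PT A f) (hg : PT A g) : PT A (fun a => f a / g a) := by
  have h0 : PT A (fun a => decide (0 < g a)) := (PT.intLt (PT.const 0) hg)
  have q1 : PT A (fun a => (((f a).natAbs / (g a).natAbs : ℕ) : ℤ)) :=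
    PT.natCast (hf.natAbs.div hg.natAbs)
  have q2 : PT A (fun a => ((((f a).natAbs - 1) / (g a).natAbs + 1 : ℕ) : ℤ)) :=
    PT.natCast (((hf.natAbs.sub (PT.const 1)).div hg.natAbs).add (PT.const 1))
  refine (PT.ite (p := fun a => g a = 0) (PT.intEq hg (PT.const 0)) (PT.const 0)
    (PT.ite (p := fun a => 0 ≤ f a) (PT.intLe (PT.const 0) hf)
      (PT.ite (p := fun a => 0 < g a) h0 q1 q1.intNeg)
      (PT.ite (p := fun a => 0 < g a) h0 q2.intNeg q2))).congr fun a => ?_
  exact (ediv_eq _ _).symm

/-! ### Sums and products of lists -/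

theorem natAbs_sum_lt (l : List ℤ) : l.sum.natAbs < 2 ^ esize l := by
  induction l with
  | nil => simp only [List.sum_nil, Int.natAbs_zero, esize_list_nil, pow_zero, Order.lt_one_iff]
  | cons a l ih =>
    rw [List.sum_cons, esize_list_cons]
    have h1 := natAbs_lt_two_pow a
    have h2 : 2 ^ esize a ≤ 2 ^ (2 * esize a + esize l) :=
      Nat.pow_le_pow_right (by norm_num) (by omega)
    have h3 : 2 ^ esize l ≤ 2 ^ (2 * esize a + esize l) :=
      Nat.pow_le_pow_right (by norm_num) (by omega)
    rw [pow_succ]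
    have := Int.natAbs_add_le a l.sum
    omega

theorem natAbs_prod_le (l : List ℤ) : l.prod.natAbs ≤ 2 ^ esize l := by
  induction l with
  | nil => simp [esize_list_nil]
  | cons a l ih =>
    rw [List.prod_cons, esize_list_cons, Int.natAbs_mul]
    have h1 := natAbs_lt_two_pow a
    calc a.natAbs * l.prod.natAbs ≤ 2 ^ esize a * 2 ^ esize l := Nat.mul_le_mul h1.le ih
      _ = 2 ^ (esize a + esize l) := (pow_add _ _ _).symm
      _ ≤ 2 ^ (2 * esize a + esize l + 1) := Nat.pow_le_pow_right (by norm_num) (by omega)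

theorem esize_intSum_le (l : List ℤ) : esize l.sum ≤ esize l + 3 :=
  esize_int_le (natAbs_sum_lt l)

theorem esize_intProd_le (l : List ℤ) : esize l.prod ≤ esize l + 4 := by
  have h : l.prod.natAbs < 2 ^ (esize l + 1) := by
    refine (natAbs_prod_le l).trans_lt ?_
    exact Nat.pow_lt_pow_right (by norm_num) (by omega)
  exact esize_int_le h

theorem PT.intSum {l : α → List ℤ} (hl : PT A l) : PT A (fun a => (l a).sum) := by
  refine (PT.foldr (init := fun _ => (0 : ℤ)) (f := fun _ x s => x + s) hl (PT.const 0)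
    (PT.intAdd PT.snd'.fst PT.snd'.snd) (b := fun a => PolyTime.esize (l a) + 3)
    (hl.pbd.add (PBd.const 3)) fun a i => ?_).congr fun a => ?_
  · rw [← List.sum_eq_foldr]
    have h1 := esize_intSum_le ((l a).drop i)
    have h2 := esize_drop_le i (l a)
    omega
  · rw [← List.sum_eq_foldr]

theorem PT.intProd {l : α → List ℤ} (hl : PT A l) : PT A (fun a => (l a).prod) := by
  refine (PT.foldr (init := fun _ => (1 : ℤ)) (f := fun _ x s => x * s) hl (PT.const 1)
    (PT.intMul PT.snd'.fst PT.snd'.snd) (b := fun a => PolyTime.esize (l a) + 4)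
    (hl.pbd.add (PBd.const 4)) fun a i => ?_).congr fun a => ?_
  · rw [← List.prod_eq_foldr]
    have h1 := esize_intProd_le ((l a).drop i)
    have h2 := esize_drop_le i (l a)
    omega
  · rw [← List.prod_eq_foldr]

theorem PT.zipWith {l : α → List β} {l' : α → List γ} {f : α → β → γ → δ} (hl : PT A l)
    (hl' : PT A l') (hf : PT A (fun p : α × β × γ => f p.1 p.2.1 p.2.2)) :
    PT A (fun a => List.zipWith (f a) (l a) (l' a)) :=
  (PT.map (l := fun a => (l a).zip (l' a)) (f := fun a p => f a p.1 p.2) (PT.zip hl hl')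
    hf).congr fun a => by
      rw [List.zip, List.map_zipWith]

/-- Power with a fixed exponent. -/
theorem PT.intPow {f : α → ℤ} (hf : PT A f) (k : ℕ) : PT A (fun a => f a ^ k) := by
  induction k with
  | zero => exact (PT.const 1).congr fun a => (pow_zero _).symm
  | succ k ih => exact (ih.intMul hf).congr fun a => (pow_succ _ _).symm

end Vale.Agent.Lib.PolyTime
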