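import Vale.Agent.P049.TS.Alg.PTRun
import Vale.Agent.P049.TS.Alg.Comp

/-!
The completion and the whole algorithm are computable in polynomial time.
-/

open Function Vale.Agent.Lib.PolyTime

namespace Vale.Agent.P049.TS

variable {A : Set Word} {α : Type*} [Enc α]

theorem pt_okE (d : ℕ) {E : α → List (ℕ × ℕ)} {a b : α → ℕ} (hE : PT A E) (ha : PT A a)
    (hb : PT A b) : PT A (fun x => okE d (E x) (a x) (b x)) := by
  have h1 := PT.div ha (PT.const d)
  have h2 := PT.div hb (PT.const d)
  exact PT.and (PT.not (PT.eqNat h1 h2)) (PT.not (pt_adjE (pt_vtxMap d hE) h1 h2))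

theorem pt_swapOk (d : ℕ) {E : α → List (ℕ × ℕ)} {a c : α → ℕ} {e : α → ℕ × ℕ} (hE : PT A E)
    (ha : PT A a) (hc : PT A c) (he : PT A e) :
    PT A (fun x => swapOk d (E x) (a x) (c x) (e x)) :=
  PT.and (PT.and (pt_okE d hE ha he.fst) (pt_okE d hE hc he.snd))
    (PT.not (PT.eqNat (PT.div he.fst (PT.const d)) (PT.div hc (PT.const d))))

theorem pt_compStep (d : ℕ) {E₀ : α → List (ℕ × ℕ)} {s : α → List ℕ × List (ℕ × ℕ)}
    (hE : PT A E₀) (hs : PT A s) : PT A (fun x => compStep d (E₀ x) (s x)) := by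
  have ha : PT A (fun x => (s x).1.headD 0) := PT.headD hs.fst (PT.const 0)
  have hT : PT A (fun x => (s x).1.tail) := PT.tail hs.fst
  have hc : PT A (fun x => (s x).1.tail.headD 0) := PT.headD hT (PT.const 0)
  have hEE : PT A (fun x => (s x).2 ++ E₀ x) := PT.append hs.snd hE
  have hb : PT A (fun x => ((s x).1.tail.find? fun b =>
      okE d ((s x).2 ++ E₀ x) ((s x).1.headD 0) b).getD ((s x).1.headD 0)) :=
    PT.optGetD (PT.find? (f := fun x b => okE d ((s x).2 ++ E₀ x) ((s x).1.headD 0) b) hT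
      (pt_okE d (hEE.comp PT.fst') (ha.comp PT.fst') PT.snd')) ha
  have he : PT A (fun x => ((s x).2.find? fun e =>
      swapOk d ((s x).2 ++ E₀ x) ((s x).1.headD 0) ((s x).1.tail.headD 0) e).getD (0, 0)) :=
    PT.optGetD (PT.find? (f := fun x e => swapOk d ((s x).2 ++ E₀ x) ((s x).1.headD 0)
      ((s x).1.tail.headD 0) e) hs.snd
      (pt_swapOk d (hEE.comp PT.fst') (ha.comp PT.fst') (hc.comp PT.fst') PT.snd'))
      (PT.const (0, 0))
  refine PT.ite (p := fun x => okE d ((s x).2 ++ E₀ x) ((s x).1.headD 0)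
      (((s x).1.tail.find? fun b => okE d ((s x).2 ++ E₀ x) ((s x).1.headD 0) b).getD
        ((s x).1.headD 0)) = true) ?_ ?_ ?_
  · exact (pt_okE d hEE ha hb).congr fun x => by simp
  · refine (PT.filter (f := fun x i => decide (i ≠ ((s x).1.tail.find? fun b =>
      okE d ((s x).2 ++ E₀ x) ((s x).1.headD 0) b).getD ((s x).1.headD 0))) hT ?_).pair
      (PT.cons (ha.pair hb) hs.snd)
    exact PT.decide_not (PT.eqNat PT.snd' (hb.comp PT.fst'))
  · refine (PT.tail hT).pair (PT.cons (ha.pair he.fst) (PT.cons (hc.pair he.snd) ?_))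
    refine PT.filter (f := fun x e' => decide (e' ≠ ((s x).2.find? fun e =>
      swapOk d ((s x).2 ++ E₀ x) ((s x).1.headD 0) ((s x).1.tail.headD 0) e).getD (0, 0)))
      hs.snd ?_
    have he' := he.comp (PT.fst' (A := A) (α := α) (β := ℕ × ℕ))
    refine PT.decide_not ((PT.decide_and (PT.eqNat PT.snd'.fst he'.fst)
      (PT.eqNat PT.snd'.snd he'.snd)).congr fun x => ?_)
    exact decide_eq_decide.2 Prod.ext_iff.symm

/-- the invariant used for the size of the state -/
def CB (R : List ℕ) (k : ℕ) (s : List ℕ × List (ℕ × ℕ)) : Prop :=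
  (s.1.Sublist R) ∧ (∀ p ∈ s.2, esize p.1 ≤ esize R ∧ esize p.2 ≤ esize R) ∧ s.2.length ≤ 2 * k

theorem esize_headD {l : List ℕ} : esize (l.headD 0) ≤ esize l := by
  rcases l with _ | ⟨a, l⟩
  · simp [esize_nat]
  · exact esize_le_of_mem List.mem_cons_self

theorem compStep_CB (d : ℕ) (E₀ : List (ℕ × ℕ)) {R : List ℕ} {k : ℕ}
    {s : List ℕ × List (ℕ × ℕ)} (h : CB R k s) : CB R (k + 1) (compStep d E₀ s) := by
  obtain ⟨h1, h2, h3⟩ := h
  have ha : esize (s.1.headD 0) ≤ esize R := esize_headD.trans (esize_le_of_sublist h1)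
  have hT : s.1.tail.Sublist R := (List.tail_sublist _).trans h1
  have hc : esize (s.1.tail.headD 0) ≤ esize R := esize_headD.trans (esize_le_of_sublist hT)
  have hb : esize ((s.1.tail.find? fun b => okE d (s.2 ++ E₀) (s.1.headD 0) b).getD
      (s.1.headD 0)) ≤ esize R := by
    rcases e : (s.1.tail.find? fun b => okE d (s.2 ++ E₀) (s.1.headD 0) b) with _ | b
    · exact ha
    · exact esize_le_of_mem (hT.subset (List.mem_of_find?_eq_some e))
  have he : esize ((s.2.find? fun e => swapOk d (s.2 ++ E₀) (s.1.headD 0)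
      (s.1.tail.headD 0) e).getD (0, 0)).1 ≤ esize R ∧
      esize ((s.2.find? fun e => swapOk d (s.2 ++ E₀) (s.1.headD 0)
      (s.1.tail.headD 0) e).getD (0, 0)).2 ≤ esize R := by
    rcases e : (s.2.find? fun e => swapOk d (s.2 ++ E₀) (s.1.headD 0)
      (s.1.tail.headD 0) e) with _ | b
    · simp [esize_nat]
    · exact h2 _ (List.mem_of_find?_eq_some e)
  unfold compStep
  split_ifs
  · refine ⟨(List.filter_sublist).trans hT, fun p hp => ?_, ?_⟩
    · rcases List.mem_cons.1 hp with rfl | hp
      · exact ⟨ha, hb⟩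
      · exact h2 p hp
    · simp only [List.length_cons]; omega
  · refine ⟨(List.tail_sublist _).trans hT, fun p hp => ?_, ?_⟩
    · rcases List.mem_cons.1 hp with rfl | hp
      · exact ⟨ha, he.1⟩
      · rcases List.mem_cons.1 hp with rfl | hp
        · exact ⟨hc, he.2⟩
        · exact h2 p (List.mem_of_mem_filter hp)
    · have := List.length_filter_le (fun e' => decide (e' ≠ (s.2.find? fun e =>
        swapOk d (s.2 ++ E₀) (s.1.headD 0) (s.1.tail.headD 0) e).getD (0, 0))) s.2
      simp only [List.length_cons]; omega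

theorem comp_CB (d : ℕ) (F : List ℕ) (E₀ : List (ℕ × ℕ)) (k : ℕ) :
    CB F k ((compStep d E₀)^[k] (F, [])) := by
  induction k with
  | zero => exact ⟨List.Sublist.refl _, by simp, by simp⟩
  | succ k ih => rw [iterate_succ_apply']; exact compStep_CB d E₀ ih

theorem pt_comp (d : ℕ) {F : α → List ℕ} {E₀ : α → List (ℕ × ℕ)} (hF : PT A F) (hE : PT A E₀) :
    PT A (fun x => comp d (F x) (E₀ x)) := by
  refine PT.append (PT.snd (PT.iterate' (k := fun x => (F x).length / 2)
    (init := fun x => (F x, ([] : List (ℕ × ℕ))))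
    (step := fun x s => compStep d (E₀ x) s) (PT.div hF.length (PT.const 2))
    ((PBd.length hF).mono fun x => Nat.div_le_self _ _) (hF.pair (PT.const []))
    (pt_compStep d (hE.comp PT.fst') PT.snd')
    (b := fun x => 2 * esize (F x) + 2 * (F x).length * (2 * (3 * esize (F x) + 1) + 1) + 1)
    ?_ fun x j hj => ?_)) hE
  · have h1 := PBd.length hF
    have h3 := hF.pbd
    fun_prop
  · obtain ⟨h1, h2, h3⟩ := comp_CB d (F x) (E₀ x) j
    set s := (compStep d (E₀ x))^[j] (F x, []) with hs
    have e : esize s = 2 * esize s.1 + esize s.2 + 1 := by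
      have := esize_pair s.1 s.2
      simpa only [Prod.mk.eta] using this
    have e1 := esize_le_of_sublist h1
    have e2 : esize s.2 ≤ 2 * (F x).length * (2 * (3 * esize (F x) + 1) + 1) := by
      refine (esize_list_le (B := 3 * esize (F x) + 1) fun p hp => ?_).trans
        (Nat.mul_le_mul_right _ (h3.trans ?_))
      · have e3 := h2 p hp
        have e4 : esize p = 2 * esize p.1 + esize p.2 + 1 := by
          have := esize_pair p.1 p.2
          simpa only [Prod.mk.eta] using this
        omega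
      · have := Nat.div_le_self (F x).length 2
        omega
    omega

theorem pt_outB (d : ℕ) {L : α → List ℕ} {E : α → List (ℕ × ℕ)} (hL : PT A L) (hE : PT A E) :
    PT A (fun x => outB d (L x) (E x)) := by
  refine PT.flatMap (f := fun x u => (L x).map fun v => adjE ((E x).map (vtx d)) u v) hL ?_
  refine PT.map (l := fun p : α × ℕ => L p.1)
    (f := fun (p : α × ℕ) v => adjE ((E p.1).map (vtx d)) p.2 v) (hL.comp PT.fst') ?_
  exact pt_adjE (pt_vtxMap d (hE.comp PT.fst'.fst)) PT.fst'.snd PT.snd'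

theorem pt_allBits {V : List ℕ → ℤ → St → ℤ} {K : List ℕ → ℕ}
    (hV : PT A (fun p : List ℕ × ℤ × St => V p.1 p.2.1 p.2.2))
    (hK : PT A K) (hKb : PBd K) (d c : ℕ) :
    PT A (fun u : Un => Raw.mk (allBits V K d c u.v)) := by
  have hn : PT A (fun u : Un => List.range u.v) := PT.range (PT.unVal PT.id) (PBd.unVal (A := A) PT.id)
  have hR : PT A (fun u : Un => List.range (u.v * d)) :=
    PT.range ((PT.unVal PT.id).mul (PT.const d)) ((PBd.unVal (A := A) PT.id).mul (PBd.const d))
  have hrun : PT A (fun u : Un => run V d c (List.range (u.v * d)) (K (List.range (u.v * d)))) :=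
    pt_run hV d c hR (hK.comp hR) (hKb.comp hR)
  exact PT.rawOfList (pt_outB d hn (pt_comp d hrun.fst hrun.snd.snd))

/-- For every potential `V` and every number of steps `K` computable in polynomial time, the
function `allBits V K d c` (input in unary, output a word) is computed in polynomial time by a
Turing machine with finite alphabets. -/
theorem exists_tm2_allBits {V : List ℕ → ℤ → St → ℤ} {K : List ℕ → ℕ}
    (hV : PT ∅ (fun p : List ℕ × ℤ × St => V p.1 p.2.1 p.2.2))
    (hK : PT ∅ K) (hKb : PBd K) (d c : ℕ) :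
    ∃ M : Turing.TM2ComputableInPolyTime (fun n : ℕ => List.replicate n true)
      (id : List Bool → List Bool) (allBits V K d c), ∀ k, Finite (M.tm.Γ k) := by
  obtain ⟨g, hg, h⟩ := pt_allBits hV hK hKb d c
  exact exists_tm2_of_polyTimeFun _ _ (allBits V K d c) g (polyTimeFun_iff.2 hg) fun n => h ⟨n⟩

end Vale.Agent.P049.TS
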