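import Vale.Agent.P049.TS.Alg.RunCorrect
import Vale.Agent.P049.TS.Alg.Graph
import Vale.Agent.P049.TS.Alg.PTComp
import Vale.Agent.P049.GraphDefsT

/-!
The final reduction: a potential satisfying the interface gives the algorithm.
-/

open Function Vale.Agent.Lib.PolyTime

namespace Vale.Agent.P049.TS

theorem num7 (c : ℕ) : ∃ m₁ : ℕ, ∀ m ≥ m₁,
    1 + 208 * (c : ℝ) ^ 2 * ((m : ℝ) + 1) ^ 4 ≤ 2 ^ m := by
  have h := tendsto_pow_const_div_const_pow_of_one_lt 4 (show (1 : ℝ) < 2 by norm_num)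
  have hpos : (0 : ℝ) < 1 / (2 * (1 + 208 * (c : ℝ) ^ 2)) := by positivity
  obtain ⟨N, hN⟩ := Filter.eventually_atTop.1 (h.eventually_lt_const hpos)
  refine ⟨N, fun m hm => ?_⟩
  have h1 := hN (m + 1) (by omega)
  rw [div_lt_div_iff₀ (by positivity) (by positivity), one_mul, pow_succ (2 : ℝ) m] at h1
  push_cast at h1
  have h2 : (1 : ℝ) ≤ ((m : ℝ) + 1) ^ 4 := one_le_pow₀ (by
    have : (0 : ℝ) ≤ m := Nat.cast_nonneg _
    linarith)
  nlinarith

/-- The output of the algorithm. -/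
theorem alg_correct {n d c K : ℕ} {V : List ℕ → ℤ → St → ℤ} {Kf : List ℕ → ℕ} {W : ℕ → ℝ}
    {Φ : ℕ → RSt (Fin (n * d)) → ℝ} {b : ℕ → ℝ} (hd : 3 ≤ d) (hn : 0 < n) (hc : 0 < c)
    (hcm : 12 * c ≤ n * d)
    (hm : 1 + 208 * (c : ℝ) ^ 2 * (((n * d : ℕ) : ℝ) + 1) ^ 4 ≤ 2 ^ (n * d))
    (hKf : Kf (List.range (n * d)) = K)
    (hK : 2 * K + 8 * d ^ 2 ≤ n * d) (he : Even (d * n)) (G : Good n d c K V W Φ b) :
    ∃ σ, Reach (vertF n d) (start (vertF n d) d) K σ ∧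
      Φ K σ ≤ b K + (1 / 2) ^ (n * d) ∧
      ∃ (G : SimpleGraph (Fin n)) (_ : DecidableRel G.Adj), G.IsRegularOfDegree d ∧
        (∀ e ∈ σ.E, G.Adj (vertF n d e.1) (vertF n d e.2)) ∧
        allBits V Kf d c n = (List.ofFn fun i : Fin n => List.ofFn fun j : Fin n =>
            decide (G.Adj i j)).flatten := by
  obtain ⟨σ, h1, h2, h3⟩ := run_correct hd hn hc hcm hm (by omega) G
  have hcard := h1.base.2.2.2
  rw [Fintype.card_fin] at hcard
  have hlen := h3.length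
  have hev : Even (run V d c (List.range (n * d)) K).1.length := by
    rw [hlen]
    rw [mul_comm d n] at he
    obtain ⟨r, hr⟩ := he
    exact ⟨r - K, by omega⟩
  obtain ⟨g1, g2⟩ := comp_correct hd h3.cinv hev (by omega)
  classical
  refine ⟨σ, h1, h2, grE n d (comp d (run V d c (List.range (n * d)) K).1
    (run V d c (List.range (n * d)) K).2.2), inferInstance, grE_regular (by omega) g1,
    fun e he' => ?_, ?_⟩
  · rw [grE_adj g1.simp.1]
    refine ⟨(e.1.val, e.2.val), g2 _ ?_, rfl⟩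
    rw [h3.edges]
    exact List.mem_map.2 ⟨e, he', rfl⟩
  · unfold allBits
    rw [hKf]
    exact outB_eq g1.simp.1

/-- The final reduction. -/
theorem main_of_good {d c n₀ : ℕ} (hd : 3 ≤ d) (hc : 0 < c) {V : List ℕ → ℤ → St → ℤ}
    {K : List ℕ → ℕ} (hV : PT ∅ (fun p : List ℕ × ℤ × St => V p.1 p.2.1 p.2.2))
    (hK : PT ∅ K) (hKb : PBd K) (W : ℕ → ℕ → ℝ) (Φ : ∀ n, ℕ → RSt (Fin (n * d)) → ℝ)
    (b : ℕ → ℕ → ℝ)
    (hG : ∀ n ≥ n₀, Even (d * n) →
      Good n d c (K (List.range (n * d))) V (W n) (Φ n) (b n))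
    (hK2 : ∀ n ≥ n₀, 2 * K (List.range (n * d)) + 8 * d ^ 2 ≤ n * d)
    (hfin : ∀ n ≥ n₀, Even (d * n) → ∀ σ,
      Reach (vertF n d) (start (vertF n d) d) (K (List.range (n * d))) σ →
      Φ n (K (List.range (n * d))) σ ≤ b n (K (List.range (n * d))) + (1 / 2) ^ (n * d) →
      ∀ (G : SimpleGraph (Fin n)) [DecidableRel G.Adj], G.IsRegularOfDegree d →
        (∀ e ∈ σ.E, G.Adj (vertF n d e.1) (vertF n d e.2)) → IsRamanujanUpTo d 0 G) :
    ∃ f : ℕ → List Bool,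
      (∃ M : Turing.TM2ComputableInPolyTime (fun n : ℕ => List.replicate n true)
        (id : List Bool → List Bool) f, ∀ k, Finite (M.tm.Γ k)) ∧
      ∃ n₁ : ℕ, ∀ n : ℕ, n₁ ≤ n → Even (d * n) →
        ∃ (G : SimpleGraph (Fin n)) (_ : DecidableRel G.Adj),
          IsRamanujanUpTo d 0 G ∧
          f n = (List.ofFn fun i : Fin n => List.ofFn fun j : Fin n =>
            decide (G.Adj i j)).flatten := by
  refine ⟨allBits V K d c, exists_tm2_allBits hV hK hKb d c, ?_⟩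
  obtain ⟨m₁, hm₁⟩ := num7 c
  refine ⟨n₀ + m₁ + 12 * c + 1, fun n hn he => ?_⟩
  have hnd : n ≤ n * d := Nat.le_mul_of_pos_right _ (by omega)
  obtain ⟨σ, h1, h2, G, hG', h3, h4, h5⟩ := alg_correct hd (by omega) hc (by omega)
    (hm₁ (n * d) (by omega)) rfl (hK2 n (by omega)) he (hG n (by omega) he)
  exact ⟨G, hG', hfin n (by omega) he σ h1 h2 G h3 h4, h5⟩

end Vale.Agent.P049.TS
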