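import Vale.Agent.P049.TS.Alg.Alg

/-!
The functions of `Alg.lean` are computable in polynomial time.
-/

open Function Vale.Agent.Lib.PolyTime

namespace Vale.Agent.P049.TS

variable {A : Set Word} {α : Type*} [Enc α]

theorem pt_ent {M : α → List (List ℤ)} {i j : α → ℕ} (hM : PT A M) (hi : PT A i) (hj : PT A j) :
    PT A (fun a => ent (M a) (i a) (j a)) :=
  PT.getD (PT.getD hM hi (PT.const [])) hj (PT.const 0)

theorem pt_clip {B x : α → ℤ} (hB : PT A B) (hx : PT A x) : PT A (fun a => clip (B a) (x a)) :=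
  PT.ite (p := fun a => B a < x a) (PT.intLt hB hx) hB
    (PT.ite (p := fun a => x a < -B a) (PT.intLt hx hB.intNeg) hB.intNeg hx)

theorem pt_updE {q B saa sab sbb v : α → ℤ} {x y : α → List ℤ} {i j : α → ℕ}
    (hq : PT A q) (hB : PT A B) (h1 : PT A saa) (h2 : PT A sab) (h3 : PT A sbb)
    (hx : PT A x) (hy : PT A y) (hv : PT A v) (hi : PT A i) (hj : PT A j) :
    PT A (fun a => updE (q a) (B a) (saa a) (sab a) (sbb a) (x a) (y a) (v a) (i a) (j a)) := by
  have hxi := PT.getD hx hi (PT.const (0 : ℤ))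
  have hxj := PT.getD hx hj (PT.const (0 : ℤ))
  have hyi := PT.getD hy hi (PT.const (0 : ℤ))
  have hyj := PT.getD hy hj (PT.const (0 : ℤ))
  have hqs := PT.intSub hq h2
  exact pt_clip hB (PT.intAdd hv (PT.intDiv
    (PT.intAdd (PT.intAdd (PT.intMul h3 (PT.intMul hxi hxj))
      (PT.intMul hqs (PT.intAdd (PT.intMul hxi hyj) (PT.intMul hyi hxj))))
      (PT.intMul h1 (PT.intMul hyi hyj)))
    (PT.intSub (PT.intMul hqs hqs) (PT.intMul h1 h3))))

theorem pt_updM {q B : α → ℤ} {R : α → List ℕ} {M : α → List (List ℤ)} {p : α → ℕ × ℕ}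
    (hq : PT A q) (hB : PT A B) (hR : PT A R) (hM : PT A M) (hp : PT A p) :
    PT A (fun a => updM (q a) (B a) (R a) (M a) (p a)) := by
  unfold updM
  refine PT.map (f := fun a i => (R a).map fun j => _) hR ?_
  refine PT.map (l := fun x : α × ℕ => R x.1) (f := fun (x : α × ℕ) j => _) (hR.comp PT.fst') ?_
  have hq' : PT A (fun x : (α × ℕ) × ℕ => q x.1.1) := hq.comp PT.fst'.fst
  have hB' : PT A (fun x : (α × ℕ) × ℕ => B x.1.1) := hB.comp PT.fst'.fst
  have hM' : PT A (fun x : (α × ℕ) × ℕ => M x.1.1) := hM.comp PT.fst'.fst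
  have hp1 : PT A (fun x : (α × ℕ) × ℕ => (p x.1.1).1) := (hp.comp PT.fst'.fst).fst
  have hp2 : PT A (fun x : (α × ℕ) × ℕ => (p x.1.1).2) := (hp.comp PT.fst'.fst).snd
  have hi : PT A (fun x : (α × ℕ) × ℕ => x.1.2) := PT.fst'.snd
  have hj : PT A (fun x : (α × ℕ) × ℕ => x.2) := PT.snd'
  refine PT.ite (p := fun x : (α × ℕ) × ℕ =>
    x.1.2 = (p x.1.1).1 ∨ x.1.2 = (p x.1.1).2 ∨ x.2 = (p x.1.1).1 ∨ x.2 = (p x.1.1).2)
    ?_ (PT.const 0) ?_
  · exact PT.decide_or (PT.eqNat hi hp1) (PT.decide_or (PT.eqNat hi hp2)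
      (PT.decide_or (PT.eqNat hj hp1) (PT.eqNat hj hp2)))
  · exact pt_updE hq' hB' (pt_ent hM' hp1 hp1) (pt_ent hM' hp1 hp2) (pt_ent hM' hp2 hp2)
      (PT.getD hM' hp1 (PT.const [])) (PT.getD hM' hp2 (PT.const [])) (pt_ent hM' hi hj) hi hj

theorem pt_join {q B : α → ℤ} {R : α → List ℕ} {s : α → St} {p : α → ℕ × ℕ}
    (hq : PT A q) (hB : PT A B) (hR : PT A R) (hs : PT A s) (hp : PT A p) :
    PT A (fun a => join (q a) (B a) (R a) (s a) (p a)) := by
  have h1 : PT A (fun a => (s a).1.filter fun i => decide (i ≠ (p a).1) && decide (i ≠ (p a).2)) :=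
    PT.filter (f := fun a i => decide (i ≠ (p a).1) && decide (i ≠ (p a).2)) hs.fst
      (PT.and (PT.decide_not (p := fun x : α × ℕ => x.2 = (p x.1).1)
          (PT.eqNat PT.snd' (hp.comp PT.fst').fst))
        (PT.decide_not (p := fun x : α × ℕ => x.2 = (p x.1).2)
          (PT.eqNat PT.snd' (hp.comp PT.fst').snd)))
  exact h1.pair (((pt_updM hq hB hR hs.snd.fst.fst hp).pair
    (pt_updM hq hB hR hs.snd.fst.snd hp)).pair (PT.cons hp hs.snd.snd))

theorem pt_vtxMap (d : ℕ) {E : α → List (ℕ × ℕ)} (hE : PT A E) :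
    PT A (fun a => (E a).map (vtx d)) :=
  PT.map (f := fun _ p => vtx d p) hE ((PT.div PT.snd'.fst (PT.const d)).pair
    (PT.div PT.snd'.snd (PT.const d)))

theorem pt_adjE {E : α → List (ℕ × ℕ)} {u v : α → ℕ} (hE : PT A E) (hu : PT A u) (hv : PT A v) :
    PT A (fun a => adjE (E a) (u a) (v a)) := by
  have hu' : PT A (fun x : α × (ℕ × ℕ) => u x.1) := hu.comp PT.fst'
  have hv' : PT A (fun x : α × (ℕ × ℕ) => v x.1) := hv.comp PT.fst'
  exact PT.any (f := fun a e => (decide (e.1 = u a) && decide (e.2 = v a)) ||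
      (decide (e.1 = v a) && decide (e.2 = u a))) hE
    (PT.or (PT.and (PT.eqNat PT.snd'.fst hu') (PT.eqNat PT.snd'.snd hv'))
      (PT.and (PT.eqNat PT.snd'.fst hv') (PT.eqNat PT.snd'.snd hu')))

theorem pt_alB (c : ℕ) {q : α → ℤ} {M : α → List (List ℤ)} {p : α → ℕ × ℕ} (hq : PT A q)
    (hM : PT A M) (hp : PT A p) : PT A (fun a => alB c (q a) (M a) (p a)) := by
  have h1 := PT.intSub hq (pt_ent hM hp.fst hp.snd)
  exact PT.intLe (PT.intMul hq hq) (PT.intMul (PT.const (c : ℤ)) (PT.intSub (PT.intMul h1 h1)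
    (PT.intMul (pt_ent hM hp.fst hp.fst) (pt_ent hM hp.snd hp.snd))))

theorem pt_admB (d c : ℕ) {q : α → ℤ} {s : α → St} {p : α → ℕ × ℕ} (hq : PT A q)
    (hs : PT A s) (hp : PT A p) : PT A (fun a => admB d c (q a) (s a) (p a)) := by
  have h1 := PT.div hp.fst (PT.const d)
  have h2 := PT.div hp.snd (PT.const d)
  exact PT.and (PT.and (PT.not (PT.eqNat h1 h2))
      (PT.not (pt_adjE (pt_vtxMap d hs.snd.snd) h1 h2)))
    (PT.and (pt_alB c hq hs.snd.fst.fst hp) (pt_alB c hq hs.snd.fst.snd hp))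

theorem pt_cands (d c : ℕ) {q : α → ℤ} {s : α → St} (hq : PT A q) (hs : PT A s) :
    PT A (fun a => cands d c (q a) (s a)) := by
  refine PT.filter (f := fun a p => admB d c (q a) (s a) p) ?_
    (pt_admB d c (hq.comp PT.fst') (hs.comp PT.fst') PT.snd')
  exact PT.flatMap (f := fun a x => (s a).1.map fun b => (x, b)) hs.fst
    (PT.map (f := fun (p : α × ℕ) b => (p.2, b)) (hs.fst.comp PT.fst') (PT.fst'.snd.pair PT.snd'))

variable {V : List ℕ → ℤ → St → ℤ}

theorem pt_pick (hV : PT A (fun p : List ℕ × ℤ × St => V p.1 p.2.1 p.2.2)) (d c : ℕ)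
    {q B : α → ℤ} {R : α → List ℕ} {s : α → St}
    (hq : PT A q) (hB : PT A B) (hR : PT A R) (hs : PT A s) :
    PT A (fun a => pick V d c (q a) (B a) (R a) (s a)) := by
  refine PT.optGetD (PT.find? (f := fun a p => (cands d c (q a) (s a)).all fun p' =>
    decide (V (R a) (q a) (join (q a) (B a) (R a) (s a) p) ≤
      V (R a) (q a) (join (q a) (B a) (R a) (s a) p'))) (pt_cands d c hq hs) ?_) (PT.const (0, 0))
  refine PT.all (l := fun x : α × (ℕ × ℕ) => cands d c (q x.1) (s x.1))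
    (f := fun (x : α × (ℕ × ℕ)) p' =>
    decide (V (R x.1) (q x.1) (join (q x.1) (B x.1) (R x.1) (s x.1) x.2) ≤
      V (R x.1) (q x.1) (join (q x.1) (B x.1) (R x.1) (s x.1) p'))) ((pt_cands d c hq hs).comp PT.fst') ?_
  have e : PT A (fun x : (α × (ℕ × ℕ)) × (ℕ × ℕ) => x.1.1) := PT.fst'.fst
  have hj : ∀ {p : (α × (ℕ × ℕ)) × (ℕ × ℕ) → ℕ × ℕ}, PT A p →
      PT A (fun x => V (R x.1.1) (q x.1.1)
        (join (q x.1.1) (B x.1.1) (R x.1.1) (s x.1.1) (p x))) := fun hp =>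
    hV.comp ((hR.comp e).pair ((hq.comp e).pair
      (pt_join (hq.comp e) (hB.comp e) (hR.comp e) (hs.comp e) hp)))
  exact PT.intLe (hj PT.fst'.snd) (hj PT.snd')

theorem pt_gstep (hV : PT A (fun p : List ℕ × ℤ × St => V p.1 p.2.1 p.2.2)) (d c : ℕ)
    {q B : α → ℤ} {R : α → List ℕ} {s : α → St}
    (hq : PT A q) (hB : PT A B) (hR : PT A R) (hs : PT A s) :
    PT A (fun a => gstep V d c (q a) (B a) (R a) (s a)) :=
  pt_join hq hB hR hs (pt_pick hV d c hq hB hR hs)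

end Vale.Agent.P049.TS
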