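import Vale.Agent.P049.TS.Alg.PTAlg
import Vale.Agent.P049.TS.Alg.Fun

/-!
The fixed point quantities are computable in polynomial time.
-/

open Function Vale.Agent.Lib.PolyTime

namespace Vale.Agent.P049.TS

variable {A : Set Word} {α : Type*} [Enc α]

theorem pt_fmul {q x y : α → ℤ} (hq : PT A q) (hx : PT A x) (hy : PT A y) :
    PT A (fun a => fmul (q a) (x a) (y a)) :=
  PT.intDiv (PT.intMul hx hy) hq

theorem pt_mulM {q : α → ℤ} {R : α → List ℕ} {M M' : α → List (List ℤ)} (hq : PT A q)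
    (hR : PT A R) (hM : PT A M) (hM' : PT A M') :
    PT A (fun a => mulM (q a) (R a) (M a) (M' a)) := by
  unfold mulM
  refine PT.map (f := fun a i => (R a).map fun j =>
    ((R a).map fun k => fmul (q a) (ent (M a) i k) (ent (M' a) k j)).sum) hR ?_
  refine PT.map (l := fun x : α × ℕ => R x.1) (f := fun (x : α × ℕ) j =>
    ((R x.1).map fun k => fmul (q x.1) (ent (M x.1) x.2 k) (ent (M' x.1) k j)).sum)
    (hR.comp PT.fst') ?_
  refine PT.intSum (PT.map (l := fun x : (α × ℕ) × ℕ => R x.1.1)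
    (f := fun (x : (α × ℕ) × ℕ) k => fmul (q x.1.1) (ent (M x.1.1) x.1.2 k)
      (ent (M' x.1.1) k x.2)) (hR.comp PT.fst'.fst) ?_)
  exact pt_fmul (hq.comp PT.fst'.fst.fst)
    (pt_ent (hM.comp PT.fst'.fst.fst) PT.fst'.fst.snd PT.snd')
    (pt_ent (hM'.comp PT.fst'.fst.fst) PT.snd' PT.fst'.snd)

theorem pt_trM {R : α → List ℕ} {M : α → List (List ℤ)} (hR : PT A R) (hM : PT A M) :
    PT A (fun a => trM (R a) (M a)) :=
  PT.intSum (PT.map (f := fun a i => ent (M a) i i) hR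
    (pt_ent (hM.comp PT.fst') PT.snd' PT.snd'))

theorem pt_trMul {q : α → ℤ} {R : α → List ℕ} {M M' : α → List (List ℤ)} (hq : PT A q)
    (hR : PT A R) (hM : PT A M) (hM' : PT A M') :
    PT A (fun a => trMul (q a) (R a) (M a) (M' a)) := by
  refine PT.intSum (PT.map (f := fun a i =>
    ((R a).map fun j => fmul (q a) (ent (M a) i j) (ent (M' a) j i)).sum) hR ?_)
  refine PT.intSum (PT.map (l := fun x : α × ℕ => R x.1)
    (f := fun (x : α × ℕ) j => fmul (q x.1) (ent (M x.1) x.2 j) (ent (M' x.1) j x.2))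
    (hR.comp PT.fst') ?_)
  exact pt_fmul (hq.comp PT.fst'.fst) (pt_ent (hM.comp PT.fst'.fst) PT.fst'.snd PT.snd')
    (pt_ent (hM'.comp PT.fst'.fst) PT.snd' PT.fst'.snd)

theorem pt_dgM {q t : α → ℤ} {L : α → List ℕ} {M : α → List (List ℤ)} (hq : PT A q)
    (ht : PT A t) (hL : PT A L) (hM : PT A M) :
    PT A (fun a => dgM (q a) (t a) (L a) (M a)) := by
  refine PT.intSum (PT.map (f := fun a i =>
    fmul (q a) (ent (M a) i i - t a) (ent (M a) i i - t a)) hL ?_)
  have h := PT.intSub (pt_ent (hM.comp (PT.fst' (β := ℕ))) PT.snd' PT.snd') (ht.comp PT.fst')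
  exact pt_fmul (hq.comp PT.fst') h h

theorem pt_vals {q : α → ℤ} {R L : α → List ℕ} {M M2 : α → List (List ℤ)} (hq : PT A q)
    (hR : PT A R) (hL : PT A L) (hM : PT A M) (hM2 : PT A M2) :
    PT A (fun a => vals (q a) (R a) (L a) (M a) (M2 a)) :=
  PT.cons (pt_trM hR hM) (PT.cons (pt_trMul hq hR hM hM) (PT.cons (pt_trMul hq hR hM2 hM)
    (PT.cons (pt_trMul hq hR hM2 hM2) (PT.cons (pt_dgM hq (PT.const 0) hL hM)
      (PT.cons (pt_dgM hq hq hL hM2) (PT.cons (pt_dgM hq (PT.const 0) hL hM2)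
        (PT.const [])))))))

theorem pt_allVals {q : α → ℤ} {R : α → List ℕ} {s : α → St} (hq : PT A q)
    (hR : PT A R) (hs : PT A s) : PT A (fun a => allVals (q a) (R a) (s a)) := by
  have h1 := pt_mulM hq hR hs.snd.fst.fst hs.snd.fst.fst
  have h2 := pt_mulM hq hR hs.snd.fst.snd hs.snd.fst.snd
  exact (pt_vals hq hR hs.fst hs.snd.fst.fst h1).pair
    ((pt_vals hq hR hs.fst hs.snd.fst.snd h2).pair (pt_trMul hq hR h1 h2))

end Vale.Agent.P049.TS
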