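import Vale.Agent.P049.TS.Alg.PTAlg

/-!
The greedy algorithm is computable in polynomial time.
-/

open Function Vale.Agent.Lib.PolyTime

namespace Vale.Agent.P049.TS

variable {A : Set Word} {α : Type*} [Enc α]

/-! ### The square root -/

theorem rootStep_iter (D : ℕ) (j : ℕ) :
    ((rootStep D)^[j] (0, 1)).1 < 2 ^ j ∧ ((rootStep D)^[j] (0, 1)).2 = 4 ^ j := by
  induction j with
  | zero => simp
  | succ j ih =>
    rw [iterate_succ_apply']
    obtain ⟨h1, h2⟩ := ih
    set s := (rootStep D)^[j] (0, 1)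
    unfold rootStep
    refine ⟨?_, by simp only [h2, pow_succ]; ring⟩
    simp only
    rw [pow_succ]
    split_ifs <;> omega

theorem rootL_lt (D L : ℕ) : rootL D L < 2 ^ L := (rootStep_iter D L).1

theorem pt_rootStep (D : ℕ) : PT A (rootStep D) := by
  have h1 : PT A (fun s : ℕ × ℕ => 2 * s.1 + 1) :=
    ((PT.const 2).mul PT.fst').add (PT.const 1)
  have h4 : PT A (fun s : ℕ × ℕ => 4 * s.2) := (PT.const 4).mul PT.snd'
  exact (PT.ite (p := fun s : ℕ × ℕ => (2 * s.1 + 1) * (2 * s.1 + 1) * D ≤ 4 * s.2)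
    (PT.le ((h1.mul h1).mul (PT.const D)) h4) h1 ((PT.const 2).mul PT.fst')).pair h4

theorem pt_rootL (D : ℕ) {L : α → ℕ} (hL : PT A L) (hb : PBd L) :
    PT A (fun a => rootL D (L a)) := by
  refine (PT.iterate (init := fun _ => ((0, 1) : ℕ × ℕ)) (step := rootStep D) hL hb
    (PT.const (0, 1)) (pt_rootStep D) (b := fun a => 4 * L a + 2) (by fun_prop)
    fun a j hj => ?_).fst
  obtain ⟨h1, h2⟩ := rootStep_iter D j
  have e : esize ((rootStep D)^[j] (0, 1)) = 2 * esize ((rootStep D)^[j] (0, 1)).1 +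
      esize ((rootStep D)^[j] (0, 1)).2 + 1 := by
    have := esize_pair ((rootStep D)^[j] (0, 1)).1 ((rootStep D)^[j] (0, 1)).2
    simpa only [Prod.mk.eta] using this
  have e1 := esize_nat_le h1
  have e2 : esize ((rootStep D)^[j] (0, 1)).2 ≤ 2 * j + 1 := by
    apply esize_nat_le
    rw [h2, pow_succ, pow_mul]
    norm_num
  omega

/-! ### Scale -/

theorem pbd_bits {R : α → List ℕ} (hR : PT A R) : PBd (fun a => bits (R a)) := by
  have := PBd.length hR
  unfold bits
  exact (PBd.const 40).mul ((this.add (PBd.const 2)).pow 2)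

theorem pt_bits {R : α → List ℕ} (hR : PT A R) : PT A (fun a => bits (R a)) :=
  (PT.const 40).mul (PT.powConst (hR.length.add (PT.const 2)) 2)

theorem pt_scale {R : α → List ℕ} (hR : PT A R) : PT A (fun a => scale (R a)) :=
  (PT.natCast (PT.pow (PT.const 2) (pt_bits hR) (pbd_bits hR))).congr fun a => by
    unfold scale
    rw [Nat.cast_pow, Nat.cast_ofNat]

theorem pt_bnd {R : α → List ℕ} (hR : PT A R) : PT A (fun a => bnd (R a)) :=
  (PT.intMul (PT.intPow (PT.natCast (hR.length.add (PT.const 2))) 5) (pt_scale hR)).congr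
    fun a => by
      unfold bnd
      rw [Nat.cast_add, Nat.cast_ofNat]

/-! ### Initial state -/

theorem pt_initM (d : ℕ) {r t : α → ℤ} {R : α → List ℕ} (hr : PT A r) (ht : PT A t)
    (hR : PT A R) : PT A (fun a => initM d (r a) (t a) (R a)) := by
  unfold initM
  refine PT.map (f := fun a i => (R a).map fun j => _) hR ?_
  refine PT.map (l := fun x : α × ℕ => R x.1) (f := fun (x : α × ℕ) j => _) (hR.comp PT.fst') ?_
  have hr' : PT A (fun x : (α × ℕ) × ℕ => r x.1.1) := hr.comp PT.fst'.fst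
  have ht' : PT A (fun x : (α × ℕ) × ℕ => t x.1.1) := ht.comp PT.fst'.fst
  have hi : PT A (fun x : (α × ℕ) × ℕ => x.1.2) := PT.fst'.snd
  have hj : PT A (fun x : (α × ℕ) × ℕ => x.2) := PT.snd'
  exact PT.intSub (PT.intMul hr' (PT.intSub
    (PT.ite (p := fun x : (α × ℕ) × ℕ => x.1.2 / d = x.2 / d)
      (PT.eqNat (PT.div hi (PT.const d)) (PT.div hj (PT.const d))) (PT.const 1) (PT.const 0))
    (PT.ite (p := fun x : (α × ℕ) × ℕ => x.1.2 = x.2)
      (PT.eqNat hi hj) (PT.const 1) (PT.const 0)))) ht'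

theorem pt_init (d : ℕ) {r q : α → ℤ} {R : α → List ℕ} (hr : PT A r) (hq : PT A q)
    (hR : PT A R) : PT A (fun a => init d (r a) (q a) (R a)) := by
  have hl := PT.natCast hR.length
  have hd := PT.const (A := A) (α := α) (((d - 1 : ℕ) : ℤ))
  exact hR.pair (((pt_initM d hr (PT.intDiv (PT.intSub (PT.intMul hd hr) hq) hl) hR).pair
    (pt_initM d hr.intNeg (PT.intDiv (PT.intSub (PT.intMul hd hr.intNeg) hq) hl) hR)).pair
    (PT.const []))

/-! ### Size of the state -/

/-- all entries are bounded -/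
def MB (m : ℕ) (B : ℕ) (M : List (List ℤ)) : Prop :=
  M.length ≤ m ∧ ∀ r ∈ M, r.length ≤ m ∧ ∀ x ∈ r, x.natAbs ≤ B

/-- the invariant used for the size of the state -/
def SB (R : List ℕ) (B k : ℕ) (s : St) : Prop :=
  s.1.Sublist R ∧ MB R.length B s.2.1.1 ∧ MB R.length B s.2.1.2 ∧
    (∀ p ∈ s.2.2, esize p ≤ 3 * esize R + 1) ∧ s.2.2.length ≤ k

theorem clip_le {B : ℤ} (x : ℤ) (hB : 0 ≤ B) : (clip B x).natAbs ≤ B.natAbs := by
  unfold clip
  split_ifs <;> omega

theorem updM_MB {q B : ℤ} (hB : 0 ≤ B) (R : List ℕ) (M : List (List ℤ)) (p : ℕ × ℕ) :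
    MB R.length B.natAbs (updM q B R M p) := by
  unfold updM
  refine ⟨by simp, fun r hr => ?_⟩
  obtain ⟨i, -, rfl⟩ := List.mem_map.1 hr
  refine ⟨by simp, fun x hx => ?_⟩
  obtain ⟨j, -, rfl⟩ := List.mem_map.1 hx
  split_ifs with h
  · simp
  · exact clip_le _ hB

theorem pick_mem (V : List ℕ → ℤ → St → ℤ) (d c : ℕ) (q B : ℤ) (R : List ℕ) (s : St) :
    pick V d c q B R s ∈ cands d c q s ∨ pick V d c q B R s = (0, 0) := by
  unfold pick
  rcases h : (cands d c q s).find? fun p => (cands d c q s).all fun p' =>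
    decide (V R q (join q B R s p) ≤ V R q (join q B R s p')) with _ | p
  · right; rfl
  · left; exact List.mem_of_find?_eq_some h

theorem mem_cands {d c : ℕ} {q : ℤ} {s : St} {p : ℕ × ℕ} :
    p ∈ cands d c q s ↔ (p.1 ∈ s.1 ∧ p.2 ∈ s.1) ∧ admB d c q s p = true := by
  unfold cands
  rw [List.mem_filter, List.mem_flatMap]
  constructor
  · rintro ⟨⟨a, ha, h⟩, h'⟩
    obtain ⟨b, hb, rfl⟩ := List.mem_map.1 h
    exact ⟨⟨ha, hb⟩, h'⟩
  · rintro ⟨⟨ha, hb⟩, h'⟩
    exact ⟨⟨p.1, ha, List.mem_map.2 ⟨p.2, hb, rfl⟩⟩, h'⟩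

theorem gstep_SB' (V : List ℕ → ℤ → St → ℤ) (d c : ℕ) {q B : ℤ} (hB : 0 ≤ B) {R : List ℕ}
    {B' k : ℕ} {s : St} (h : SB R B' k s) :
    ((gstep V d c q B R s).1.Sublist R ∧ (∀ p ∈ (gstep V d c q B R s).2.2,
      esize p ≤ 3 * esize R + 1) ∧ (gstep V d c q B R s).2.2.length ≤ k + 1) ∧
    MB R.length B.natAbs (gstep V d c q B R s).2.1.1 ∧
    MB R.length B.natAbs (gstep V d c q B R s).2.1.2 := by
  obtain ⟨h1, h2, h3, h4, h5⟩ := h
  refine ⟨⟨(List.filter_sublist).trans h1, fun p hp => ?_, ?_⟩, updM_MB hB _ _ _,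
    updM_MB hB _ _ _⟩
  · rcases List.mem_cons.1 (show p ∈ pick V d c q B R s :: s.2.2 from hp) with rfl | hp
    · have e : esize (pick V d c q B R s) = 2 * esize (pick V d c q B R s).1 +
          esize (pick V d c q B R s).2 + 1 := by
        have := esize_pair (pick V d c q B R s).1 (pick V d c q B R s).2
        simpa only [Prod.mk.eta] using this
      rcases pick_mem V d c q B R s with h | h
      · have hm := (mem_cands.1 h).1
        have e1 := esize_le_of_mem (h1.subset hm.1)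
        have e2 := esize_le_of_mem (h1.subset hm.2)
        omega
      · rw [h, esize_pair]
        simp [esize_nat]
    · exact h4 p hp
  · simp only [gstep, join, List.length_cons]
    omega

theorem init_SB (d : ℕ) {r q : ℤ} {B : ℕ} {R : List ℕ} (hr : (d + 1) * (r.natAbs + q.natAbs) ≤ B) :
    SB R B 0 (init d r q R) := by
  have key : ∀ (r' : ℤ), r'.natAbs = r.natAbs → ∀ i j : ℕ,
      (r' * ((if i / d = j / d then 1 else 0) - (if i = j then 1 else 0)) -
      ((d - 1 : ℕ) * r' - q) / R.length).natAbs ≤ B := by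
    intro r' hr' i j
    have h1 : (((d - 1 : ℕ) * r' - q) / R.length).natAbs ≤ ((d - 1 : ℕ) * r' - q).natAbs :=
      Int.natAbs_ediv_le_natAbs _ _
    have h2 : (r' * ((if i / d = j / d then 1 else 0) - (if i = j then 1 else 0))).natAbs ≤
        r.natAbs := by
      split_ifs <;> simp [hr']
    have h3 : (((d - 1 : ℕ) : ℤ) * r' - q).natAbs ≤ (d - 1) * r.natAbs + q.natAbs := by
      refine (Int.natAbs_sub_le _ _).trans ?_
      rw [Int.natAbs_mul, Int.natAbs_natCast, hr']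
    have h4 : (d - 1) * r.natAbs ≤ d * r.natAbs := Nat.mul_le_mul_right _ (Nat.sub_le _ _)
    have h5 : (d + 1) * (r.natAbs + q.natAbs) = d * r.natAbs + d * q.natAbs + r.natAbs +
      q.natAbs := by ring
    have h6 : 0 ≤ d * q.natAbs := Nat.zero_le _
    omega
  have key2 : ∀ (r' : ℤ), r'.natAbs = r.natAbs →
      MB R.length B (initM d r' (((d - 1 : ℕ) * r' - q) / R.length) R) := by
    intro r' hr'
    refine ⟨by simp [initM], ?_⟩
    intro l hl
    obtain ⟨i, -, rfl⟩ := List.mem_map.1 hl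
    refine ⟨by simp, fun x hx => ?_⟩
    obtain ⟨j, -, rfl⟩ := List.mem_map.1 hx
    exact key r' hr' i j
  exact ⟨List.Sublist.refl _, key2 r rfl, key2 (-r) (Int.natAbs_neg _), by simp [init],
    by simp [init]⟩

theorem esize_SB {R : List ℕ} {B k l : ℕ} {s : St} (h : SB R B k s) (hB : B < 2 ^ l) :
    esize s ≤ 2 * esize R + (4 * (2 * (R.length * (2 * (R.length * (2 * (l + 3) + 1)) + 1)) +
      R.length * (2 * (R.length * (2 * (l + 3) + 1)) + 1) + 1) +
      k * (2 * (3 * esize R + 1) + 1)) + 3 := by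
  obtain ⟨h1, h2, h3, h4, h5⟩ := h
  have e0 := esize_le_of_sublist h1
  have em : ∀ M : List (List ℤ), MB R.length B M →
      esize M ≤ R.length * (2 * (R.length * (2 * (l + 3) + 1)) + 1) := by
    intro M hM
    refine (esize_list_le (B := R.length * (2 * (l + 3) + 1)) fun r hr => ?_).trans
      (Nat.mul_le_mul_right _ hM.1)
    refine (esize_list_le (B := l + 3) fun x hx => ?_).trans
      (Nat.mul_le_mul_right _ (hM.2 r hr).1)
    exact esize_int_le (((hM.2 r hr).2 x hx).trans_lt hB)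
  have e1 := em _ h2
  have e2 := em _ h3
  have e3 : esize s.2.2 ≤ k * (2 * (3 * esize R + 1) + 1) :=
    (esize_list_le h4).trans (Nat.mul_le_mul_right _ h5)
  have e4 : esize s = 2 * esize s.1 + esize s.2 + 1 := by
    have := esize_pair s.1 s.2
    simpa only [Prod.mk.eta] using this
  have e5 : esize s.2 = 2 * esize s.2.1 + esize s.2.2 + 1 := by
    have := esize_pair s.2.1 s.2.2
    simpa only [Prod.mk.eta] using this
  have e6 : esize s.2.1 = 2 * esize s.2.1.1 + esize s.2.1.2 + 1 := by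
    have := esize_pair s.2.1.1 s.2.1.2
    simpa only [Prod.mk.eta] using this
  rw [e4, e5, e6]
  generalize R.length * (2 * (R.length * (2 * (l + 3) + 1)) + 1) = Q at *
  generalize k * (2 * (3 * esize R + 1) + 1) = Q' at *
  omega

variable {V : List ℕ → ℤ → St → ℤ}

theorem bnd_natAbs (R : List ℕ) : (bnd R).natAbs = (R.length + 2) ^ 5 * 2 ^ bits R := by
  unfold bnd scale
  have : ((R.length : ℤ) + 2) ^ 5 * 2 ^ bits R = (((R.length + 2) ^ 5 * 2 ^ bits R : ℕ) : ℤ) := by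
    push_cast; ring
  rw [this, Int.natAbs_natCast]

theorem bnd_nonneg (R : List ℕ) : 0 ≤ bnd R := by
  unfold bnd scale; positivity

/-- bound for the entries of all matrices, including the initial ones -/
def bndN (d : ℕ) (R : List ℕ) : ℕ := (d + 1) * 2 * ((R.length + 2) ^ 5 * 2 ^ bits R)

theorem SB.mono {R : List ℕ} {B B' k : ℕ} {s : St} (h : SB R B k s) (hB : B ≤ B') :
    SB R B' k s :=
  ⟨h.1, ⟨h.2.1.1, fun r hr => ⟨(h.2.1.2 r hr).1, fun x hx => ((h.2.1.2 r hr).2 x hx).trans hB⟩⟩,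
    ⟨h.2.2.1.1, fun r hr => ⟨(h.2.2.1.2 r hr).1, fun x hx => ((h.2.2.1.2 r hr).2 x hx).trans hB⟩⟩,
    h.2.2.2⟩

theorem run_succ (V : List ℕ → ℤ → St → ℤ) (d c : ℕ) (R : List ℕ) (k : ℕ) :
    run V d c R (k + 1) = gstep V d c (scale R) (bnd R) R (run V d c R k) := by
  unfold run
  rw [iterate_succ_apply']

theorem run_SB (V : List ℕ → ℤ → St → ℤ) (d c : ℕ) (R : List ℕ) (k : ℕ) :
    SB R (bndN d R) k (run V d c R k) := by
  induction k with
  | zero =>
    refine init_SB d ?_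
    have h1 := rootL_lt (d - 1) (bits R)
    have h2 : (scale R).natAbs = 2 ^ bits R := by
      unfold scale
      rw [Int.natAbs_pow]; rfl
    rw [h2, Int.natAbs_natCast]
    unfold bndN
    have h3 : 1 ≤ (R.length + 2) ^ 5 := Nat.one_le_pow _ _ (by omega)
    have h4 : 2 ^ bits R ≤ (R.length + 2) ^ 5 * 2 ^ bits R := Nat.le_mul_of_pos_left _ h3
    rw [mul_assoc]
    exact Nat.mul_le_mul_left _ (by omega)
  | succ k ih =>
    rw [run_succ]
    have h3 : (bnd R).natAbs ≤ bndN d R := by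
      rw [bnd_natAbs]
      unfold bndN
      exact Nat.le_mul_of_pos_left _ (by positivity)
    obtain ⟨h1, h2⟩ := gstep_SB' V d c (bnd_nonneg R) ih
    exact ⟨h1.1, ⟨h2.1.1, fun r hr => ⟨(h2.1.2 r hr).1, fun x hx =>
      ((h2.1.2 r hr).2 x hx).trans h3⟩⟩, ⟨h2.2.1, fun r hr => ⟨(h2.2.2 r hr).1, fun x hx =>
      ((h2.2.2 r hr).2 x hx).trans h3⟩⟩, h1.2⟩

theorem bndN_lt (d : ℕ) (R : List ℕ) :
    bndN d R < 2 ^ (2 * (d + 1) + 5 * (R.length + 2) + bits R) := by
  unfold bndN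
  generalize bits R = b
  generalize R.length + 2 = l
  have h1 : (d + 1) * 2 < 2 ^ (2 * (d + 1)) := by
    have := Nat.lt_two_pow_self (n := 2 * (d + 1))
    omega
  have h2 : l ^ 5 ≤ 2 ^ (5 * l) := by
    rw [mul_comm 5, pow_mul]
    exact Nat.pow_le_pow_left Nat.lt_two_pow_self.le _
  have h3 : l ^ 5 * 2 ^ b ≤ 2 ^ (5 * l) * 2 ^ b := Nat.mul_le_mul_right _ h2
  calc (d + 1) * 2 * (l ^ 5 * 2 ^ b) ≤ (d + 1) * 2 * (2 ^ (5 * l) * 2 ^ b) :=
        Nat.mul_le_mul_left _ h3
    _ < 2 ^ (2 * (d + 1)) * (2 ^ (5 * l) * 2 ^ b) := Nat.mul_lt_mul_of_pos_right h1 (by positivity)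
    _ = 2 ^ (2 * (d + 1) + 5 * l + b) := by rw [pow_add, pow_add]; ring

theorem pt_run (hV : PT A (fun p : List ℕ × ℤ × St => V p.1 p.2.1 p.2.2)) (d c : ℕ)
    {R : α → List ℕ} {k : α → ℕ} (hR : PT A R) (hk : PT A k) (hkb : PBd k) :
    PT A (fun a => run V d c (R a) (k a)) := by
  have hR' : PT A (fun p : α × St => R p.1) := hR.comp PT.fst'
  refine PT.iterate' (step := fun a s => gstep V d c (scale (R a)) (bnd (R a)) (R a) s)
    hk hkb (pt_init d (PT.natCast (pt_rootL (d - 1) (pt_bits hR) (pbd_bits hR))) (pt_scale hR) hR)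
    (pt_gstep hV d c (pt_scale hR') (pt_bnd hR') hR' PT.snd')
    (b := fun a => 2 * esize (R a) + (4 * (2 * ((R a).length * (2 * ((R a).length *
      (2 * ((2 * (d + 1) + 5 * ((R a).length + 2) + bits (R a)) + 3) + 1)) + 1)) +
      (R a).length * (2 * ((R a).length * (2 * ((2 * (d + 1) + 5 * ((R a).length + 2) +
        bits (R a)) + 3) + 1)) + 1)
        + 1) + k a * (2 * (3 * esize (R a) + 1) + 1)) + 3) ?_ fun a j hj => ?_
  · have h1 := PBd.length hR
    have h2 := pbd_bits hR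
    have h3 := hR.pbd
    fun_prop
  · have h1 := run_SB V d c (R a) j
    have h2 := esize_SB (l := 2 * (d + 1) + 5 * ((R a).length + 2) + bits (R a)) h1
      (bndN_lt d (R a))
    refine h2.trans ?_
    have : j * (2 * (3 * esize (R a) + 1) + 1) ≤ k a * (2 * (3 * esize (R a) + 1) + 1) :=
      Nat.mul_le_mul_right _ hj
    omega

end Vale.Agent.P049.TS
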