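import Vale.Agent.P049.TS.Alg.VF

/-!
More fixed point operations: positive parts, quotients.
-/

open Function Vale.Agent.Lib.PolyTime

namespace Vale.Agent.P049.TS

/-- positive part -/
def posI (x : ℤ) : ℤ := max x 0

/-- quotient of two fixed point numbers -/
def fdiv (q x y : ℤ) : ℤ := x * q / y

/-- `c (max x 0)^2 / D` -/
def posSqI (q : ℤ) (c : ℕ) (x : ℤ) (D : ℕ) : ℤ := ratI c (sqI q (posI x)) D

section

variable {A : Set Word} {α : Type*} [Enc α] {q : α → ℤ}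

theorem pt_posI {x : α → ℤ} (hx : PT A x) : PT A (fun a => posI (x a)) :=
  (PT.natCast (PT.posPart hx)).congr fun a => by rw [Int.ofNat_toNat]; rfl

theorem pt_fdiv {x y : α → ℤ} (hq : PT A q) (hx : PT A x) (hy : PT A y) :
    PT A (fun a => fdiv (q a) (x a) (y a)) := PT.intDiv (PT.intMul hx hq) hy

theorem pt_posSqI {c D : α → ℕ} {x : α → ℤ} (hq : PT A q) (hc : PT A c) (hx : PT A x)
    (hD : PT A D) : PT A (fun a => posSqI (q a) (c a) (x a) (D a)) :=
  pt_ratI hc (pt_sqI hq (pt_posI hx)) hD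

end

section

variable {n d : ℕ} {q r : ℤ} {e P : ℝ} {k : ℕ}

theorem NB.sm' (h : NB n d q r e P) {l : ℕ} (hl : l ≤ 200) : e * P ^ l ≤ 1 / 2 :=
  (mul_le_mul_of_nonneg_left (h.np.pow_le hl) h.np.he).trans h.sm

theorem NP.num_le (h : NP q e P) {c l : ℕ} (hc : c ≤ 4 ^ l) : (c : ℝ) ≤ P ^ l := by
  have h1 : (c : ℝ) ≤ 4 ^ l := by exact_mod_cast hc
  exact h1.trans (pow_le_pow_left₀ (by norm_num) h.hP l)

theorem Nice.div (h : NP q e P) {k k' : ℕ} {x y : ℤ} {X Y : ℝ} (hs : e * P ^ k' ≤ 1 / 2)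
    (hY : 1 ≤ Y) (hx : Nice q e P k x X) (hy : Nice q e P k' y Y) :
    Nice q e P (k + k' + 2) (fdiv q x y) (X / Y) := by
  have hq : (0 : ℝ) < q := by exact_mod_cast h.hq
  have hY0 : 0 < Y := by linarith
  have hyy : 1 / 2 * Y ≤ (y : ℝ) / q := by
    have := (abs_le.1 hy.err).1
    nlinarith
  have hyy0 : 0 < (y : ℝ) / q := lt_of_lt_of_le (by positivity) hyy
  have hy0 : (0 : ℝ) < y := by
    rcases lt_or_ge (0 : ℝ) (y : ℝ) with h1 | h1
    · exact h1
    · exact absurd hyy0 (not_lt.2 (div_nonpos_of_nonpos_of_nonneg h1 hq.le))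
  have hy0' : 0 < y := by exact_mod_cast hy0
  have hk := h.pow_pos k
  have hk' := h.pow_pos k'
  have hkk : P ^ (k + k') = P ^ k * P ^ k' := pow_add _ _ _
  have hP1 := h.hP1
  have hk'1 : 1 ≤ P ^ k' := one_le_pow₀ hP1
  have hk1 : 1 ≤ P ^ k := one_le_pow₀ hP1
  have hle : P ^ k ≤ P ^ (k + k') := h.pow_le (Nat.le_add_right _ _)
  have h16 : 16 * P ^ (k + k') ≤ P ^ (k + k' + 2) := by
    have h1 := h.four_mul_le (k + k')
    have h2 := h.four_mul_le (k + k' + 1)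
    linarith
  have hsize : |X / Y| ≤ P ^ k := by
    rw [abs_div, abs_of_pos hY0]
    exact (div_le_self (abs_nonneg _) hY).trans hx.size
  refine ⟨hsize.trans (h.pow_le (by omega)), ?_⟩
  have e1 : ((x * q : ℤ) : ℝ) / y / q = ((x : ℝ) / q) / ((y : ℝ) / q) := by
    push_cast; field_simp
  have h1 : |(fdiv q x y : ℝ) / q - ((x * q : ℤ) : ℝ) / y / q| ≤ e :=
    Nice.ediv_err h (x * q) hy0'
  rw [e1] at h1
  have h2 : |((x : ℝ) / q) / ((y : ℝ) / q) - X / Y| ≤ 2 * (e * P ^ k) +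
      2 * (e * P ^ (k + k')) := by
    set a := (x : ℝ) / q with ha
    set b := (y : ℝ) / q with hb
    have e2 : a / b - X / Y = (a - X) / b - X / Y * (b - Y) / b := by
      field_simp
      ring
    rw [e2]
    refine (abs_sub _ _).trans (add_le_add ?_ ?_)
    · rw [abs_div, abs_of_pos hyy0, div_le_iff₀ hyy0]
      have := hx.err
      have h3 : 0 ≤ e * P ^ k := mul_nonneg h.he hk.le
      nlinarith
    · rw [abs_div, abs_mul, abs_of_pos hyy0, div_le_iff₀ hyy0]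
      have h3 : |X / Y| * |b - Y| ≤ P ^ k * (e * P ^ k') :=
        mul_le_mul hsize hy.err (abs_nonneg _) hk.le
      have h4 : P ^ k * (e * P ^ k') = e * P ^ (k + k') := by rw [hkk]; ring
      rw [h4] at h3
      have h5 : 0 ≤ e * P ^ (k + k') := mul_nonneg h.he (h.pow_pos _).le
      nlinarith
  have h3 := abs_add_le ((fdiv q x y : ℝ) / q - ((x : ℝ) / q) / ((y : ℝ) / q))
    (((x : ℝ) / q) / ((y : ℝ) / q) - X / Y)
  rw [sub_add_sub_cancel] at h3
  have h4 : e * P ^ k ≤ e * P ^ (k + k') := mul_le_mul_of_nonneg_left hle h.he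
  have h5 : e ≤ e * P ^ (k + k') := by
    have : 1 ≤ P ^ (k + k') := one_le_pow₀ hP1
    nlinarith [h.he]
  have h6 : e * (16 * P ^ (k + k')) ≤ e * P ^ (k + k' + 2) := mul_le_mul_of_nonneg_left h16 h.he
  have h7 : 0 ≤ e * P ^ (k + k') := mul_nonneg h.he (h.pow_pos _).le
  linarith

theorem nice_posSqI (h : NP q e P) {l c D j : ℕ} {x : ℤ} {X C Y : ℝ} (hc : (c : ℝ) ≤ P ^ j)
    (hD : 0 < D) (hC : (c : ℝ) = C) (hY : (D : ℝ) = Y) (hx : Nice q e P l x X) :
    Nice q e P (2 * l + 1 + j + 1) (posSqI q c x D) (max X 0 ^ 2 * C / Y) :=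
  nice_ratI h hc hD hC hY (nice_sqI h (hx.pos h))

end

end Vale.Agent.P049.TS
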