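import Vale.Agent.P049.TS.Shell.Join

/-!
The states of the stub process and the runs of the process.
-/

namespace Vale.Agent.P049.TS

/-- A state of the stub process: free stubs, the two matrices, the pairs joined so far. -/
structure RSt (ι : Type*) where
  F : Finset ι
  Zp : Matrix ι ι ℝ
  Zm : Matrix ι ι ℝ
  E : List (ι × ι)

variable {ι V : Type*} [Fintype ι] [DecidableEq ι]

/-- joining two stubs -/
noncomputable def RSt.join (s : RSt ι) (a b : ι) : RSt ι :=
  ⟨(s.F.erase a).erase b, upd s.Zp a b, upd s.Zm a b, (a, b) :: s.E⟩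

/-- The stubs `a`, `b` are free, their vertices are different and not adjacent, and both
denominators are at least `c`. -/
structure RSt.Adm (vert : ι → V) (c : ℝ) (s : RSt ι) (a b : ι) : Prop where
  memA : a ∈ s.F
  memB : b ∈ s.F
  vne : vert a ≠ vert b
  nadj : ∀ e ∈ s.E, s(vert e.1, vert e.2) ≠ s(vert a, vert b)
  alp : c ≤ al s.Zp a b
  alm : c ≤ al s.Zm a b

/-- `Reach vert s₀ k s`: the state `s` is reached from `s₀` after `k` joins with positive
denominators. -/
inductive Reach (vert : ι → V) (s₀ : RSt ι) : ℕ → RSt ι → Prop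
  | zero : Reach vert s₀ 0 s₀
  | succ {k : ℕ} {s : RSt ι} {a b : ι} {c : ℝ} : Reach vert s₀ k s → 0 < c → s.Adm vert c a b →
      Reach vert s₀ (k + 1) (s.join a b)

/-- The start matrix, `ν = ε / √(d-1)`; the sum of each row is `1`. -/
noncomputable def Z₀ [DecidableEq V] (vert : ι → V) (d : ℕ) (ν : ℝ) : Matrix ι ι ℝ :=
  Matrix.of fun i j => ν * ((if vert i = vert j then 1 else 0) - (if i = j then 1 else 0)) -
    (((d : ℝ) - 1) * ν - 1) / Fintype.card ι

/-- the start of the process -/
noncomputable def start [DecidableEq V] (vert : ι → V) (d : ℕ) : RSt ι :=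
  ⟨Finset.univ, Z₀ vert d (√((d : ℝ) - 1))⁻¹, Z₀ vert d (-(√((d : ℝ) - 1))⁻¹), []⟩

theorem RSt.Adm.ne {vert : ι → V} {c : ℝ} {s : RSt ι} {a b : ι} (h : s.Adm vert c a b) :
    a ≠ b := fun e => h.vne (congrArg vert e)

theorem RSt.Adm.mono {vert : ι → V} {c c' : ℝ} {s : RSt ι} {a b : ι} (h : s.Adm vert c a b)
    (hc : c' ≤ c) : s.Adm vert c' a b :=
  ⟨h.memA, h.memB, h.vne, h.nadj, hc.trans h.alp, hc.trans h.alm⟩

theorem Z₀_isSymm [DecidableEq V] (vert : ι → V) (d : ℕ) (ν : ℝ) : (Z₀ vert d ν).IsSymm := by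
  ext i j
  simp only [Z₀, Matrix.transpose_apply, Matrix.of_apply]
  congr 3
  · exact if_congr eq_comm rfl rfl
  · exact if_congr eq_comm rfl rfl

/-- The matrices of a reachable state are symmetric and zero outside the free stubs. -/
theorem Reach.base [DecidableEq V] {vert : ι → V} {d : ℕ} {k : ℕ} {s : RSt ι}
    (h : Reach vert (start vert d) k s) :
    s.Zp.IsSymm ∧ s.Zm.IsSymm ∧ (∀ i j, i ∉ s.F ∨ j ∉ s.F → s.Zp i j = 0 ∧ s.Zm i j = 0) ∧
      s.F.card + 2 * k = Fintype.card ι := by
  induction h with
  | zero =>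
    exact ⟨Z₀_isSymm _ _ _, Z₀_isSymm _ _ _, fun i j hij => by simp [start] at hij,
      by simp [start]⟩
  | @succ k s a b c h hc hadm ih =>
    obtain ⟨h1, h2, h3, h4⟩ := ih
    have hab := hadm.ne
    refine ⟨upd_isSymm h1, upd_isSymm h2, fun i j hij => ?_, ?_⟩
    · simp only [RSt.join, Finset.mem_erase, upd, Matrix.of_apply]
      simp only [RSt.join, Finset.mem_erase, not_and_or, not_not] at hij
      by_cases h5 : i = a ∨ i = b ∨ j = a ∨ j = b
      · simp [h5]
      · rw [if_neg h5, if_neg h5]
        push Not at h5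
        have h6 : i ∉ s.F ∨ j ∉ s.F := by
          rcases hij with h | h
          · rcases h with h | h | h
            · exact absurd h h5.2.1
            · exact absurd h h5.1
            · exact Or.inl h
          · rcases h with h | h | h
            · exact absurd h h5.2.2.2
            · exact absurd h h5.2.2.1
            · exact Or.inr h
        have h7 : ∀ Z : Matrix ι ι ℝ, (∀ i j, i ∉ s.F ∨ j ∉ s.F → Z i j = 0) →
            Z i j + (al Z a b)⁻¹ * (Z b b * (Z i a * Z a j) + (1 - Z a b) *
              (Z i a * Z b j + Z i b * Z a j) + Z a a * (Z i b * Z b j)) = 0 := by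
          intro Z hZ
          rcases h6 with h | h
          · rw [hZ i j (Or.inl h), hZ i a (Or.inl h), hZ i b (Or.inl h)]; ring
          · rw [hZ i j (Or.inr h), hZ a j (Or.inr h), hZ b j (Or.inr h)]; ring
        exact ⟨h7 _ fun i j h => (h3 i j h).1, h7 _ fun i j h => (h3 i j h).2⟩
    · simp only [RSt.join]
      rw [Finset.card_erase_of_mem (Finset.mem_erase.2 ⟨hab.symm, hadm.memB⟩),
        Finset.card_erase_of_mem hadm.memA]
      have : 2 ≤ s.F.card := by
        have h5 := Finset.card_le_card (show ({a, b} : Finset ι) ⊆ s.F by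
          intro x hx
          rw [Finset.mem_insert, Finset.mem_singleton] at hx
          rcases hx with rfl | rfl
          · exact hadm.memA
          · exact hadm.memB)
        rwa [Finset.card_pair hab] at h5
      omega

end Vale.Agent.P049.TS
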