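import Vale.Agent.P049.TS.Alg.Round
import Vale.Agent.P049.TS.Alg.RSt
import Vale.Agent.P049.TS.Alg.CompCorrect

/-!
The relation between the states of the algorithm and the real states.
-/

namespace Vale.Agent.P049.TS

/-- the integer matrix `M` is close to `q` times the real matrix `Z` -/
def Close {m : ℕ} (q : ℤ) (e : ℝ) (M : List (List ℤ)) (Z : Matrix (Fin m) (Fin m) ℝ) : Prop :=
  ∀ i j : Fin m, |(ent M i j : ℝ) / q - Z i j| ≤ e

theorem Close.mono {m : ℕ} {q : ℤ} {e e' : ℝ} {M : List (List ℤ)}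
    {Z : Matrix (Fin m) (Fin m) ℝ} (h : Close q e M Z) (he : e ≤ e') : Close q e' M Z :=
  fun i j => (h i j).trans he

theorem getD_map_range {β : Type*} {m : ℕ} (f : ℕ → β) (i : ℕ) (hi : i < m) (x : β) :
    ((List.range m).map f).getD i x = f i := by
  rw [List.getD_eq_getElem _ _ (by simpa using hi), List.getElem_map, List.getElem_range]

theorem ent_map_range {m : ℕ} (f : ℕ → ℕ → ℤ) {i j : ℕ} (hi : i < m) (hj : j < m) :
    ent ((List.range m).map fun i => (List.range m).map fun j => f i j) i j = f i j := by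
  unfold ent
  rw [getD_map_range _ _ hi, getD_map_range _ _ hj]

theorem al_eq_denU {m : ℕ} (Z : Matrix (Fin m) (Fin m) ℝ) (a b : Fin m) :
    al Z a b = denU (Z a a) (Z a b) (Z b b) := rfl

section

variable {m : ℕ} {q : ℤ} {e R : ℝ} {M : List (List ℤ)} {Z : Matrix (Fin m) (Fin m) ℝ}

theorem Close.bound (hM : Close q e M Z) (hZ : ∀ i j, |Z i j| + e ≤ R) (i j : Fin m) :
    |(ent M i j : ℝ) / q| ≤ R ∧ |Z i j| ≤ R := by
  have h1 := hM i j
  have h2 := hZ i j
  have he : 0 ≤ e := (abs_nonneg _).trans h1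
  refine ⟨?_, by linarith⟩
  have h3 : (ent M i j : ℝ) / q = Z i j + ((ent M i j : ℝ) / q - Z i j) := by ring
  rw [h3]
  exact (abs_add_le _ _).trans (by linarith)

theorem denU_close (hM : Close q e M Z) (hR : 1 ≤ R) (hZ : ∀ i j, |Z i j| + e ≤ R)
    (a b : Fin m) :
    |denU ((ent M a a : ℝ) / q) ((ent M a b : ℝ) / q) ((ent M b b : ℝ) / q) - al Z a b| ≤
      6 * e * R :=
  denU_sub_le hR (hM.bound hZ _ _).1 (hM.bound hZ _ _).1 (hM.bound hZ _ _).2
    (hM.bound hZ _ _).2 (hM _ _) (hM _ _) (hM _ _)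

theorem alB_iff {c : ℕ} (hc : 0 < c) (hq : 0 < q) (M : List (List ℤ)) (a b : ℕ) :
    alB c q M (a, b) = true ↔
      (1 : ℝ) / c ≤ denU ((ent M a a : ℝ) / q) ((ent M a b : ℝ) / q) ((ent M b b : ℝ) / q) := by
  have hq' : (0 : ℝ) < q := by exact_mod_cast hq
  have hc' : (0 : ℝ) < c := by exact_mod_cast hc
  unfold alB
  rw [decide_eq_true_eq]
  have hden : denU ((ent M a a : ℝ) / q) ((ent M a b : ℝ) / q) ((ent M b b : ℝ) / q) =
      (((q : ℝ) - ent M a b) * (q - ent M a b) - ent M a a * ent M b b) / q ^ 2 := by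
    unfold denU; field_simp
  rw [hden, div_le_div_iff₀ hc' (by positivity), one_mul]
  have h : ((q * q : ℤ) : ℝ) ≤ ((c * ((q - ent M a b) * (q - ent M a b) -
      ent M a a * ent M b b) : ℤ) : ℝ) ↔ q * q ≤ c * ((q - ent M a b) * (q - ent M a b) -
      ent M a a * ent M b b) := Int.cast_le
  rw [← h]
  push_cast
  rw [sq, mul_comm ((((q : ℝ) - ent M a b) * (q - ent M a b) - ent M a a * ent M b b)) (c : ℝ)]

/-- The rounded update of a matrix is close to the update. -/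
theorem updM_close {B : ℤ} {g : ℝ} (hq : 0 < q) (hM : Close q e M Z) (hs : Z.IsSymm)
    (hR : 1 ≤ R) (hZ : ∀ i j, |Z i j| + e ≤ R) (hg : 0 < g) (hg1 : g ≤ 1) {a b : Fin m}
    (hal : g ≤ al Z a b)
    (hD : g ≤ denU ((ent M a a : ℝ) / q) ((ent M a b : ℝ) / q) ((ent M b b : ℝ) / q))
    (hB : (q : ℝ) * (R + 6 * R ^ 3 / g) + 1 ≤ B) :
    Close q (e * (1 + 52 * R ^ 4 / g ^ 2) + 1 / q)
      (updM q B (List.range m) M (a.val, b.val)) (upd Z a b) := by
  intro i j
  have hq' : (0 : ℝ) < q := by exact_mod_cast hq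
  have he : 0 ≤ e := (abs_nonneg _).trans (hM i j)
  have hR0 : 0 ≤ R := by linarith
  unfold updM
  rw [ent_map_range _ i.2 j.2]
  have hif : (i = a ∨ i = b ∨ j = a ∨ j = b) ↔ (i.val = a.val ∨ i.val = b.val ∨
      j.val = a.val ∨ j.val = b.val) := by
    simp only [Fin.ext_iff]
  by_cases hc : i = a ∨ i = b ∨ j = a ∨ j = b
  · rw [if_pos (hif.1 hc)]
    unfold upd
    rw [Matrix.of_apply, if_pos hc]
    simp only [Int.cast_zero, zero_div, sub_zero, abs_zero]
    positivity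
  · rw [if_neg (fun h => hc (hif.2 h))]
    have hb := hM.bound hZ
    have hupd : upd Z a b i j = Z i j + numU (Z a a) (Z a b) (Z b b) (Z a i) (Z a j) (Z b i)
        (Z b j) / denU (Z a a) (Z a b) (Z b b) := by
      unfold upd numU
      rw [Matrix.of_apply, if_neg hc, al_eq_denU, div_eq_inv_mul, hs.apply a i, hs.apply b i]
    have hD0 : 0 < denU ((ent M a a : ℝ) / q) ((ent M a b : ℝ) / q) ((ent M b b : ℝ) / q) :=
      hg.trans_le hD
    have hDi : 0 < (q - ent M a b) * (q - ent M a b) - ent M a a * ent M b b := by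
      have hden : denU ((ent M a a : ℝ) / q) ((ent M a b : ℝ) / q) ((ent M b b : ℝ) / q) =
          (((q : ℝ) - ent M a b) * (q - ent M a b) - ent M a a * ent M b b) / q ^ 2 := by
        unfold denU; field_simp
      rw [hden] at hD0
      have h1 : 0 < ((q : ℝ) - ent M a b) * (q - ent M a b) - ent M a a * ent M b b := by
        have h2 := mul_pos hD0 (show (0 : ℝ) < q ^ 2 by positivity)
        rwa [div_mul_cancel₀ _ (by positivity)] at h2
      exact_mod_cast h1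
    set F : ℝ := (ent M i j : ℝ) / q + numU ((ent M a a : ℝ) / q) ((ent M a b : ℝ) / q)
      ((ent M b b : ℝ) / q) ((ent M a i : ℝ) / q) ((ent M a j : ℝ) / q) ((ent M b i : ℝ) / q)
      ((ent M b j : ℝ) / q) / denU ((ent M a a : ℝ) / q) ((ent M a b : ℝ) / q)
      ((ent M b b : ℝ) / q) with hF
    have hFb : |F| ≤ R + 6 * R ^ 3 / g := by
      refine (abs_add_le _ _).trans (add_le_add (hb i j).1 ?_)
      rw [abs_div, abs_of_pos hD0]
      have := numU_le hR (hb a a).1 (hb a b).1 (hb b b).1 (hb a i).1 (hb a j).1 (hb b i).1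
        (hb b j).1
      gcongr
    have h1 : |(updE q B (ent M a a) (ent M a b) (ent M b b) (M.getD a.val []) (M.getD b.val [])
        (ent M i j) i j : ℝ) - q * F| ≤ 1 := by
      refine updE_close hq hDi ?_
      have h2 : |(q : ℝ) * F| + 1 ≤ B := by
        rw [abs_mul, abs_of_pos hq']
        have := mul_le_mul_of_nonneg_left hFb hq'.le
        linarith
      exact h2
    have h2 : |F - upd Z a b i j| ≤ e * (1 + 52 * R ^ 4 / g ^ 2) := by
      rw [hupd]
      exact updU_sub_le hR hg hg1 (hb a a).1 (hb a b).1 (hb b b).1 (hb a i).1 (hb a j).1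
        (hb b i).1 (hb b j).1 (hb a a).2 (hb a b).2 (hb b b).2 (hb a i).2 (hb a j).2
        (hb b i).2 (hb b j).2 (hM i j) (hM a a) (hM a b) (hM b b) (hM a i) (hM a j)
        (hM b i) (hM b j) hD hal
    have h3 : (updE q B (ent M a a) (ent M a b) (ent M b b) (M.getD a.val [])
        (M.getD b.val []) (ent M i j) i j : ℝ) / q - upd Z a b i j =
        ((updE q B (ent M a a) (ent M a b) (ent M b b) (M.getD a.val [])
        (M.getD b.val []) (ent M i j) i j : ℝ) - q * F) / q + (F - upd Z a b i j) := by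
      field_simp
      ring
    show |(updE q B (ent M a a) (ent M a b) (ent M b b) (M.getD a.val [])
        (M.getD b.val []) (ent M i j) i j : ℝ) / q - upd Z a b i j| ≤ _
    rw [h3]
    refine (abs_add_le _ _).trans ?_
    rw [abs_div, abs_of_pos hq']
    have h4 : |(updE q B (ent M a a) (ent M a b) (ent M b b) (M.getD a.val [])
        (M.getD b.val []) (ent M i j) i j : ℝ) - q * F| / q ≤ 1 / q := by
      gcongr
    linarith

/-- bound for the entries after an update -/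
theorem abs_upd_le {g : ℝ} (hR : 1 ≤ R) (hZ : ∀ i j, |Z i j| ≤ R) (hs : Z.IsSymm) (hg : 0 < g)
    {a b : Fin m} (hal : g ≤ al Z a b) (i j : Fin m) : |upd Z a b i j| ≤ R + 6 * R ^ 3 / g := by
  have hR0 : 0 ≤ R := by linarith
  by_cases hc : i = a ∨ i = b ∨ j = a ∨ j = b
  · unfold upd
    rw [Matrix.of_apply, if_pos hc, abs_zero]
    positivity
  · have hupd : upd Z a b i j = Z i j + numU (Z a a) (Z a b) (Z b b) (Z a i) (Z a j) (Z b i)
        (Z b j) / denU (Z a a) (Z a b) (Z b b) := by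
      unfold upd numU
      rw [Matrix.of_apply, if_neg hc, al_eq_denU, div_eq_inv_mul, hs.apply a i, hs.apply b i]
    rw [hupd]
    refine (abs_add_le _ _).trans (add_le_add (hZ i j) ?_)
    rw [al_eq_denU] at hal
    rw [abs_div, abs_of_pos (hg.trans_le hal)]
    have := numU_le hR (hZ a a) (hZ a b) (hZ b b) (hZ a i) (hZ a j) (hZ b i) (hZ b j)
    gcongr

end

/-- the vertex of a stub -/
def vertF (n d : ℕ) (i : Fin (n * d)) : Fin n :=
  ⟨i / d, Nat.div_lt_of_lt_mul (i.2.trans_eq (mul_comm n d))⟩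

/-- The state `s` of the algorithm approximates the real state `σ`. -/
structure Rel (n d : ℕ) (q : ℤ) (e : ℝ) (s : St) (σ : RSt (Fin (n * d))) : Prop where
  free : ∀ i : ℕ, i ∈ s.1 ↔ ∃ x ∈ σ.F, x.val = i
  cp : Close q e s.2.1.1 σ.Zp
  cm : Close q e s.2.1.2 σ.Zm
  edges : s.2.2 = σ.E.map fun p => (p.1.val, p.2.val)
  cinv : CInv n d s.1 s.2.2

theorem Rel.mono {n d : ℕ} {q : ℤ} {e e' : ℝ} {s : St} {σ : RSt (Fin (n * d))}
    (h : Rel n d q e s σ) (he : e ≤ e') : Rel n d q e' s σ :=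
  ⟨h.free, h.cp.mono he, h.cm.mono he, h.edges, h.cinv⟩

theorem Rel.length {n d : ℕ} {q : ℤ} {e : ℝ} {s : St} {σ : RSt (Fin (n * d))}
    (h : Rel n d q e s σ) : s.1.length = σ.F.card := by
  have hnd : s.1.Nodup := (List.nodup_append.1 h.cinv.nodup).1
  rw [← List.toFinset_card_of_nodup hnd, ← Finset.card_map ⟨Fin.val, Fin.val_injective⟩]
  congr 1
  ext i
  rw [List.mem_toFinset, h.free, Finset.mem_map]
  rfl

theorem vs_eq_iff {n d : ℕ} (a b x y : Fin (n * d)) :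
    vs d (a.val, b.val) = vs d (x.val, y.val) ↔
      s(vertF n d a, vertF n d b) = s(vertF n d x, vertF n d y) := by
  unfold vs
  rw [Sym2.eq_iff, Sym2.eq_iff]
  simp only [vertF, Fin.mk.injEq]

/-- The pairs considered by the algorithm. -/
theorem Rel.cands_adm {n d c : ℕ} {q : ℤ} {e R : ℝ} {s : St} {σ : RSt (Fin (n * d))}
    (h : Rel n d q e s σ) (hq : 0 < q) (hc : 0 < c) (hR : 1 ≤ R)
    (hZp : ∀ i j, |σ.Zp i j| + e ≤ R) (hZm : ∀ i j, |σ.Zm i j| + e ≤ R)
    (he : 6 * e * R ≤ 1 / (2 * c)) {p : ℕ × ℕ} (hp : p ∈ cands d c q s) :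
    ∃ x y : Fin (n * d), p = (x.val, y.val) ∧ σ.Adm (vertF n d) (1 / (2 * c)) x y ∧
      1 / (2 * (c : ℝ)) ≤ denU ((ent s.2.1.1 x x : ℝ) / q) ((ent s.2.1.1 x y : ℝ) / q)
        ((ent s.2.1.1 y y : ℝ) / q) ∧
      1 / (2 * (c : ℝ)) ≤ denU ((ent s.2.1.2 x x : ℝ) / q) ((ent s.2.1.2 x y : ℝ) / q)
        ((ent s.2.1.2 y y : ℝ) / q) := by
  have hc' : (0 : ℝ) < c := by exact_mod_cast hc
  unfold cands at hp
  rw [List.mem_filter, List.mem_flatMap] at hp
  obtain ⟨⟨a, ha, hp1⟩, hp2⟩ := hp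
  obtain ⟨b, hb, rfl⟩ := List.mem_map.1 hp1
  obtain ⟨x, hx, rfl⟩ := (h.free a).1 ha
  obtain ⟨y, hy, rfl⟩ := (h.free b).1 hb
  unfold admB at hp2
  simp only [Bool.and_eq_true, Bool.not_eq_true', decide_eq_false_iff_not] at hp2
  obtain ⟨⟨h1, h2⟩, h3, h4⟩ := hp2
  rw [← Bool.not_eq_true, adjE_iff] at h2
  push Not at h2
  rw [alB_iff hc hq] at h3 h4
  have h5 := abs_le.1 (denU_close h.cp hR hZp x y)
  have h6 := abs_le.1 (denU_close h.cm hR hZm x y)
  have h7 : (1 : ℝ) / c = 1 / (2 * c) + 1 / (2 * c) := by field_simp; norm_num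
  have h8 : (0 : ℝ) < 1 / (2 * c) := by positivity
  refine ⟨x, y, rfl, ⟨hx, hy, ?_, ?_, ?_, ?_⟩, by linarith, by linarith⟩
  · intro h9
    exact h1 (by simpa [vertF] using h9)
  · intro f hf h9
    refine h2 (f.1.val, f.2.val) (by rw [h.edges]; exact List.mem_map.2 ⟨f, hf, rfl⟩) ?_
    exact (vs_eq_iff _ _ _ _).2 h9
  · linarith
  · linarith

theorem Rel.mem_cands {n d c : ℕ} {q : ℤ} {e R : ℝ} {s : St} {σ : RSt (Fin (n * d))}
    (h : Rel n d q e s σ) (hq : 0 < q) (hc : 0 < c) (hR : 1 ≤ R)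
    (hZp : ∀ i j, |σ.Zp i j| + e ≤ R) (hZm : ∀ i j, |σ.Zm i j| + e ≤ R)
    (he : 6 * e * R ≤ 1 / (2 * c)) {x y : Fin (n * d)} (hxy : σ.Adm (vertF n d) (2 / c) x y) :
    (x.val, y.val) ∈ cands d c q s := by
  have hc' : (0 : ℝ) < c := by exact_mod_cast hc
  unfold cands
  rw [List.mem_filter, List.mem_flatMap]
  refine ⟨⟨x.val, (h.free _).2 ⟨x, hxy.memA, rfl⟩, List.mem_map.2 ⟨y.val, (h.free _).2
    ⟨y, hxy.memB, rfl⟩, rfl⟩⟩, ?_⟩
  unfold admB
  simp only [Bool.and_eq_true, Bool.not_eq_true', decide_eq_false_iff_not]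
  have h5 := abs_le.1 (denU_close h.cp hR hZp x y)
  have h6 := abs_le.1 (denU_close h.cm hR hZm x y)
  have h7 : (2 : ℝ) / c = 1 / c + (1 / (2 * c) + 1 / (2 * c)) := by field_simp; norm_num
  have h8 : (0 : ℝ) < 1 / (2 * c) := by positivity
  have h9 := hxy.alp
  have h10 := hxy.alm
  refine ⟨⟨fun h' => hxy.vne (Fin.ext h'), ?_⟩, ?_, ?_⟩
  · rw [← Bool.not_eq_true, adjE_iff]
    rintro ⟨f, hf, hf'⟩
    rw [h.edges] at hf
    obtain ⟨f', hf1, rfl⟩ := List.mem_map.1 hf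
    exact hxy.nadj f' hf1 ((vs_eq_iff _ _ _ _).1 hf')
  · rw [alB_iff hc hq]; linarith
  · rw [alB_iff hc hq]; linarith

/-- One step. -/
theorem Rel.join {n d : ℕ} {q B : ℤ} {e R g : ℝ} {s : St} {σ : RSt (Fin (n * d))}
    (h : Rel n d q e s σ) (hq : 0 < q) (hR : 1 ≤ R) (hsp : σ.Zp.IsSymm) (hsm : σ.Zm.IsSymm)
    (hZp : ∀ i j, |σ.Zp i j| + e ≤ R) (hZm : ∀ i j, |σ.Zm i j| + e ≤ R)
    (hg : 0 < g) (hg1 : g ≤ 1) {x y : Fin (n * d)} (hxy : σ.Adm (vertF n d) g x y)
    (h1 : g ≤ denU ((ent s.2.1.1 x x : ℝ) / q) ((ent s.2.1.1 x y : ℝ) / q)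
        ((ent s.2.1.1 y y : ℝ) / q))
    (h2 : g ≤ denU ((ent s.2.1.2 x x : ℝ) / q) ((ent s.2.1.2 x y : ℝ) / q)
        ((ent s.2.1.2 y y : ℝ) / q))
    (hB : (q : ℝ) * (R + 6 * R ^ 3 / g) + 1 ≤ B) :
    Rel n d q (e * (1 + 52 * R ^ 4 / g ^ 2) + 1 / q)
      (TS.join q B (List.range (n * d)) s (x.val, y.val)) (σ.join x y) := by
  have hxy' := hxy.ne
  refine ⟨fun i => ?_, updM_close hq h.cp hsp hR hZp hg hg1 hxy.alp h1 hB,
    updM_close hq h.cm hsm hR hZm hg hg1 hxy.alm h2 hB, ?_, ?_, ?_, ?_⟩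
  · simp only [TS.join, RSt.join, List.mem_filter, h.free, Finset.mem_erase, Bool.and_eq_true,
      decide_eq_true_eq]
    constructor
    · rintro ⟨⟨z, hz, rfl⟩, h3, h4⟩
      exact ⟨z, ⟨fun h' => h4 (congrArg _ h'), fun h' => h3 (congrArg _ h'), hz⟩, rfl⟩
    · rintro ⟨z, ⟨h3, h4, h5⟩, rfl⟩
      exact ⟨⟨z, h5, rfl⟩, fun h' => h4 (Fin.ext h'), fun h' => h3 (Fin.ext h')⟩
  · simp only [TS.join, RSt.join, List.map_cons, h.edges]
  · simp only [TS.join]
    rw [stubs_cons]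
    have hnd : s.1.Nodup := (List.nodup_append.1 h.cinv.nodup).1
    have hx : x.val ∈ s.1 := (h.free _).2 ⟨x, hxy.memA, rfl⟩
    have hy : y.val ∈ s.1.filter fun i => decide (i ≠ x.val) := by
      rw [List.mem_filter, decide_eq_true_eq]
      exact ⟨(h.free _).2 ⟨y, hxy.memB, rfl⟩, fun h' => hxy' (Fin.ext h'.symm)⟩
    have hp1 := filter_ne_perm hnd hx
    have hp2 := filter_ne_perm (hnd.filter _) hy
    have hp3 : s.1.Perm (x.val :: y.val :: s.1.filter fun i =>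
        decide (i ≠ x.val) && decide (i ≠ y.val)) := by
      refine hp1.trans (List.Perm.cons _ (hp2.trans (List.Perm.cons _ (List.Perm.of_eq ?_))))
      rw [List.filter_filter]
      refine List.filter_congr fun z _ => ?_
      rw [Bool.and_comm]
    refine List.Perm.trans ?_ h.cinv.perm
    refine List.Perm.trans ?_ (hp3.append_right _).symm
    rw [List.cons_append, List.cons_append]
    exact List.perm_middle.trans (List.Perm.cons _ List.perm_middle)
  · intro f hf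
    rcases List.mem_cons.1 hf with rfl | hf
    · exact fun h' => hxy.vne (Fin.ext h')
    · exact h.cinv.simp.1 f hf
  · simp only [TS.join]
    rw [List.pairwise_cons]
    refine ⟨fun f hf h' => ?_, h.cinv.simp.2⟩
    rw [h.edges] at hf
    obtain ⟨f', hf1, rfl⟩ := List.mem_map.1 hf
    exact hxy.nadj f' hf1 ((vs_eq_iff _ _ _ _).1 h'.symm)

end Vale.Agent.P049.TS
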