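import Vale.Agent.P049.TS.Alg.Main
import Vale.Agent.P049.TS.Alg.GoodMk
import Vale.Agent.P049.TS.Alg.PTBase
import Vale.Agent.P049.TS.Shell.Fin

/-!
The whole problem reduced to the analysis of a potential.
-/

open Function Vale.Agent.Lib.PolyTime

namespace Vale.Agent.P049.TS

/-- the number of steps of the greedy algorithm: `⌊(n d - s ^ ex) / 2⌋` -/
def Kst (d ex : ℕ) (R : List ℕ) : ℕ := (R.length - sR (R.length / d) ^ ex) / 2

theorem pt_Kst (d ex : ℕ) : PT ∅ (Kst d ex) := by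
  have hl : PT ∅ (fun R : List ℕ => R.length) := PT.length PT.id
  have hlb : PBd (fun R : List ℕ => R.length) := PBd.length (A := ∅) PT.id
  have hn : PT ∅ (fun R : List ℕ => R.length / d) := PT.div hl (PT.const d)
  have hnb : PBd (fun R : List ℕ => R.length / d) := hlb.mono fun R => Nat.div_le_self _ _
  exact PT.div (hl.sub (PT.powConst (pt_sR hn hnb) ex)) (PT.const 2)

theorem pbd_Kst (d ex : ℕ) : PBd (Kst d ex) :=
  (PBd.length (A := ∅) (PT.id (α := List ℕ))).mono fun R =>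
    (Nat.div_le_self _ _).trans (Nat.sub_le _ _)

theorem Kst_range {d : ℕ} (hd : 0 < d) (ex n : ℕ) :
    Kst d ex (List.range (n * d)) = (n * d - sR n ^ ex) / 2 := by
  unfold Kst
  rw [List.length_range, Nat.mul_div_cancel _ hd]

/-- **The reduction.** `Φ` is the potential, `V` its fixed point version, `b` the bounds. -/
theorem final_of {d c ex n₀ k₀ : ℕ} (hd : 3 ≤ d) (hc : 0 < c) (hex : 1 ≤ ex) (hex' : ex ≤ 1000)
    {V : List ℕ → ℤ → St → ℤ}
    (hV : PT ∅ (fun p : List ℕ × ℤ × St => V p.1 p.2.1 p.2.2))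
    (Φ : ∀ n, ℕ → RSt (Fin (n * d)) → ℝ) (b : ℕ → ℕ → ℝ)
    (hA : ∀ n ≥ n₀, Even (d * n) → ∀ k < (n * d - sR n ^ ex) / 2, ∀ σ,
      Reach (vertF n d) (start (vertF n d) d) k σ → ∀ δ : ℝ, 0 ≤ δ →
      δ ≤ (1 / 2) ^ (n * d) → Φ n k σ ≤ b n k + δ → ∃ x y, σ.Adm (vertF n d) (2 / c) x y ∧
        Φ n (k + 1) (σ.join x y) ≤ b n (k + 1) + 2 * δ)
    (hB : ∀ n ≥ n₀, Even (d * n) → ∀ k < (n * d - sR n ^ ex) / 2, ∀ σ,
      Reach (vertF n d) (start (vertF n d) d) k σ → Φ n k σ ≤ b n k + (1 / 2) ^ (n * d) →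
        ∀ i j, |σ.Zp i j| ≤ (n * d : ℕ) ∧ |σ.Zm i j| ≤ (n * d : ℕ))
    (hC : ∀ n ≥ n₀, Even (d * n) → Φ n 0 (start (vertF n d) d) ≤ b n 0)
    (hN : ∀ n ≥ n₀, Even (d * n) → ∀ k, 0 < k → k ≤ (n * d - sR n ^ ex) / 2 →
      ∀ (q : ℤ) (e P : ℝ) (s : St) (σ : RSt (Fin (n * d))), NP q e P →
      P = ((n * d : ℕ) : ℝ) + 2 →
      Reach (vertF n d) (start (vertF n d) d) k σ → Rel n d q e s σ →
      ValsOK q e P (allVals q (List.range (n * d)) s).1 σ.F σ.Zp →
      ValsOK q e P (allVals q (List.range (n * d)) s).2.1 σ.F σ.Zm →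
      Nice q e P 28 (allVals q (List.range (n * d)) s).2.2 (σ.Zp ^ 2 * σ.Zm ^ 2).trace →
      Nice q e P k₀ (V (List.range (n * d)) q s) (Φ n k σ))
    (hend : ∀ n ≥ n₀, Even (d * n) → ∀ σ,
      Reach (vertF n d) (start (vertF n d) d) ((n * d - sR n ^ ex) / 2) σ →
      Φ n ((n * d - sR n ^ ex) / 2) σ ≤ b n ((n * d - sR n ^ ex) / 2) + (1 / 2) ^ (n * d) →
      (σ.Zp ^ 2).trace ≤ 2 ∧ (σ.Zm ^ 2).trace ≤ 2) :
    ∃ f : ℕ → List Bool,
      (∃ M : Turing.TM2ComputableInPolyTime (fun n : ℕ => List.replicate n true)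
        (id : List Bool → List Bool) f, ∀ k, Finite (M.tm.Γ k)) ∧
      ∃ n₁ : ℕ, ∀ n : ℕ, n₁ ≤ n → Even (d * n) →
        ∃ (G : SimpleGraph (Fin n)) (_ : DecidableRel G.Adj),
          IsRamanujanUpTo d 0 G ∧
          f n = (List.ofFn fun i : Fin n => List.ofFn fun j : Fin n =>
            decide (G.Adj i j)).flatten := by
  have hsn : ∀ n, sR n ^ ex ≤ n := by
    intro n
    rcases Nat.eq_zero_or_pos (sR n) with h | h
    · rw [h, zero_pow (by omega)]; exact Nat.zero_le _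
    · exact (Nat.pow_le_pow_right h hex').trans (sR_pow_le n)
  have hs8 : ∀ n, (8 * d ^ 2) ^ 1000 ≤ n → 8 * d ^ 2 ≤ sR n ^ ex := by
    intro n hn
    have h1 : 8 * d ^ 2 ≤ sR n := (le_sR_iff n _).2 hn
    exact h1.trans (Nat.le_self_pow (by omega) _)
  have hnd : ∀ n, n ≤ n * d := fun n => Nat.le_mul_of_pos_right _ (by omega)
  refine main_of_good (n₀ := n₀ + (8 * d ^ 2) ^ 1000 + k₀ + 2) hd hc hV (pt_Kst d ex)
    (pbd_Kst d ex) (fun n _ => (scale (List.range (n * d)) : ℤ)) Φ b ?_ ?_ ?_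
  · intro n hn he
    rw [Kst_range (by omega)]
    have h1 := hnd n
    exact Good.mk' (by omega) (by omega) (hA n (by omega) he) (hB n (by omega) he)
      (hC n (by omega) he) fun k hk0 hk s σ hr hrel g1 g2 g3 =>
        hN n (by omega) he k hk0 hk _ _ _ s σ (np_run (by omega)) rfl hr hrel g1 g2 g3
  · intro n hn
    rw [Kst_range (by omega)]
    have h1 := hnd n
    have h2 := hsn n
    have h3 := hs8 n (by omega)
    omega
  · intro n hn he σ hr hΦ G _ hreg hadj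
    rw [Kst_range (by omega)] at hr hΦ
    obtain ⟨h1, h2⟩ := hend n (by omega) he σ hr hΦ
    have h3 := hnd n
    have h4 := hs8 n (by omega)
    have h5 : 0 < 8 * d ^ 2 := by positivity
    have h6 := hsn n
    exact hr.isRamanujan_vertF hd (by omega) (by omega) h1 h2 G hreg hadj

end Vale.Agent.P049.TS
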