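import Vale.Agent.P049.TS.Shell.Join
import Vale.Agent.P049.TS.Alg.Alg

/-!
Rounding errors of one step of the greedy algorithm.
-/

namespace Vale.Agent.P049.TS

/-! ### Real estimates -/

theorem abs_mul_sub_mul_le {x y x' y' X Y ex ey : ℝ} (hx : |x| ≤ X) (hy : |y'| ≤ Y)
    (h1 : |x - x'| ≤ ex) (h2 : |y - y'| ≤ ey) :
    |x * y - x' * y'| ≤ X * ey + Y * ex := by
  have hX : 0 ≤ X := (abs_nonneg _).trans hx
  have hY : 0 ≤ Y := (abs_nonneg _).trans hy
  calc |x * y - x' * y'| = |x * (y - y') + y' * (x - x')| := by congr 1; ring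
    _ ≤ |x * (y - y')| + |y' * (x - x')| := abs_add_le _ _
    _ = |x| * |y - y'| + |y'| * |x - x'| := by rw [abs_mul, abs_mul]
    _ ≤ X * ey + Y * ex := by
        have := abs_nonneg (y - y')
        have := abs_nonneg (x - x')
        gcongr

theorem abs_div_sub_div_le {n n' D D' N en ed g : ℝ} (hg : 0 < g) (hD : g ≤ D) (hD' : g ≤ D')
    (hn : |n'| ≤ N) (h1 : |n - n'| ≤ en) (h2 : |D - D'| ≤ ed) :
    |n / D - n' / D'| ≤ en / g + N * ed / g ^ 2 := by
  have hD0 : 0 < D := hg.trans_le hD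
  have hD0' : 0 < D' := hg.trans_le hD'
  have he : 0 ≤ en := (abs_nonneg _).trans h1
  have he' : 0 ≤ ed := (abs_nonneg _).trans h2
  have hN : 0 ≤ N := (abs_nonneg _).trans hn
  have e1 : n / D - n' / D' = (n - n') / D + n' * (D' - D) / (D * D') := by
    field_simp
    ring
  rw [e1]
  refine (abs_add_le _ _).trans (add_le_add ?_ ?_)
  · rw [abs_div, abs_of_pos hD0]
    gcongr
  · rw [abs_div, abs_mul, abs_of_pos (mul_pos hD0 hD0'), abs_sub_comm D' D, sq]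
    gcongr

/-- the numerator of the update -/
def numU (saa sab sbb xi xj yi yj : ℝ) : ℝ :=
  sbb * (xi * xj) + (1 - sab) * (xi * yj + yi * xj) + saa * (yi * yj)

/-- the denominator of the update -/
def denU (saa sab sbb : ℝ) : ℝ := (1 - sab) ^ 2 - saa * sbb

theorem numU_le {R saa sab sbb xi xj yi yj : ℝ} (hR : 1 ≤ R) (h1 : |saa| ≤ R) (h2 : |sab| ≤ R)
    (h3 : |sbb| ≤ R) (h4 : |xi| ≤ R) (h5 : |xj| ≤ R) (h6 : |yi| ≤ R) (h7 : |yj| ≤ R) :
    |numU saa sab sbb xi xj yi yj| ≤ 6 * R ^ 3 := by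
  unfold numU
  have hR0 : 0 ≤ R := by linarith
  have e1 : |sbb * (xi * xj)| ≤ R * (R * R) := by
    rw [abs_mul, abs_mul]; gcongr
  have e2 : |(1 - sab) * (xi * yj + yi * xj)| ≤ (1 + R) * (R * R + R * R) := by
    rw [abs_mul]
    have h8 : |1 - sab| ≤ 1 + R := (abs_sub _ _).trans (by rw [abs_one]; linarith)
    have h9 : |xi * yj + yi * xj| ≤ R * R + R * R := by
      refine (abs_add_le _ _).trans ?_
      rw [abs_mul, abs_mul]; gcongr
    gcongr
  have e3 : |saa * (yi * yj)| ≤ R * (R * R) := by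
    rw [abs_mul, abs_mul]; gcongr
  refine (abs_add_le _ _).trans ?_
  have h := abs_add_le (sbb * (xi * xj)) ((1 - sab) * (xi * yj + yi * xj))
  nlinarith [mul_nonneg hR0 hR0, mul_nonneg (mul_nonneg hR0 hR0) (sub_nonneg.2 hR)]

theorem numU_sub_le {R e saa sab sbb xi xj yi yj saa' sab' sbb' xi' xj' yi' yj' : ℝ}
    (hR : 1 ≤ R) (h1 : |saa| ≤ R) (h2 : |sab| ≤ R)
    (h3 : |sbb| ≤ R) (h4 : |xi| ≤ R) (h5 : |xj| ≤ R) (h6 : |yi| ≤ R) (h7 : |yj| ≤ R)
    (h1' : |saa'| ≤ R) (h2' : |sab'| ≤ R)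
    (h3' : |sbb'| ≤ R) (h4' : |xi'| ≤ R) (h5' : |xj'| ≤ R) (h6' : |yi'| ≤ R) (h7' : |yj'| ≤ R)
    (k1 : |saa - saa'| ≤ e) (k2 : |sab - sab'| ≤ e) (k3 : |sbb - sbb'| ≤ e)
    (k4 : |xi - xi'| ≤ e) (k5 : |xj - xj'| ≤ e) (k6 : |yi - yi'| ≤ e) (k7 : |yj - yj'| ≤ e) :
    |numU saa sab sbb xi xj yi yj - numU saa' sab' sbb' xi' xj' yi' yj'| ≤ 16 * e * R ^ 2 := by
  have hR0 : 0 ≤ R := by linarith
  have he : 0 ≤ e := (abs_nonneg _).trans k1
  have two : ∀ {x y x' y' : ℝ}, |x| ≤ R → |y'| ≤ R → |x - x'| ≤ e → |y - y'| ≤ e →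
      |x * y - x' * y'| ≤ 2 * R * e := fun g1 g2 g3 g4 =>
    (abs_mul_sub_mul_le g1 g2 g3 g4).trans (by linarith)
  have prod : ∀ {x y : ℝ}, |x| ≤ R → |y| ≤ R → |x * y| ≤ R * R := fun g1 g2 => by
    rw [abs_mul]; gcongr
  have e1 : |sbb * (xi * xj) - sbb' * (xi' * xj')| ≤ R * (2 * R * e) + R * R * e :=
    abs_mul_sub_mul_le h3 (prod h4' h5') k3 (two h4 h5' k4 k5)
  have e3 : |saa * (yi * yj) - saa' * (yi' * yj')| ≤ R * (2 * R * e) + R * R * e :=
    abs_mul_sub_mul_le h1 (prod h6' h7') k1 (two h6 h7' k6 k7)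
  have e2 : |(1 - sab) * (xi * yj + yi * xj) - (1 - sab') * (xi' * yj' + yi' * xj')| ≤
      (1 + R) * (2 * R * e + 2 * R * e) + (R * R + R * R) * e := by
    refine abs_mul_sub_mul_le ((abs_sub _ _).trans (by rw [abs_one]; linarith))
      ((abs_add_le _ _).trans (add_le_add (prod h4' h7') (prod h6' h5'))) ?_ ?_
    · have : 1 - sab - (1 - sab') = -(sab - sab') := by ring
      rw [this, abs_neg]; exact k2
    · have : xi * yj + yi * xj - (xi' * yj' + yi' * xj') =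
          (xi * yj - xi' * yj') + (yi * xj - yi' * xj') := by ring
      rw [this]
      exact (abs_add_le _ _).trans (add_le_add (two h4 h7' k4 k7) (two h6 h5' k6 k5))
  unfold numU
  have h : sbb * (xi * xj) + (1 - sab) * (xi * yj + yi * xj) + saa * (yi * yj) -
      (sbb' * (xi' * xj') + (1 - sab') * (xi' * yj' + yi' * xj') + saa' * (yi' * yj')) =
      (sbb * (xi * xj) - sbb' * (xi' * xj')) +
      ((1 - sab) * (xi * yj + yi * xj) - (1 - sab') * (xi' * yj' + yi' * xj')) +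
      (saa * (yi * yj) - saa' * (yi' * yj')) := by ring
  rw [h]
  refine (abs_add_le _ _).trans ?_
  have h8 := abs_add_le (sbb * (xi * xj) - sbb' * (xi' * xj'))
    ((1 - sab) * (xi * yj + yi * xj) - (1 - sab') * (xi' * yj' + yi' * xj'))
  have h9 : 0 ≤ e * R * (R - 1) := mul_nonneg (mul_nonneg he hR0) (by linarith)
  nlinarith

theorem denU_sub_le {R e saa sab sbb saa' sab' sbb' : ℝ}
    (hR : 1 ≤ R) (h1 : |saa| ≤ R) (h2 : |sab| ≤ R) (h2' : |sab'| ≤ R) (h3' : |sbb'| ≤ R)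
    (k1 : |saa - saa'| ≤ e) (k2 : |sab - sab'| ≤ e) (k3 : |sbb - sbb'| ≤ e) :
    |denU saa sab sbb - denU saa' sab' sbb'| ≤ 6 * e * R := by
  have hR0 : 0 ≤ R := by linarith
  have he : 0 ≤ e := (abs_nonneg _).trans k1
  have e1 : |saa * sbb - saa' * sbb'| ≤ R * e + R * e := abs_mul_sub_mul_le h1 h3' k1 k3
  have e2 : |(1 - sab) * (1 - sab) - (1 - sab') * (1 - sab')| ≤ (1 + R) * e + (1 + R) * e := by
    have k2' : |1 - sab - (1 - sab')| ≤ e := by
      have : 1 - sab - (1 - sab') = -(sab - sab') := by ring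
      rw [this, abs_neg]; exact k2
    refine abs_mul_sub_mul_le ((abs_sub _ _).trans (by rw [abs_one]; linarith))
      ((abs_sub _ _).trans (by rw [abs_one]; linarith)) k2' k2'
  unfold denU
  have h : (1 - sab) ^ 2 - saa * sbb - ((1 - sab') ^ 2 - saa' * sbb') =
    ((1 - sab) * (1 - sab) - (1 - sab') * (1 - sab')) - (saa * sbb - saa' * sbb') := by ring
  rw [h]
  refine (abs_sub _ _).trans ?_
  nlinarith

/-- the rounded update of one entry -/
theorem updU_sub_le {R e g v v' saa sab sbb xi xj yi yj saa' sab' sbb' xi' xj' yi' yj' : ℝ}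
    (hR : 1 ≤ R) (hg : 0 < g) (hg1 : g ≤ 1) (h1 : |saa| ≤ R) (h2 : |sab| ≤ R)
    (h3 : |sbb| ≤ R) (h4 : |xi| ≤ R) (h5 : |xj| ≤ R) (h6 : |yi| ≤ R) (h7 : |yj| ≤ R)
    (h1' : |saa'| ≤ R) (h2' : |sab'| ≤ R)
    (h3' : |sbb'| ≤ R) (h4' : |xi'| ≤ R) (h5' : |xj'| ≤ R) (h6' : |yi'| ≤ R) (h7' : |yj'| ≤ R)
    (k0 : |v - v'| ≤ e)
    (k1 : |saa - saa'| ≤ e) (k2 : |sab - sab'| ≤ e) (k3 : |sbb - sbb'| ≤ e)
    (k4 : |xi - xi'| ≤ e) (k5 : |xj - xj'| ≤ e) (k6 : |yi - yi'| ≤ e) (k7 : |yj - yj'| ≤ e)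
    (hD : g ≤ denU saa sab sbb) (hD' : g ≤ denU saa' sab' sbb') :
    |(v + numU saa sab sbb xi xj yi yj / denU saa sab sbb) -
      (v' + numU saa' sab' sbb' xi' xj' yi' yj' / denU saa' sab' sbb')| ≤
      e * (1 + 52 * R ^ 4 / g ^ 2) := by
  have hR0 : 0 ≤ R := by linarith
  have he : 0 ≤ e := (abs_nonneg _).trans k1
  have e1 := numU_sub_le hR h1 h2 h3 h4 h5 h6 h7 h1' h2' h3' h4' h5' h6' h7' k1 k2 k3 k4 k5 k6 k7
  have e2 := denU_sub_le hR h1 h2 h2' h3' k1 k2 k3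
  have e3 := numU_le hR h1' h2' h3' h4' h5' h6' h7'
  have e4 := abs_div_sub_div_le hg hD hD' e3 e1 e2
  have h : (v + numU saa sab sbb xi xj yi yj / denU saa sab sbb) -
      (v' + numU saa' sab' sbb' xi' xj' yi' yj' / denU saa' sab' sbb') = (v - v') +
      (numU saa sab sbb xi xj yi yj / denU saa sab sbb -
        numU saa' sab' sbb' xi' xj' yi' yj' / denU saa' sab' sbb') := by ring
  rw [h]
  refine (abs_add_le _ _).trans ?_
  have e5 : 16 * e * R ^ 2 / g ≤ 16 * e * R ^ 4 / g ^ 2 := by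
    rw [div_le_div_iff₀ hg (by positivity)]
    have : R ^ 2 ≤ R ^ 4 := pow_le_pow_right₀ hR (by norm_num)
    have h8 : g ^ 2 ≤ g := by nlinarith
    have h9 : 16 * e * R ^ 2 ≤ 16 * e * R ^ 4 := by gcongr
    calc 16 * e * R ^ 2 * g ^ 2 ≤ 16 * e * R ^ 4 * g ^ 2 := by gcongr
      _ ≤ 16 * e * R ^ 4 * g := by gcongr
  have e6 : 6 * R ^ 3 * (6 * e * R) / g ^ 2 = 36 * e * R ^ 4 / g ^ 2 := by ring
  rw [e6] at e4
  calc |v - v'| + |numU saa sab sbb xi xj yi yj / denU saa sab sbb -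
        numU saa' sab' sbb' xi' xj' yi' yj' / denU saa' sab' sbb'|
      ≤ e + (16 * e * R ^ 4 / g ^ 2 + 36 * e * R ^ 4 / g ^ 2) := by linarith
    _ = e * (1 + 52 * R ^ 4 / g ^ 2) := by ring

/-! ### One entry -/

theorem clip_eq {B x : ℤ} (h : |x| ≤ B) : clip B x = x := by
  rw [abs_le] at h
  unfold clip
  rw [if_neg (by omega), if_neg (by omega)]

theorem abs_ediv_sub_le {N D : ℤ} (hD : 0 < D) : |((N / D : ℤ) : ℝ) - (N : ℝ) / D| ≤ 1 := by
  have h1 := Int.emod_nonneg N hD.ne'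
  have h2 := Int.emod_lt_of_pos N hD
  have h3 := Int.mul_ediv_add_emod N D
  have hD' : (0 : ℝ) < D := by exact_mod_cast hD
  have h4 : (N : ℝ) = D * ((N / D : ℤ) : ℝ) + ((N % D : ℤ) : ℝ) := by exact_mod_cast h3.symm
  have h5 : ((N / D : ℤ) : ℝ) - (N : ℝ) / D = - (((N % D : ℤ) : ℝ) / D) := by
    rw [h4]; field_simp; ring
  rw [h5, abs_neg, abs_of_nonneg (by positivity), div_le_one hD']
  exact_mod_cast h2.le

/-- The rounded update of one entry. Integers are `q` times reals. -/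
theorem updE_close {q B saa sab sbb : ℤ} {x y : List ℤ} {v : ℤ} {i j : ℕ} (hq : 0 < q)
    (hD : 0 < (q - sab) * (q - sab) - saa * sbb)
    (hB : |(q : ℝ) * ((v : ℝ) / q + numU (saa / q) (sab / q) (sbb / q) (x.getD i 0 / q)
      (x.getD j 0 / q) (y.getD i 0 / q) (y.getD j 0 / q) / denU (saa / q) (sab / q) (sbb / q))|
        + 1 ≤ B) :
    |(updE q B saa sab sbb x y v i j : ℝ) - q * ((v : ℝ) / q +
      numU (saa / q) (sab / q) (sbb / q) (x.getD i 0 / q) (x.getD j 0 / q)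
      (y.getD i 0 / q) (y.getD j 0 / q) / denU (saa / q) (sab / q) (sbb / q))| ≤ 1 := by
  have hq' : (0 : ℝ) < q := by exact_mod_cast hq
  unfold updE
  generalize x.getD i 0 = xi at *
  generalize x.getD j 0 = xj at *
  generalize y.getD i 0 = yi at *
  generalize y.getD j 0 = yj at *
  have hD' : (0 : ℝ) < ((q : ℝ) - sab) * (q - sab) - saa * sbb := by exact_mod_cast hD
  have hden : denU (saa / q) (sab / q) (sbb / q) =
      (((q : ℝ) - sab) * (q - sab) - saa * sbb) / q ^ 2 := by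
    unfold denU; field_simp
  have hnum : numU (saa / q) (sab / q) (sbb / q) (xi / q) (xj / q) (yi / q) (yj / q) =
      ((sbb : ℝ) * (xi * xj) + (q - sab) * (xi * yj + yi * xj) + saa * (yi * yj)) / q ^ 3 := by
    unfold numU; field_simp
  have hT : (q : ℝ) * ((v : ℝ) / q + numU (saa / q) (sab / q) (sbb / q) (xi / q) (xj / q)
      (yi / q) (yj / q) / denU (saa / q) (sab / q) (sbb / q)) = v +
      ((sbb : ℝ) * (xi * xj) + (q - sab) * (xi * yj + yi * xj) + saa * (yi * yj)) /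
        (((q : ℝ) - sab) * (q - sab) - saa * sbb) := by
    rw [hden, hnum]
    field_simp
  rw [hT] at hB ⊢
  have key := abs_ediv_sub_le (N := sbb * (xi * xj) + (q - sab) * (xi * yj + yi * xj) +
    saa * (yi * yj)) hD
  push_cast at key
  have h1 : |((v + (sbb * (xi * xj) + (q - sab) * (xi * yj + yi * xj) + saa * (yi * yj)) /
      ((q - sab) * (q - sab) - saa * sbb) : ℤ) : ℝ) - (v +
      ((sbb : ℝ) * (xi * xj) + (q - sab) * (xi * yj + yi * xj) + saa * (yi * yj)) /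
        (((q : ℝ) - sab) * (q - sab) - saa * sbb))| ≤ 1 := by
    push_cast
    rw [add_sub_add_left_eq_sub]
    exact key
  rw [clip_eq]
  · exact h1
  · have h2 := abs_le.1 h1
    have h3 := abs_le.1 (show |(v : ℝ) + ((sbb : ℝ) * (xi * xj) + (q - sab) *
      (xi * yj + yi * xj) + saa * (yi * yj)) / (((q : ℝ) - sab) * (q - sab) - saa * sbb)| ≤
        B - 1 by linarith)
    rw [abs_le]
    constructor
    · have : (-(B : ℝ)) ≤ ((v + (sbb * (xi * xj) + (q - sab) * (xi * yj + yi * xj) +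
        saa * (yi * yj)) / ((q - sab) * (q - sab) - saa * sbb) : ℤ) : ℝ) := by linarith
      exact_mod_cast this
    · have : ((v + (sbb * (xi * xj) + (q - sab) * (xi * yj + yi * xj) +
        saa * (yi * yj)) / ((q - sab) * (q - sab) - saa * sbb) : ℤ) : ℝ) ≤ B := by linarith
      exact_mod_cast this

end Vale.Agent.P049.TS
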