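import Vale.Agent.P049.TS.Alg.Greedy

/-!
The run of the algorithm follows a run of the real process with small potential.
-/

open Function

namespace Vale.Agent.P049.TS

/-! ### The choice -/

theorem mem_cands_iff {d c : ℕ} {q : ℤ} {s : St} {p : ℕ × ℕ} :
    p ∈ cands d c q s ↔ (p.1 ∈ s.1 ∧ p.2 ∈ s.1) ∧ admB d c q s p = true := by
  unfold cands
  rw [List.mem_filter, List.mem_flatMap]
  constructor
  · rintro ⟨⟨a, ha, h⟩, h'⟩
    obtain ⟨b, hb, rfl⟩ := List.mem_map.1 h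
    exact ⟨⟨ha, hb⟩, h'⟩
  · rintro ⟨⟨ha, hb⟩, h'⟩
    exact ⟨⟨p.1, ha, List.mem_map.2 ⟨p.2, hb, rfl⟩⟩, h'⟩

theorem exists_min_mem {β : Type*} (l : List β) (f : β → ℤ) (h : l ≠ []) :
    ∃ x ∈ l, ∀ y ∈ l, f x ≤ f y := by
  induction l with
  | nil => exact absurd rfl h
  | cons a l ih =>
    by_cases hl : l = []
    · subst hl
      exact ⟨a, by simp, by simp⟩
    · obtain ⟨x, hx, hx'⟩ := ih hl
      by_cases hax : f a ≤ f x
      · refine ⟨a, by simp, fun y hy => ?_⟩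
        rcases List.mem_cons.1 hy with rfl | hy
        · exact le_rfl
        · exact hax.trans (hx' y hy)
      · push Not at hax
        refine ⟨x, List.mem_cons_of_mem _ hx, fun y hy => ?_⟩
        rcases List.mem_cons.1 hy with rfl | hy
        · exact hax.le
        · exact hx' y hy

theorem pick_spec (V : List ℕ → ℤ → St → ℤ) (d c : ℕ) (q B : ℤ) (R : List ℕ) (s : St)
    (h : cands d c q s ≠ []) :
    pick V d c q B R s ∈ cands d c q s ∧ ∀ p' ∈ cands d c q s,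
      V R q (join q B R s (pick V d c q B R s)) ≤ V R q (join q B R s p') := by
  obtain ⟨x, hx, hx'⟩ := exists_min_mem (cands d c q s) (fun p => V R q (join q B R s p)) h
  unfold pick
  rcases e : (cands d c q s).find? fun p => (cands d c q s).all fun p' =>
    decide (V R q (join q B R s p) ≤ V R q (join q B R s p')) with _ | p
  · rw [List.find?_eq_none] at e
    refine absurd ?_ (e x hx)
    rw [List.all_eq_true]
    exact fun y hy => decide_eq_true (hx' y hy)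
  · have h1 := List.find?_some e
    rw [List.all_eq_true] at h1
    simp only [Option.getD_some]
    exact ⟨List.mem_of_find?_eq_some e, fun p' hp' => of_decide_eq_true (h1 p' hp')⟩

/-! ### Numbers -/

theorem num1 {m k K : ℕ} (hK : 2 * K ≤ m) (hk : k ≤ K) :
    ((k : ℝ) + 3) * 2 ^ (m * k) / 2 ^ (40 * (m + 2) ^ 2) ≤ (1 / 2) ^ (30 * (m + 2) ^ 2) := by
  rw [div_le_iff₀ (by positivity), one_div_pow, one_div_mul_eq_div,
    le_div_iff₀ (by positivity)]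
  have h1 : ((k : ℝ) + 3) ≤ 2 ^ (m + 2) := by
    have : k + 3 ≤ 2 ^ (m + 2) := by
      have := Nat.lt_two_pow_self (n := m + 2)
      omega
    exact_mod_cast this
  have h2 : m * k ≤ m * m := Nat.mul_le_mul_left _ (by omega)
  calc ((k : ℝ) + 3) * 2 ^ (m * k) * 2 ^ (30 * (m + 2) ^ 2)
      ≤ 2 ^ (m + 2) * 2 ^ (m * m) * 2 ^ (30 * (m + 2) ^ 2) := by
        gcongr
        norm_num
    _ = 2 ^ (m + 2 + m * m + 30 * (m + 2) ^ 2) := by rw [← pow_add, ← pow_add]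
    _ ≤ 2 ^ (40 * (m + 2) ^ 2) := by
        apply pow_le_pow_right₀ (by norm_num)
        nlinarith

theorem num2 {m c : ℕ} (hc : 0 < c) (hcm : 12 * c ≤ m) :
    6 * ((1 : ℝ) / 2) ^ (30 * (m + 2) ^ 2) * (m + 1) ≤ 1 / (2 * c) := by
  have hc' : (0 : ℝ) < c := by exact_mod_cast hc
  rw [le_div_iff₀ (by positivity)]
  have h1 : (12 * c : ℝ) ≤ m := by exact_mod_cast hcm
  have h2 : ((m : ℝ) + 1) ≤ 2 ^ (m + 1) := by
    have := Nat.lt_two_pow_self (n := m + 1)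
    exact_mod_cast this.le
  have h3 : (1 / 2 : ℝ) ^ (30 * (m + 2) ^ 2) ≤ (1 / 2) ^ (2 * (m + 1)) :=
    pow_le_pow_of_le_one (by norm_num) (by norm_num) (by nlinarith)
  calc 6 * ((1 : ℝ) / 2) ^ (30 * (m + 2) ^ 2) * (m + 1) * (2 * c)
      = (1 / 2 : ℝ) ^ (30 * (m + 2) ^ 2) * (m + 1) * (12 * c) := by ring
    _ ≤ (1 / 2) ^ (2 * (m + 1)) * 2 ^ (m + 1) * 2 ^ (m + 1) := by
        gcongr
        linarith
    _ = 1 := by
        rw [mul_assoc, ← pow_add, ← two_mul, ← mul_pow]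
        norm_num

theorem num3 {m c : ℕ} (hcm : 12 * c ≤ m) :
    ((m : ℝ) + 1) + 6 * ((m : ℝ) + 1) ^ 3 / (1 / (2 * (c : ℝ))) + 1 ≤ ((m : ℝ) + 2) ^ 5 := by
  have h1 : (12 * c : ℝ) ≤ m := by exact_mod_cast hcm
  have h2 : 6 * ((m : ℝ) + 1) ^ 3 / (1 / (2 * (c : ℝ))) = (12 * c) * ((m : ℝ) + 1) ^ 3 := by
    rw [div_div_eq_mul_div, div_one]; ring
  rw [h2]
  have hm : (0 : ℝ) ≤ m := Nat.cast_nonneg _
  have h3 : (12 * c : ℝ) * ((m : ℝ) + 1) ^ 3 ≤ m * ((m : ℝ) + 1) ^ 3 := by gcongr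
  generalize (m : ℝ) = x at *
  have h4 : (x + 2) ^ 5 - (x + 1 + x * (x + 1) ^ 3 + 1) =
      x ^ 5 + 9 * x ^ 4 + 37 * x ^ 3 + 77 * x ^ 2 + 78 * x + 30 := by ring
  have h5 : 0 ≤ x ^ 5 + 9 * x ^ 4 + 37 * x ^ 3 + 77 * x ^ 2 + 78 * x + 30 := by positivity
  linarith

theorem num4 (m k : ℕ) {q G : ℝ} (hq : 0 < q) (hG : G ≤ 2 ^ m) :
    ((k : ℝ) + 3) * 2 ^ (m * k) / q * G + 1 / q ≤
      (((k + 1 : ℕ) : ℝ) + 3) * 2 ^ (m * (k + 1)) / q := by
  have e2 : (0 : ℝ) ≤ ((k : ℝ) + 3) * 2 ^ (m * k) / q := by positivity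
  have e3 : (1 : ℝ) ≤ 2 ^ (m * (k + 1)) := one_le_pow₀ (by norm_num)
  calc ((k : ℝ) + 3) * 2 ^ (m * k) / q * G + 1 / q
      ≤ ((k : ℝ) + 3) * 2 ^ (m * k) / q * 2 ^ m + 2 ^ (m * (k + 1)) / q :=
        add_le_add (mul_le_mul_of_nonneg_left hG e2) (div_le_div_of_nonneg_right e3 hq.le)
    _ = (((k + 1 : ℕ) : ℝ) + 3) * 2 ^ (m * (k + 1)) / q := by
        push_cast
        rw [mul_add m k 1, mul_one, pow_add]
        ring

theorem num5 {c : ℕ} (hc : 0 < c) (m : ℕ) :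
    (1 + 52 * ((m : ℝ) + 1) ^ 4 / (1 / (2 * (c : ℝ))) ^ 2) =
        1 + 208 * (c : ℝ) ^ 2 * ((m : ℝ) + 1) ^ 4 := by
  have hc' : (0 : ℝ) < c := by exact_mod_cast hc
  field_simp
  ring

theorem num6 {c : ℕ} {B q m : ℝ} (hq : 1 ≤ q)
    (h : (m + 1) + 6 * (m + 1) ^ 3 / (1 / (2 * (c : ℝ))) + 1 ≤ (m + 2) ^ 5)
    (hB : B = (m + 2) ^ 5 * q) :
    q * ((m + 1) + 6 * (m + 1) ^ 3 / (1 / (2 * (c : ℝ)))) + 1 ≤ B := by
  rw [hB]
  generalize 6 * (m + 1) ^ 3 / (1 / (2 * (c : ℝ))) = X at *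
  nlinarith

/-- One step of the greedy algorithm. -/
theorem greedy_step {n d c k : ℕ} {V : List ℕ → ℤ → St → ℤ} {q B : ℤ} {e e' Mx η w T : ℝ}
    {s : St} {σ : RSt (Fin (n * d))} {Φ' : RSt (Fin (n * d)) → ℝ} (h : Rel n d q e s σ)
    (hq : 0 < q) (hc : 0 < c) (hr : Reach (vertF n d) (start (vertF n d) d) k σ)
    (hM0 : 0 ≤ Mx) (hM : ∀ i j, |σ.Zp i j| ≤ Mx ∧ |σ.Zm i j| ≤ Mx) (he1 : e ≤ 1)
    (heR : 6 * e * (Mx + 1) ≤ 1 / (2 * c))
    (hB : (q : ℝ) * ((Mx + 1) + 6 * (Mx + 1) ^ 3 / (1 / (2 * c))) + 1 ≤ B)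
    (he' : e * (1 + 52 * (Mx + 1) ^ 4 / (1 / (2 * c)) ^ 2) + 1 / q ≤ e')
    {x₀ y₀ : Fin (n * d)} (hxy : σ.Adm (vertF n d) (2 / c) x₀ y₀)
    (hT : Φ' (σ.join x₀ y₀) ≤ T) (hw : 0 < w)
    (hV : ∀ s' σ', Reach (vertF n d) (start (vertF n d) d) (k + 1) σ' → Rel n d q e' s' σ' →
      (∀ i j, |σ'.Zp i j| ≤ (Mx + 1) + 6 * (Mx + 1) ^ 3 / (1 / (2 * c)) ∧
        |σ'.Zm i j| ≤ (Mx + 1) + 6 * (Mx + 1) ^ 3 / (1 / (2 * c))) →
      |(V (List.range (n * d)) q s' : ℝ) / w - Φ' σ'| ≤ η) :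
    ∃ σ', Reach (vertF n d) (start (vertF n d) d) (k + 1) σ' ∧ Φ' σ' ≤ T + 2 * η ∧
      Rel n d q e' (gstep V d c q B (List.range (n * d)) s) σ' := by
  have hc' : (0 : ℝ) < c := by exact_mod_cast hc
  have hc1 : (1 : ℝ) ≤ c := by exact_mod_cast hc
  have hg : (0 : ℝ) < 1 / (2 * c) := by positivity
  have hg1 : (1 : ℝ) / (2 * c) ≤ 1 := by
    rw [div_le_one (by positivity)]; linarith
  have hR : (1 : ℝ) ≤ Mx + 1 := by linarith
  have hZp : ∀ i j, |σ.Zp i j| + e ≤ Mx + 1 := fun i j => add_le_add (hM i j).1 he1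
  have hZm : ∀ i j, |σ.Zm i j| + e ≤ Mx + 1 := fun i j => add_le_add (hM i j).2 he1
  obtain ⟨hsp, hsm, -, -⟩ := hr.base
  -- the properties of the state after joining a candidate
  have key : ∀ p ∈ cands d c q s, ∃ x y : Fin (n * d), p = (x.val, y.val) ∧
      Reach (vertF n d) (start (vertF n d) d) (k + 1) (σ.join x y) ∧
      Rel n d q e' (TS.join q B (List.range (n * d)) s p) (σ.join x y) ∧
      |(V (List.range (n * d)) q (TS.join q B (List.range (n * d)) s p) : ℝ) / w -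
        Φ' (σ.join x y)| ≤ η := by
    intro p hp
    obtain ⟨x, y, rfl, hadm, h1, h2⟩ := h.cands_adm hq hc hR hZp hZm heR hp
    have hrel : Rel n d q e' (TS.join q B (List.range (n * d)) s (x.val, y.val))
        (σ.join x y) :=
      (h.join hq hR hsp hsm hZp hZm hg hg1 hadm h1 h2 hB).mono he'
    have hreach := hr.succ hg hadm
    refine ⟨x, y, rfl, hreach, hrel, hV _ _ hreach hrel fun i j => ⟨?_, ?_⟩⟩
    · exact abs_upd_le hR (fun i j => (hM i j).1.trans (by linarith)) hsp hg hadm.alp i j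
    · exact abs_upd_le hR (fun i j => (hM i j).2.trans (by linarith)) hsm hg hadm.alm i j
  have hp₀ := h.mem_cands hq hc hR hZp hZm heR hxy
  obtain ⟨hp, hmin⟩ := pick_spec V d c q B (List.range (n * d)) s (List.ne_nil_of_mem hp₀)
  obtain ⟨x, y, hpe, h1, h2, h3⟩ := key _ hp
  obtain ⟨x', y', hpe', -, -, h3'⟩ := key _ hp₀
  obtain ⟨rfl, rfl⟩ : x' = x₀ ∧ y' = y₀ := by
    rw [Prod.mk.injEq] at hpe'
    exact ⟨Fin.ext hpe'.1.symm, Fin.ext hpe'.2.symm⟩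
  refine ⟨σ.join x y, h1, ?_, h2⟩
  have h4 : (V (List.range (n * d)) q (TS.join q B (List.range (n * d)) s
      (pick V d c q B (List.range (n * d)) s)) : ℝ) / w ≤ (V (List.range (n * d)) q
      (TS.join q B (List.range (n * d)) s (x'.val, y'.val)) : ℝ) / w := by
    have := hmin _ hp₀
    gcongr
  have h5 := abs_le.1 h3
  have h6 := abs_le.1 h3'
  linarith

/-- The hypotheses for one order `n`; `m = n d`, `K` is the number of steps, `Φ` the potential,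
`V` its rounded version, `b` the bounds of the potential. -/
structure Good (n d c K : ℕ) (V : List ℕ → ℤ → St → ℤ) (W : ℕ → ℝ)
    (Φ : ℕ → RSt (Fin (n * d)) → ℝ) (b : ℕ → ℝ) : Prop where
  hW : ∀ k, 0 < W k
  hA : ∀ k < K, ∀ σ, Reach (vertF n d) (start (vertF n d) d) k σ → ∀ δ : ℝ, 0 ≤ δ →
    δ ≤ (1 / 2) ^ (n * d) → Φ k σ ≤ b k + δ → ∃ x y, σ.Adm (vertF n d) (2 / c) x y ∧
      Φ (k + 1) (σ.join x y) ≤ b (k + 1) + 2 * δ
  hB : ∀ k < K, ∀ σ, Reach (vertF n d) (start (vertF n d) d) k σ →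
    Φ k σ ≤ b k + (1 / 2) ^ (n * d) → ∀ i j, |σ.Zp i j| ≤ (n * d : ℕ) ∧ |σ.Zm i j| ≤ (n * d : ℕ)
  hC : Φ 0 (start (vertF n d) d) ≤ b 0
  hV : ∀ k, 0 < k → k ≤ K → ∀ s σ, Reach (vertF n d) (start (vertF n d) d) k σ →
    Rel n d (scale (List.range (n * d))) ((1 / 2) ^ (30 * (n * d + 2) ^ 2)) s σ →
    (∀ i j, |σ.Zp i j| ≤ (((n * d : ℕ) : ℝ) + 2) ^ 5 ∧
      |σ.Zm i j| ≤ (((n * d : ℕ) : ℝ) + 2) ^ 5) →
    |(V (List.range (n * d)) (scale (List.range (n * d))) s : ℝ) / W k - Φ k σ| ≤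
      (1 / 2) ^ (2 * (n * d))

theorem run_succ' (V : List ℕ → ℤ → St → ℤ) (d c : ℕ) (R : List ℕ) (k : ℕ) :
    run V d c R (k + 1) = gstep V d c (scale R) (bnd R) R (run V d c R k) := by
  unfold run
  rw [iterate_succ_apply']

/-- The induction of `run_correct`. -/
theorem run_main {n d c K : ℕ} {V : List ℕ → ℤ → St → ℤ} {W : ℕ → ℝ} {q B : ℤ} {E : ℝ}
    {s : ℕ → St}
    {Φ : ℕ → RSt (Fin (n * d)) → ℝ} {b : ℕ → ℝ} (hc : 0 < c)
    (hcm : 12 * c ≤ n * d) (hm1 : 1 ≤ n * d)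
    (hm : 1 + 208 * (c : ℝ) ^ 2 * (((n * d : ℕ) : ℝ) + 1) ^ 4 ≤ 2 ^ (n * d))
    (hK : 2 * K ≤ n * d) (hW : ∀ k, 0 < W k)
    (hA : ∀ k < K, ∀ σ, Reach (vertF n d) (start (vertF n d) d) k σ → ∀ δ : ℝ, 0 ≤ δ →
      δ ≤ (1 / 2) ^ (n * d) → Φ k σ ≤ b k + δ → ∃ x y, σ.Adm (vertF n d) (2 / c) x y ∧
        Φ (k + 1) (σ.join x y) ≤ b (k + 1) + 2 * δ)
    (hB : ∀ k < K, ∀ σ, Reach (vertF n d) (start (vertF n d) d) k σ →
      Φ k σ ≤ b k + (1 / 2) ^ (n * d) →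
        ∀ i j, |σ.Zp i j| ≤ (n * d : ℕ) ∧ |σ.Zm i j| ≤ (n * d : ℕ))
    (hC : Φ 0 (start (vertF n d) d) ≤ b 0)
    (hV : ∀ k, 0 < k → k ≤ K → ∀ s σ, Reach (vertF n d) (start (vertF n d) d) k σ →
      Rel n d q E s σ →
      (∀ i j, |σ.Zp i j| ≤ (((n * d : ℕ) : ℝ) + 2) ^ 5 ∧
        |σ.Zm i j| ≤ (((n * d : ℕ) : ℝ) + 2) ^ 5) →
      |(V (List.range (n * d)) q s : ℝ) / W k - Φ k σ| ≤ (1 / 2) ^ (2 * (n * d)))
    (hq : 0 < q) (hE1 : E ≤ 1) (hE2 : 6 * E * (((n * d : ℕ) : ℝ) + 1) ≤ 1 / (2 * c))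
    (hbnd : (B : ℝ) = (((n * d : ℕ) : ℝ) + 2) ^ 5 * q)
    (hek : ∀ k ≤ K, ((k : ℝ) + 3) * 2 ^ (n * d * k) / q ≤ E)
    (h0 : Rel n d q (3 / q) (s 0) (start (vertF n d) d))
    (hs : ∀ k, s (k + 1) = gstep V d c q B (List.range (n * d)) (s k)) :
    ∀ k ≤ K, ∃ σ, Reach (vertF n d) (start (vertF n d) d) k σ ∧
      Φ k σ ≤ b k + (2 ^ (k + 1) - 2) * (1 / 2) ^ (2 * (n * d)) ∧
      Rel n d q (((k : ℝ) + 3) * 2 ^ (n * d * k) / q) (s k) σ := by
  have hq' : (0 : ℝ) < q := by exact_mod_cast hq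
  have hq1 : (1 : ℝ) ≤ q := by exact_mod_cast hq
  have hm0 : (0 : ℝ) ≤ ((n * d : ℕ) : ℝ) := Nat.cast_nonneg _
  have hn3 := num3 (m := n * d) (c := c) hcm
  intro k
  induction k with
  | zero =>
    intro _
    exact ⟨_, Reach.zero, by simpa using hC, h0.mono (by simp)⟩
  | succ k ih =>
    intro hk
    obtain ⟨σ, h1, h2, h3⟩ := ih (by omega)
    have hkK : k < K := hk
    have h2k : (2 : ℝ) ≤ 2 ^ (k + 1) := by
      have : (2 : ℝ) ^ 1 ≤ 2 ^ (k + 1) := pow_le_pow_right₀ (by norm_num) (by omega)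
      simpa using this
    have hp0 : (0 : ℝ) ≤ (1 / 2) ^ (2 * (n * d)) := by positivity
    obtain ⟨δ, hδ⟩ : ∃ δ : ℝ, δ = (2 ^ (k + 1) - 2) * (1 / 2) ^ (2 * (n * d)) := ⟨_, rfl⟩
    have hδ0 : 0 ≤ δ := hδ ▸ mul_nonneg (by linarith) hp0
    have hδ1 : δ ≤ (1 / 2) ^ (n * d) := by
      have h5 : (2 : ℝ) ^ (k + 1) ≤ 2 ^ (n * d) := pow_le_pow_right₀ (by norm_num) (by omega)
      calc δ ≤ 2 ^ (n * d) * (1 / 2) ^ (2 * (n * d)) := by
            rw [hδ]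
            exact mul_le_mul_of_nonneg_right (by linarith) hp0
        _ = (1 / 2) ^ (n * d) := by
            rw [two_mul, pow_add, ← mul_assoc, ← mul_pow]
            norm_num
    rw [← hδ] at h2
    obtain ⟨x, y, hxy, hΦ⟩ := hA k hkK σ h1 δ hδ0 hδ1 h2
    have hMx := hB k hkK σ h1 (h2.trans (by linarith))
    have he := hek k (by omega)
    have g1 : 6 * (((k : ℝ) + 3) * 2 ^ (n * d * k) / q) * (((n * d : ℕ) : ℝ) + 1) ≤
        1 / (2 * c) := by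
      refine le_trans ?_ hE2
      exact mul_le_mul_of_nonneg_right (mul_le_mul_of_nonneg_left he (by norm_num))
        (by linarith)
    have g2 := num6 (c := c) (B := (B : ℝ)) hq1 hn3 hbnd
    have g3 := num4 (n * d) k hq' hm
    rw [← num5 hc (n * d)] at g3
    obtain ⟨σ', f1, f2, f3⟩ := greedy_step h3 hq hc h1 hm0 hMx (he.trans hE1) g1 g2 g3 hxy hΦ
      (hW (k + 1)) fun s' σ' hr' hrel' hb' => hV (k + 1) (by omega) hk s' σ' hr'
        (hrel'.mono (hek (k + 1) hk)) fun i j =>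
          ⟨(hb' i j).1.trans (by linarith), (hb' i j).2.trans (by linarith)⟩
    refine ⟨σ', f1, f2.trans ?_, ?_⟩
    · rw [hδ]
      have h6 : (2 : ℝ) ^ (k + 1 + 1) = 2 * 2 ^ (k + 1) := by rw [pow_succ]; ring
      rw [h6]
      apply le_of_eq
      ring
    · rw [hs]
      exact f3

/-- The run of the algorithm follows a run of the real process with small potential. -/
theorem run_correct {n d c K : ℕ} {V : List ℕ → ℤ → St → ℤ} {W : ℕ → ℝ}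
    {Φ : ℕ → RSt (Fin (n * d)) → ℝ} {b : ℕ → ℝ} (hd : 3 ≤ d) (hn : 0 < n) (hc : 0 < c)
    (hcm : 12 * c ≤ n * d)
    (hm : 1 + 208 * (c : ℝ) ^ 2 * (((n * d : ℕ) : ℝ) + 1) ^ 4 ≤ 2 ^ (n * d))
    (hK : 2 * K ≤ n * d) (G : Good n d c K V W Φ b) :
    ∃ σ, Reach (vertF n d) (start (vertF n d) d) K σ ∧
      Φ K σ ≤ b K + (1 / 2) ^ (n * d) ∧
      Rel n d (scale (List.range (n * d))) ((1 / 2) ^ (30 * (n * d + 2) ^ 2))
        (run V d c (List.range (n * d)) K) σ := by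
  have hl : (List.range (n * d)).length = n * d := List.length_range
  have hscale : scale (List.range (n * d)) = 2 ^ (40 * (n * d + 2) ^ 2) := by
    unfold scale bits
    rw [hl]
  have hbnd : (bnd (List.range (n * d)) : ℝ) =
      (((n * d : ℕ) : ℝ) + 2) ^ 5 * (scale (List.range (n * d)) : ℤ) := by
    unfold bnd
    rw [hl]
    push_cast
    rfl
  have hqr : ((scale (List.range (n * d)) : ℤ) : ℝ) = 2 ^ (40 * (n * d + 2) ^ 2) := by
    rw [hscale]; push_cast; rfl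
  have hrun0 : run V d c (List.range (n * d)) 0 = init d (rootL (d - 1)
      (40 * (n * d + 2) ^ 2)) (2 ^ (40 * (n * d + 2) ^ 2)) (List.range (n * d)) := by
    unfold run bits
    rw [hl, hscale]
    rfl
  have hm1 : 1 ≤ n * d := Nat.mul_pos hn (by omega)
  have hinit : Rel n d (scale (List.range (n * d))) (3 / (scale (List.range (n * d)) : ℤ))
      (run V d c (List.range (n * d)) 0) (start (vertF n d) d) := by
    rw [hrun0, hqr, hscale]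
    exact init_rel hd hn (40 * (n * d + 2) ^ 2)
  obtain ⟨σ, h1, h2, h3⟩ := run_main (s := fun k => run V d c (List.range (n * d)) k) hc hcm hm1
    hm hK G.hW G.hA G.hB G.hC G.hV (by rw [hscale]; exact pow_pos (by norm_num) _)
    (pow_le_one₀ (by norm_num) (by norm_num)) (num2 hc hcm) hbnd
    (fun k hk => by rw [hqr]; exact num1 hK hk) hinit (fun k => run_succ' V d c _ k) K le_rfl
  refine ⟨σ, h1, h2.trans ?_, h3.mono (by rw [hqr]; exact num1 hK le_rfl)⟩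
  have h5 : (2 : ℝ) ^ (K + 1) ≤ 2 ^ (n * d) := pow_le_pow_right₀ (by norm_num) (by omega)
  have h4 : (2 ^ (K + 1) - 2) * (1 / 2 : ℝ) ^ (2 * (n * d)) ≤ (1 / 2) ^ (n * d) := by
    calc (2 ^ (K + 1) - 2) * (1 / 2 : ℝ) ^ (2 * (n * d))
        ≤ 2 ^ (n * d) * (1 / 2) ^ (2 * (n * d)) :=
          mul_le_mul_of_nonneg_right (by linarith) (by positivity)
      _ = (1 / 2) ^ (n * d) := by
          rw [two_mul, pow_add, ← mul_assoc, ← mul_pow]
          norm_num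
  linarith

end Vale.Agent.P049.TS
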