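import Vale.Agent.P049.TS.Alg.VB
import Vale.Agent.P049.TS.Alg.FinalU
import Vale.Agent.P049.TS.Asm.Glue

/-!
The whole problem reduced to the four phases `PhiA`, `PhiC`, `PhiB`, `PhiF`.
-/

open Function Vale.Agent.Lib.PolyTime

namespace Vale.Agent.P049.TS

open Asm (k1 k2 k3 k4 k5 PhiA PhiB PhiC PhiF glue Ev Phase)

/-- the fixed point version of the potential of all phases -/
def UU (d n : ℕ) (q _r : ℤ) (k : ℕ) (v : List ℤ × List ℤ × ℤ) : ℤ :=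
  if k < k2 n d then PhiAI n d q k v else
    if k < k3 n d then PhiCI n d q k v else
      if k < k4 n d then PhiBI n d q k v else PhiFI n d q k v

theorem ptU_UU (d : ℕ) : PTU (UU d) := fun α _ n k q _ v hn hq _ hk hv =>
  PT.ite (p := fun a => k a < k2 (n a) d) (PT.lt hk (pt_k2 hn d)) (pt_PhiAI hn d hq hk hv)
    (PT.ite (p := fun a => k a < k3 (n a) d) (PT.lt hk (pt_k3 hn d)) (pt_PhiCI hn d hq hk hv)
      (PT.ite (p := fun a => k a < k4 (n a) d) (PT.lt hk (pt_k4 hn d)) (pt_PhiBI hn d hq hk hv)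
        (pt_PhiFI hn d hq hk hv)))

/-- the potential of all phases -/
noncomputable def PhiG (d n : ℕ) : ℕ → RSt (Fin (n * d)) → ℝ :=
  glue (k2 n d) (k3 n d) (k4 n d) (fun k σ => PhiA n d k σ) (fun k σ => PhiC n d k σ)
    (fun k σ => PhiB n d k σ) (fun k σ => PhiF n d k σ)

theorem nice_UU {n d : ℕ} {q r : ℤ} {e P : ℝ} {k : ℕ} (h : NB n d q r e P)
    (hk : 2 * k < n * d) (hk1 : 2 * k1 n d < n * d) {v : List ℤ × List ℤ × ℤ}
    {σ : RSt (Fin (n * d))} (h1 : ValsOK q e P v.1 σ.F σ.Zp)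
    (h2 : ValsOK q e P v.2.1 σ.F σ.Zm)
    (h3 : Nice q e P 28 v.2.2 (σ.Zp ^ 2 * σ.Zm ^ 2).trace) :
    Nice q e P 80 (UU d n q r k v) (PhiG d n k σ) :=
  Nice.ite (nice_PhiAI h hk hk1 h1 h2 h3) (Nice.ite (nice_PhiCI h hk h1 h2)
    (Nice.ite (nice_PhiBI h hk h1 h2) (nice_PhiFI h hk h1 h2)))

/-- **The problem reduced to the four phases.** -/
theorem final_phases {d : ℕ} (hd : 3 ≤ d) {b₁ b₂ b₃ b₄ : ℝ}
    (hk : Ev d fun n => k2 n d ≤ k3 n d ∧ k3 n d ≤ k4 n d ∧ k4 n d ≤ k5 n d)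
    (P₁ : Ev d fun n => ∃ r, Phase n d 0 (k2 n d) (fun k σ => PhiA n d k σ) b₁ r)
    (P₂ : Ev d fun n => ∃ r, Phase n d (k2 n d) (k3 n d) (fun k σ => PhiC n d k σ) b₂ r)
    (P₃ : Ev d fun n => ∃ r, Phase n d (k3 n d) (k4 n d) (fun k σ => PhiB n d k σ) b₃ r)
    (P₄ : Ev d fun n => ∃ r, Phase n d (k4 n d) (k5 n d) (fun k σ => PhiF n d k σ) b₄ r)
    (h₀ : Ev d fun n => PhiA n d 0 (start (vertF n d) d) ≤ b₁)
    (h₁₂ : Ev d fun n => ∀ σ, Reach (vertF n d) (start (vertF n d) d) (k2 n d) σ →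
      PhiA n d (k2 n d) σ ≤ 1 → PhiC n d (k2 n d) σ ≤ b₂)
    (h₂₃ : Ev d fun n => ∀ σ, Reach (vertF n d) (start (vertF n d) d) (k3 n d) σ →
      PhiC n d (k3 n d) σ ≤ 1 → PhiB n d (k3 n d) σ ≤ b₃)
    (h₃₄ : Ev d fun n => ∀ σ, Reach (vertF n d) (start (vertF n d) d) (k4 n d) σ →
      PhiB n d (k4 n d) σ ≤ 1 → PhiF n d (k4 n d) σ ≤ b₄)
    (hfin : Ev d fun n => ∀ σ, Reach (vertF n d) (start (vertF n d) d) (k5 n d) σ →
      PhiF n d (k5 n d) σ ≤ 1 → (σ.Zp ^ 2).trace ≤ 2 ∧ (σ.Zm ^ 2).trace ≤ 2) :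
    ∃ f : ℕ → List Bool,
      (∃ M : Turing.TM2ComputableInPolyTime (fun n : ℕ => List.replicate n true)
        (id : List Bool → List Bool) f, ∀ k, Finite (M.tm.Γ k)) ∧
      ∃ n₁ : ℕ, ∀ n : ℕ, n₁ ≤ n → Even (d * n) →
        ∃ (G : SimpleGraph (Fin n)) (_ : DecidableRel G.Adj),
          IsRamanujanUpTo d 0 G ∧
          f n = (List.ofFn fun i : Fin n => List.ofFn fun j : Fin n =>
            decide (G.Adj i j)).flatten := by
  obtain ⟨n₀, b, hb⟩ := Asm.glue4 (d := d) (fun n k σ => PhiA n d k σ) (fun n k σ => PhiC n d k σ)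
    (fun n k σ => PhiB n d k σ) (fun n k σ => PhiF n d k σ) (fun n => k2 n d) (fun n => k3 n d)
    (fun n => k4 n d) (fun n => k5 n d) (by omega) hk P₁ P₂ P₃ P₄ h₀ h₁₂ h₂₃ h₃₄ hfin
  obtain ⟨n₂, hn₂⟩ := (Ev.of_sR (d := d) 2).exists
  have h0 : ∀ n ≥ n₀ + n₂, Even (d * n) → 2 ≤ sR n := fun n hn he => hn₂ n (by omega) he
  refine final_U (n₀ := n₀ + n₂) (k₀ := 80) (c := 4) (ex := 341) hd (by norm_num) (by norm_num)
    (by norm_num) (ptU_UU d) (PhiG d) b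
    (fun n hn he => (hb n (by omega) he).1) (fun n hn he => (hb n (by omega) he).2.1)
    (fun n hn he => (hb n (by omega) he).2.2.1) ?_
    (fun n hn he => (hb n (by omega) he).2.2.2)
  intro n hn he k hk0 hk q r e P v σ hNB _ g1 g2 g3
  have hs := h0 n hn he
  have h341 : 1 ≤ sR n ^ 341 := Nat.one_le_pow _ _ (by omega)
  have h802 : 2 ≤ sR n ^ 802 := hs.trans (Nat.le_self_pow (by norm_num) _)
  have h1 := sR_pow_le' (n := n) (by have := hNB.hn; omega) (j := 341) (by norm_num)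
  have h2 := sR_pow_le' (n := n) (by have := hNB.hn; omega) (j := 802) (by norm_num)
  have h3 : n ≤ n * d := Nat.le_mul_of_pos_right _ (by omega)
  refine nice_UU hNB (by omega) ?_ g1 g2 g3
  unfold Asm.k1
  omega

end Vale.Agent.P049.TS
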