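import Vale.Agent.P049.TS.Alg.Fun
import Vale.Agent.P049.TS.Asm.Par

/-!
The fixed point version of the potential `PhiA`.
-/

namespace Vale.Agent.P049.TS

open Asm (k1 k2)

/-- the number of free stubs after `k` joins -/
def Nn (n d k : ℕ) : ℕ := n * d - 2 * k

/-- the order -/
def nOf (d : ℕ) (R : List ℕ) : ℕ := R.length / d

/-- the number of steps done -/
def kOf (R : List ℕ) (s : St) : ℕ := (R.length - s.1.length) / 2

/-- `1 / D` -/
def invI (q : ℤ) (D : ℕ) : ℤ := q / D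

/-- a natural number -/
def natI (q : ℤ) (c : ℕ) : ℤ := c * q

/-- the fixed point version of `kap` -/
def kapI (n d : ℕ) (q : ℤ) : ℤ := natI q (Asm.kapN n d)

/-- the fixed point version of `lam kap (1 / N_k - 1 / N_0)` -/
def kickI (n d : ℕ) (q : ℤ) (k : ℕ) : ℤ :=
  fmul q ((sR n ^ 186 : ℕ) * kapI n d q) (invI q (Nn n d k) - invI q (Nn n d 0))

/-- target of `T₁` -/
def t1I (n d : ℕ) (q : ℤ) (k : ℕ) : ℤ := -(kickI n d q (min k (k1 n d)))

/-- target of `D` -/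
def tDI (n d : ℕ) (q : ℤ) (k : ℕ) : ℤ :=
  -(fmul q (fmul q ((2 : ℕ) * kickI n d q (k1 n d)) (kapI n d q))
    (invI q (Nn n d (max k (k1 n d))) - invI q (Nn n d (k1 n d))))

/-- square -/
def sqI (q x : ℤ) : ℤ := fmul q x x

/-- the sign `+` or `-` of a number -/
def sgI (b : Bool) (x : ℤ) : ℤ := if b then x else -x

/-- one of two natural numbers -/
def iteN (n d k x y : ℕ) : ℕ := if k < k1 n d then x else y

/-- the potentials of one sign, `v` = the values -/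
def fOneI (n d : ℕ) (q : ℤ) (k : ℕ) (b : Bool) (v : List ℤ) : ℤ :=
  sqI q (sgI b (v.getD 0 0) - t1I n d q k) / (sR n ^ 754 : ℕ) +
  sqI q (v.getD 1 0 - natI q (Nn n d k) - tDI n d q k) / (sR n ^ 1366 : ℕ) +
  sqI q (sgI b (v.getD 2 0) - kapI n d q) /
    (iteN n d k (sR n ^ 1900) (sR n ^ 1986) : ℕ) +
  (Nn n d k * v.getD 3 0) / (sR n ^ 2003 : ℕ) +
  v.getD 5 0 / (iteN n d k (sR n ^ 610) (sR n ^ 690) : ℕ) +
  v.getD 4 0 / (sR n ^ 80 : ℕ)

/-- the fixed point version of `fW` -/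
def fWI (n d k : ℕ) (w : ℤ) : ℤ :=
  if k < k1 n d then w / (sR n ^ 60 * Nn n d k : ℕ) else 0

/-- the fixed point version of `PhiA` -/
def PhiAI (n d : ℕ) (q : ℤ) (k : ℕ) (v : List ℤ × List ℤ × ℤ) : ℤ :=
  fOneI n d q k true v.1 + fOneI n d q k false v.2.1 + fWI n d k v.2.2

end Vale.Agent.P049.TS
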