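import Vale.Agent.P049.TS.Alg.VC
import Vale.Agent.P049.TS.Asm.ParB

/-!
The fixed point version of the potential `PhiB` of the phase IIIb.
-/

open Function Vale.Agent.Lib.PolyTime

namespace Vale.Agent.P049.TS

open Asm (Nk)

/-- fixed point version of `g1B` -/
def g1BI (n d : ℕ) (q : ℤ) (k : ℕ) (x : ℤ) : ℤ :=
  sqI q (posI (ratI (32 * sR n ^ 315) x (Nn n d k) + natI q 2))

/-- the potentials of one sign -/
def fOneBI (n d : ℕ) (q : ℤ) (k : ℕ) (b : Bool) (v : List ℤ) : ℤ :=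
  g1BI n d q k (sgI b (v.getD 0 0)) +
  ratI (sR n ^ 590) (sqI q (v.getD 0 0)) (Nn n d k ^ 2) +
  ratI (sR n ^ 684) (v.getD 1 0 - q) (Nn n d k ^ 2) +
  ratI (sR n ^ 1393) (v.getD 3 0) (Nn n d k ^ 4) +
  ratI (sR n ^ 669) (v.getD 6 0) (Nn n d k ^ 2) +
  ratI (sR n ^ 574) (v.getD 4 0) (Nn n d k)

/-- the fixed point version of `PhiB` -/
def PhiBI (n d : ℕ) (q : ℤ) (k : ℕ) (v : List ℤ × List ℤ × ℤ) : ℤ :=
  fOneBI n d q k true v.1 + fOneBI n d q k false v.2.1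

section

variable {A : Set Word} {α : Type*} [Enc α] {n k : α → ℕ} {q : α → ℤ}

theorem pt_k4 (hn : NPT A n) (d : ℕ) : PT A (fun a => Asm.k4 (n a) d) := pt_kN hn d 530

theorem pt_fOneBI (hn : NPT A n) (d : ℕ) (hq : PT A q) (hk : PT A k) (b : Bool)
    {v : α → List ℤ} (hv : PT A v) :
    PT A (fun a => fOneBI (n a) d (q a) (k a) b (v a)) := by
  have hg : ∀ i : ℕ, PT A (fun a => (v a).getD i 0) := fun i =>
    PT.getD hv (PT.const i) (PT.const 0)
  have hN := pt_Nn hn d hk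
  have hN2 : PT A (fun a => Nn (n a) d (k a) ^ 2) := PT.powConst hN 2
  have hN4 : PT A (fun a => Nn (n a) d (k a) ^ 4) := PT.powConst hN 4
  have p1 : PT A (fun a => g1BI (n a) d (q a) (k a) (sgI b ((v a).getD 0 0))) :=
    pt_sqI hq (pt_posI (PT.intAdd (pt_ratI ((PT.const 32).mul (pt_sRpow hn 315))
      (pt_sgI b (hg 0)) hN) (pt_natI hq (PT.const 2))))
  unfold fOneBI
  exact PT.intAdd (PT.intAdd (PT.intAdd (PT.intAdd (PT.intAdd p1
    (pt_ratI (pt_sRpow hn 590) (pt_sqI hq (hg 0)) hN2))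
    (pt_ratI (pt_sRpow hn 684) (PT.intSub (hg 1) hq) hN2))
    (pt_ratI (pt_sRpow hn 1393) (hg 3) hN4))
    (pt_ratI (pt_sRpow hn 669) (hg 6) hN2))
    (pt_ratI (pt_sRpow hn 574) (hg 4) hN)

theorem pt_PhiBI (hn : NPT A n) (d : ℕ) (hq : PT A q) (hk : PT A k)
    {v : α → List ℤ × List ℤ × ℤ} (hv : PT A v) :
    PT A (fun a => PhiBI (n a) d (q a) (k a) (v a)) :=
  PT.intAdd (pt_fOneBI hn d hq hk true hv.fst) (pt_fOneBI hn d hq hk false hv.snd.fst)

end

section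

variable {n d : ℕ} {q r : ℤ} {e P : ℝ} {k : ℕ}

/-- powers of `σ` up to `σ^2000` -/
theorem NB.sR_le2 (h : NB n d q r e P) {i j : ℕ} (hi : i ≤ 1000) (hj : j ≤ 1000) :
    ((sR n ^ (i + j) : ℕ) : ℝ) ≤ P ^ 2 := by
  rw [pow_add]
  exact mul_cast_le (h.sR_le hi) (h.sR_le hj)

theorem nice_g1BI (h : NB n d q r e P) (hk : 2 * k < n * d) {x : ℤ} {ε X : ℝ}
    (hx : Nice q e P 28 x (ε * X)) :
    Nice q e P 69 (g1BI n d q k x) ((max (ε * X / Asm.rhoB n d k + 2) 0) ^ 2) := by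
  have hN : 0 < Nn n d k := by unfold Nn; omega
  have h2 : ((32 * sR n ^ 315 : ℕ) : ℝ) ≤ P ^ (3 + 1) :=
    mul_cast_le (h.np.num_le (by norm_num)) (h.sR_le (by norm_num))
  have h1 := nice_ratI h.np (D := Nn n d k) (C := 32 * (sR n : ℝ) ^ 315) (Y := Nk n d k)
    h2 hN (by push_cast; rfl) (Nk_eq_Nn hk.le).symm hx
  have e1 : ε * X * (32 * (sR n : ℝ) ^ 315) / Nk n d k = ε * X / Asm.rhoB n d k := by
    unfold Asm.rhoB
    rw [div_div_eq_mul_div]
  rw [e1] at h1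
  have h3 : Nice q e P 1 (natI q 2) 2 := by
    have := Nice.nat h.np h.two_le
    rw [show ((2 : ℕ) : ℝ) = 2 by norm_num] at this
    exact this
  exact nice_sqI (k := 34) h.np (((h1.add' h.np h3).mono h.np (by norm_num)).pos h.np)

theorem nice_fOneBI (h : NB n d q r e P) (hk : 2 * k < n * d)
    {ι : Type*} [Fintype ι] [DecidableEq ι] {v : List ℤ} {F : Finset ι} {Z : Matrix ι ι ℝ}
    (hv : ValsOK q e P v F Z) (b : Bool) :
    Nice q e P 78 (fOneBI n d q k b v) (Asm.fOneB n d k (if b then (1 : ℝ) else -1) F Z) := by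
  have np := h.np
  have hN : 0 < Nn n d k := by unfold Nn; omega
  have hN2 : ((Nn n d k ^ 2 : ℕ) : ℝ) = Nk n d k ^ 2 := by
    rw [Nk_eq_Nn hk.le]; push_cast; rfl
  have hN4 : ((Nn n d k ^ 4 : ℕ) : ℝ) = Nk n d k ^ 4 := by
    rw [Nk_eq_Nn hk.le]; push_cast; rfl
  have g1 := nice_g1BI h hk (nice_sgI b hv.T1)
  have g2 : Nice q e P 59 (ratI (sR n ^ 590) (sqI q (v.getD 0 0)) (Nn n d k ^ 2))
      (Asm.g2B n d k Z) :=
    nice_ratI np (h.sR_le (by norm_num)) (by positivity) (by push_cast; rfl) hN2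
      (nice_sqI np hv.T1)
  have g3 : Nice q e P 31 (ratI (sR n ^ 684) (v.getD 1 0 - q) (Nn n d k ^ 2))
      (Asm.gFB n d k Z) :=
    nice_ratI np (h.sR_le (by norm_num)) (by positivity) (by push_cast; rfl) hN2
      (hv.T2.sub' np (Nice.one np))
  have g4 : Nice q e P 31 (ratI (sR n ^ 1393) (v.getD 3 0) (Nn n d k ^ 4))
      (Asm.g4B n d k Z) :=
    nice_ratI np (h.sR_le2 (i := 700) (j := 693) (by norm_num) (by norm_num)) (by positivity)
      (by push_cast; rfl) hN4 hv.T4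
  have g5 : Nice q e P 30 (ratI (sR n ^ 669) (v.getD 6 0) (Nn n d k ^ 2))
      (Asm.g5B n d k F Z) :=
    nice_ratI np (h.sR_le (by norm_num)) (by positivity) (by push_cast; rfl) hN2 hv.V2
  have g6 : Nice q e P 30 (ratI (sR n ^ 574) (v.getD 4 0) (Nn n d k)) (Asm.g6B n d k F Z) :=
    nice_ratI np (h.sR_le (by norm_num)) hN (by push_cast; rfl) (Nk_eq_Nn hk.le).symm hv.S
  unfold fOneBI Asm.fOneB
  exact (((((g1.add' np g2).add' np g3).add' np g4).add' np g5).add' np g6).mono np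
    (by norm_num)

/-- The fixed point version of `PhiB` approximates `PhiB`. -/
theorem nice_PhiBI {n d : ℕ} {q r : ℤ} {e P : ℝ} {k : ℕ} (h : NB n d q r e P)
    (hk : 2 * k < n * d) {v : List ℤ × List ℤ × ℤ}
    {σ : RSt (Fin (n * d))} (h1 : ValsOK q e P v.1 σ.F σ.Zp)
    (h2 : ValsOK q e P v.2.1 σ.F σ.Zm) :
    Nice q e P 80 (PhiBI n d q k v) (Asm.PhiB n d k σ) := by
  have g1 := nice_fOneBI h hk h1 true
  have g2 := nice_fOneBI h hk h2 false
  have e1 : (if true then (1 : ℝ) else -1) = 1 := by simp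
  have e2 : (if false then (1 : ℝ) else -1) = -1 := by simp
  rw [e1] at g1
  rw [e2] at g2
  exact (g1.add' h.np g2).mono h.np (by norm_num)

end

end Vale.Agent.P049.TS
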