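import Vale.Agent.P049.TS.Alg.Pos
import Vale.Agent.P049.TS.Asm.ParC

/-!
The fixed point version of the potential `PhiC` of the phase IIIa.
-/

open Function Vale.Agent.Lib.PolyTime

namespace Vale.Agent.P049.TS

open Asm (Nk)

/-- fixed point version of `rhoC` -/
def rhoCI (n d : ℕ) (q : ℤ) (k : ℕ) : ℤ := natI q (Nn n d k) / (8 * sR n ^ 315 : ℕ)

/-- `C = σ^685` -/
def CN (n : ℕ) : ℕ := sR n ^ 685

/-- fixed point version of `A1c` -/
def A1cI (n d : ℕ) (q : ℤ) (k : ℕ) (x : ℤ) : ℤ :=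
  posSqI q (64 * sR n ^ 630) (x + (2 : ℕ) * rhoCI n d q k) (Nn n d k ^ 2)

/-- fixed point version of `A2c` -/
def A2cI (n d : ℕ) (q x : ℤ) : ℤ :=
  sqI q (posI (-x - natI q (5 * d ^ 2 * sR n ^ 384))) / (sR n ^ 768 : ℕ)

/-- fixed point version of `AFc` -/
def AFcI (n d : ℕ) (q : ℤ) (k : ℕ) (x : ℤ) : ℤ :=
  posSqI q (sR n ^ 10 * (Nn n d k + CN n) ^ 4) (x - q - ratI (Nn n d k ^ 2) q (Nn n d k + CN n))
    (Nn n d k ^ 4 * CN n ^ 2)

/-- fixed point version of `A3c` -/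
def A3cI (n d : ℕ) (q x : ℤ) : ℤ :=
  sqI q (posI (x - natI q (3 * d ^ 2 * sR n ^ 1000))) / (sR n ^ 2000 : ℕ)

/-- the potentials of one sign -/
def cOneI (n d : ℕ) (q : ℤ) (k : ℕ) (b : Bool) (v : List ℤ) : ℤ :=
  A1cI n d q k (sgI b (v.getD 0 0)) + A2cI n d q (sgI b (v.getD 0 0)) +
  AFcI n d q k (v.getD 1 0) + A3cI n d q (sgI b (v.getD 2 0)) +
  ratI (Nn n d k) (v.getD 3 0) (sR n ^ 2004) +
  ratI ((Nn n d k + CN n) ^ 2) (v.getD 6 0) (sR n ^ 700 * Nn n d k ^ 2) +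
  v.getD 4 0 / (sR n ^ 104 : ℕ)

/-- the fixed point version of `PhiC` -/
def PhiCI (n d : ℕ) (q : ℤ) (k : ℕ) (v : List ℤ × List ℤ × ℤ) : ℤ :=
  cOneI n d q k true v.1 + cOneI n d q k false v.2.1

section

variable {A : Set Word} {α : Type*} [Enc α] {n k : α → ℕ} {q : α → ℤ}

theorem pt_k3 (hn : NPT A n) (d : ℕ) : PT A (fun a => Asm.k3 (n a) d) := pt_kN hn d 680

theorem pt_cOneI (hn : NPT A n) (d : ℕ) (hq : PT A q) (hk : PT A k) (b : Bool)
    {v : α → List ℤ} (hv : PT A v) :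
    PT A (fun a => cOneI (n a) d (q a) (k a) b (v a)) := by
  have hg : ∀ i : ℕ, PT A (fun a => (v a).getD i 0) := fun i =>
    PT.getD hv (PT.const i) (PT.const 0)
  have hN := pt_Nn hn d hk
  have hN2 : PT A (fun a => Nn (n a) d (k a) ^ 2) := PT.powConst hN 2
  have hN4 : PT A (fun a => Nn (n a) d (k a) ^ 4) := PT.powConst hN 4
  have hC : PT A (fun a => CN (n a)) := pt_sRpow hn 685
  have hNC : PT A (fun a => Nn (n a) d (k a) + CN (n a)) := hN.add hC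
  have hd2 : PT A (fun _ : α => d ^ 2) := PT.const _
  have p1 : PT A (fun a => A1cI (n a) d (q a) (k a) (sgI b ((v a).getD 0 0))) :=
    pt_posSqI hq ((PT.const 64).mul (pt_sRpow hn 630))
      (PT.intAdd (pt_sgI b (hg 0)) (PT.intMul (PT.const ((2 : ℕ) : ℤ))
        (pt_divN (pt_natI hq hN) ((PT.const 8).mul (pt_sRpow hn 315))))) hN2
  have p2 : PT A (fun a => A2cI (n a) d (q a) (sgI b ((v a).getD 0 0))) :=
    pt_divN (pt_sqI hq (pt_posI (PT.intSub (pt_sgI b (hg 0)).intNeg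
      (pt_natI hq (((PT.const 5).mul hd2).mul (pt_sRpow hn 384)))))) (pt_sRpow hn 768)
  have p3 : PT A (fun a => AFcI (n a) d (q a) (k a) ((v a).getD 1 0)) :=
    pt_posSqI hq ((pt_sRpow hn 10).mul (PT.powConst hNC 4))
      (PT.intSub (PT.intSub (hg 1) hq) (pt_ratI hN2 hq hNC)) (hN4.mul (PT.powConst hC 2))
  have p4 : PT A (fun a => A3cI (n a) d (q a) (sgI b ((v a).getD 2 0))) :=
    pt_divN (pt_sqI hq (pt_posI (PT.intSub (pt_sgI b (hg 2))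
      (pt_natI hq (((PT.const 3).mul hd2).mul (pt_sRpow hn 1000)))))) (pt_sRpow hn 2000)
  unfold cOneI
  exact PT.intAdd (PT.intAdd (PT.intAdd (PT.intAdd (PT.intAdd (PT.intAdd p1 p2) p3) p4)
    (pt_ratI hN (hg 3) (pt_sRpow hn 2004)))
    (pt_ratI (PT.powConst hNC 2) (hg 6) ((pt_sRpow hn 700).mul hN2)))
    (pt_divN (hg 4) (pt_sRpow hn 104))

theorem pt_PhiCI (hn : NPT A n) (d : ℕ) (hq : PT A q) (hk : PT A k)
    {v : α → List ℤ × List ℤ × ℤ} (hv : PT A v) :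
    PT A (fun a => PhiCI (n a) d (q a) (k a) (v a)) :=
  PT.intAdd (pt_cOneI hn d hq hk true hv.fst) (pt_cOneI hn d hq hk false hv.snd.fst)

end

section

variable {n d : ℕ} {q r : ℤ} {e P : ℝ} {k : ℕ}

theorem mul_cast_le {a b i j : ℕ} {P : ℝ} (ha : (a : ℝ) ≤ P ^ i) (hb : (b : ℝ) ≤ P ^ j) :
    ((a * b : ℕ) : ℝ) ≤ P ^ (i + j) := by
  rw [Nat.cast_mul, pow_add]
  exact mul_le_mul ha hb (Nat.cast_nonneg _) ((Nat.cast_nonneg _).trans ha)

theorem pow_cast_le {a i : ℕ} {P : ℝ} (ha : (a : ℝ) ≤ P ^ i) (j : ℕ) :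
    ((a ^ j : ℕ) : ℝ) ≤ P ^ (i * j) := by
  rw [Nat.cast_pow, pow_mul]
  exact pow_le_pow_left₀ (Nat.cast_nonneg _) ha j

theorem NB.d_le (h : NB n d q r e P) : (d : ℝ) ≤ P ^ 1 :=
  h.nat_le (Nat.le_mul_of_pos_left _ h.hn)

theorem NB.NC_le (h : NB n d q r e P) (k : ℕ) : ((Nn n d k + CN n : ℕ) : ℝ) ≤ P ^ 2 := by
  have h1 := h.Nn_le k
  have h2 : (CN n : ℝ) ≤ P ^ 1 := h.sR_le (by norm_num)
  have h3 := h.np.hP
  rw [pow_one] at h1 h2
  rw [Nat.cast_add]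
  nlinarith

theorem nice_rhoCI (h : NB n d q r e P) (hk : 2 * k < n * d) :
    Nice q e P 2 (rhoCI n d q k) (Asm.rhoC n d k) := by
  have hs := sR_pos' h.hn
  have h1 := nice_natI h (c := Nn n d k) (Nat.sub_le _ _)
  rw [← Nk_eq_Nn hk.le] at h1
  exact Nice.divNat' h.np (by positivity) (by push_cast; rfl) h1

theorem nice_A1cI (h : NB n d q r e P) (hk : 2 * k < n * d) {x : ℤ} {ε X : ℝ}
    (hx : Nice q e P 28 x (ε * X)) :
    Nice q e P 64 (A1cI n d q k x) ((max (ε * X + 2 * Asm.rhoC n d k) 0) ^ 2 /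
      Asm.rhoC n d k ^ 2) := by
  have hs := sR_pos' h.hn
  have hN : 0 < Nn n d k := by unfold Nn; omega
  have hN0 : 0 < Nk n d k := by rw [Nk_eq_Nn hk.le]; exact_mod_cast hN
  have hs0 : (0 : ℝ) < sR n := by exact_mod_cast hs
  have h1 : Nice q e P 29 (x + (2 : ℕ) * rhoCI n d q k) (ε * X + 2 * Asm.rhoC n d k) := by
    have := (nice_rhoCI h hk).natMul h.np h.two_le
    rw [show ((2 : ℕ) : ℝ) = 2 by norm_num] at this
    exact (hx.add' h.np this).mono h.np (by norm_num)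
  have h2 : ((64 * sR n ^ 630 : ℕ) : ℝ) ≤ P ^ (3 + 1) :=
    mul_cast_le (h.np.num_le (by norm_num)) (h.sR_le (by norm_num))
  have h3 := nice_posSqI h.np (D := Nn n d k ^ 2) (C := 64 * (sR n : ℝ) ^ 630)
    (Y := Nk n d k ^ 2) h2 (by positivity) (by push_cast; rfl)
    (by rw [Nk_eq_Nn hk.le]; push_cast; rfl) h1
  have e1 : (max (ε * X + 2 * Asm.rhoC n d k) 0) ^ 2 / Asm.rhoC n d k ^ 2 =
      (max (ε * X + 2 * Asm.rhoC n d k) 0) ^ 2 * (64 * (sR n : ℝ) ^ 630) / Nk n d k ^ 2 := by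
    generalize (max (ε * X + 2 * Asm.rhoC n d k) 0) = Y
    unfold Asm.rhoC
    rw [div_pow, div_div_eq_mul_div, mul_pow, ← pow_mul]
    norm_num
  rw [e1]
  exact h3.mono h.np (by norm_num)

theorem nice_A2cI (h : NB n d q r e P) {x : ℤ} {ε X : ℝ} (hx : Nice q e P 28 x (ε * X)) :
    Nice q e P 60 (A2cI n d q x)
      ((max (-(ε * X) - 5 * (d : ℝ) ^ 2 * (sR n : ℝ) ^ 384) 0) ^ 2 / (sR n : ℝ) ^ 768) := by
  have hs := sR_pos' h.hn
  have h2 : ((5 * d ^ 2 * sR n ^ 384 : ℕ) : ℝ) ≤ P ^ (2 + 1 * 2 + 1) :=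
    mul_cast_le (mul_cast_le (h.np.num_le (by norm_num)) (pow_cast_le h.d_le 2))
      (h.sR_le (by norm_num))
  have h3 := Nice.nat h.np h2
  have e1 : ((5 * d ^ 2 * sR n ^ 384 : ℕ) : ℝ) = 5 * (d : ℝ) ^ 2 * (sR n : ℝ) ^ 384 := by
    push_cast; rfl
  rw [e1] at h3
  have h4 := nice_sqI (k := 29) h.np
    (((hx.neg.sub' h.np h3).mono h.np (by norm_num : _ ≤ 29)).pos h.np)
  exact Nice.divNat' h.np (by positivity) (by push_cast; rfl) h4

theorem nice_A3cI (h : NB n d q r e P) {x : ℤ} {ε X : ℝ} (hx : Nice q e P 28 x (ε * X)) :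
    Nice q e P 60 (A3cI n d q x)
      ((max (ε * X - 3 * (d : ℝ) ^ 2 * (sR n : ℝ) ^ 1000) 0) ^ 2 / (sR n : ℝ) ^ 2000) := by
  have hs := sR_pos' h.hn
  have h2 : ((3 * d ^ 2 * sR n ^ 1000 : ℕ) : ℝ) ≤ P ^ (2 + 1 * 2 + 1) :=
    mul_cast_le (mul_cast_le (h.np.num_le (by norm_num)) (pow_cast_le h.d_le 2))
      (h.sR_le le_rfl)
  have h3 := Nice.nat h.np h2
  have e1 : ((3 * d ^ 2 * sR n ^ 1000 : ℕ) : ℝ) = 3 * (d : ℝ) ^ 2 * (sR n : ℝ) ^ 1000 := by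
    push_cast; rfl
  rw [e1] at h3
  have h4 := nice_sqI (k := 29) h.np
    (((hx.sub' h.np h3).mono h.np (by norm_num : _ ≤ 29)).pos h.np)
  exact Nice.divNat' h.np (by positivity) (by push_cast; rfl) h4

theorem nice_AFcI (h : NB n d q r e P) (hk : 2 * k < n * d) {x : ℤ} {X : ℝ}
    (hx : Nice q e P 28 x X) :
    Nice q e P 72 (AFcI n d q k x) ((max (X - 1 - Asm.tgC n d k) 0) ^ 2 /
      Asm.gC n d k ^ 2) := by
  have hs := sR_pos' h.hn
  have hN : 0 < Nn n d k := by unfold Nn; omega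
  have hN0 : 0 < Nk n d k := by rw [Nk_eq_Nn hk.le]; exact_mod_cast hN
  have hs0 : (0 : ℝ) < sR n := by exact_mod_cast hs
  have hC0 : 0 < Asm.CC n := by unfold Asm.CC; positivity
  have hCN : 0 < CN n := by unfold CN; positivity
  have hCC : ((CN n : ℕ) : ℝ) = Asm.CC n := by unfold CN Asm.CC; push_cast; rfl
  have hNC : ((Nn n d k + CN n : ℕ) : ℝ) = Nk n d k + Asm.CC n := by
    rw [Nk_eq_Nn hk.le, Nat.cast_add, hCC]
  have h1 : Nice q e P 3 (ratI (Nn n d k ^ 2) q (Nn n d k + CN n)) (Asm.tgC n d k) := by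
    have := nice_ratI h.np (D := Nn n d k + CN n) (C := Nk n d k ^ 2)
      (Y := Nk n d k + Asm.CC n) (pow_cast_le (h.Nn_le k) 2) (by omega)
      (by rw [Nk_eq_Nn hk.le]; push_cast; rfl) hNC (Nice.one h.np)
    simp only [one_mul] at this
    exact this
  have h2 : Nice q e P 30 (x - q - ratI (Nn n d k ^ 2) q (Nn n d k + CN n))
      (X - 1 - Asm.tgC n d k) :=
    ((hx.sub' h.np (Nice.one h.np)).sub' h.np h1).mono h.np (by norm_num)
  have h3 : ((sR n ^ 10 * (Nn n d k + CN n) ^ 4 : ℕ) : ℝ) ≤ P ^ (1 + 2 * 4) :=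
    mul_cast_le (h.sR_le (by norm_num)) (pow_cast_le (h.NC_le k) 4)
  have h4 := nice_posSqI h.np (D := Nn n d k ^ 4 * CN n ^ 2)
    (C := (sR n : ℝ) ^ 10 * (Nk n d k + Asm.CC n) ^ 4)
    (Y := Nk n d k ^ 4 * Asm.CC n ^ 2) h3 (by positivity)
    (by rw [Nat.cast_mul, Nat.cast_pow, Nat.cast_pow, hNC])
    (by rw [Nk_eq_Nn hk.le, Nat.cast_mul, Nat.cast_pow, Nat.cast_pow, hCC]) h2
  have e1 : (max (X - 1 - Asm.tgC n d k) 0) ^ 2 / Asm.gC n d k ^ 2 =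
      (max (X - 1 - Asm.tgC n d k) 0) ^ 2 *
        ((sR n : ℝ) ^ 10 * (Nk n d k + Asm.CC n) ^ 4) / (Nk n d k ^ 4 * Asm.CC n ^ 2) := by
    generalize (max (X - 1 - Asm.tgC n d k) 0) = Y
    unfold Asm.gC
    rw [div_pow, div_div_eq_mul_div, mul_pow, mul_pow, ← pow_mul, ← pow_mul, ← pow_mul]
  rw [e1]
  exact h4.mono h.np (by norm_num)

theorem nice_cOneI (h : NB n d q r e P) (hk : 2 * k < n * d)
    {ι : Type*} [Fintype ι] [DecidableEq ι] {v : List ℤ} {F : Finset ι} {Z : Matrix ι ι ℝ}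
    (hv : ValsOK q e P v F Z) (b : Bool) :
    Nice q e P 79 (cOneI n d q k b v) (Asm.cOne n d k (if b then (1 : ℝ) else -1) F Z) := by
  have np := h.np
  have hs := sR_pos' h.hn
  have hN : 0 < Nn n d k := by unfold Nn; omega
  have hN0 : 0 < Nk n d k := by rw [Nk_eq_Nn hk.le]; exact_mod_cast hN
  have hCC : ((CN n : ℕ) : ℝ) = Asm.CC n := by unfold CN Asm.CC; push_cast; rfl
  have hNC : ((Nn n d k + CN n : ℕ) : ℝ) = Nk n d k + Asm.CC n := by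
    rw [Nk_eq_Nn hk.le, Nat.cast_add, hCC]
  have g1 := nice_A1cI h hk (nice_sgI b hv.T1)
  have g2 := nice_A2cI h (nice_sgI b hv.T1)
  have g3 := nice_AFcI h hk hv.T2
  have g4 := nice_A3cI h (nice_sgI b hv.T3)
  have g5 : Nice q e P 30 (ratI (Nn n d k) (v.getD 3 0) (sR n ^ 2004)) (Asm.A4c n d k Z) :=
    nice_ratI np (h.Nn_le k) (by positivity) (Nk_eq_Nn hk.le).symm (by push_cast; rfl) hv.T4
  have g6 : Nice q e P 33 (ratI ((Nn n d k + CN n) ^ 2) (v.getD 6 0)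
      (sR n ^ 700 * Nn n d k ^ 2)) (Asm.A5c n d k F Z) := by
    have := nice_ratI np (D := sR n ^ 700 * Nn n d k ^ 2) (C := (Nk n d k + Asm.CC n) ^ 2)
      (Y := (sR n : ℝ) ^ 700 * Nk n d k ^ 2) (pow_cast_le (h.NC_le k) 2) (by positivity)
      (by rw [Nat.cast_pow, hNC]) (by rw [Nk_eq_Nn hk.le]; push_cast; rfl) hv.V2
    unfold Asm.A5c Asm.thC Asm.gV2
    rw [div_div_eq_mul_div]
    exact this
  have g7 : Nice q e P 29 (v.getD 4 0 / (sR n ^ 104 : ℕ)) (Asm.A6c n F Z) :=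
    Nice.divNat' np (by positivity) (by push_cast; rfl) hv.S
  unfold cOneI Asm.cOne
  exact ((((((g1.add' np g2).add' np g3).add' np g4).add' np g5).add' np g6).add' np g7).mono np
    (by norm_num)

/-- The fixed point version of `PhiC` approximates `PhiC`. -/
theorem nice_PhiCI {n d : ℕ} {q r : ℤ} {e P : ℝ} {k : ℕ} (h : NB n d q r e P)
    (hk : 2 * k < n * d) {v : List ℤ × List ℤ × ℤ}
    {σ : RSt (Fin (n * d))} (h1 : ValsOK q e P v.1 σ.F σ.Zp)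
    (h2 : ValsOK q e P v.2.1 σ.F σ.Zm) :
    Nice q e P 80 (PhiCI n d q k v) (Asm.PhiC n d k σ) := by
  have g1 := nice_cOneI h hk h1 true
  have g2 := nice_cOneI h hk h2 false
  have e1 : (if true then (1 : ℝ) else -1) = 1 := by simp
  have e2 : (if false then (1 : ℝ) else -1) = -1 := by simp
  rw [e1] at g1
  rw [e2] at g2
  exact (g1.add' h.np g2).mono h.np (by norm_num)

end

end Vale.Agent.P049.TS
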