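import Vale.Agent.P049.TS.Alg.PTVA
import Vale.Agent.P049.TS.Alg.NiceVA
import Vale.Agent.P049.TS.Asm.ParF

/-!
The fixed point version of the potential `PhiF` of the final phase.
-/

open Function Vale.Agent.Lib.PolyTime

namespace Vale.Agent.P049.TS

open Asm (Nk)

/-- `c x / D` -/
def ratI (c : ℕ) (x : ℤ) (D : ℕ) : ℤ := c * x / D

/-- the potentials of one sign -/
def fOneFI (n d : ℕ) (q : ℤ) (k : ℕ) (v : List ℤ) : ℤ :=
  ratI (sR n ^ 683) (v.getD 1 0 - q) (Nn n d k ^ 2) + ratI (sR n ^ 540) (v.getD 4 0) (Nn n d k) +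
  ratI (sR n ^ 656) (v.getD 6 0) (Nn n d k ^ 2)

/-- the fixed point version of `PhiF` -/
def PhiFI (n d : ℕ) (q : ℤ) (k : ℕ) (v : List ℤ × List ℤ × ℤ) : ℤ :=
  fOneFI n d q k v.1 + fOneFI n d q k v.2.1

section

variable {A : Set Word} {α : Type*} [Enc α] {n k : α → ℕ} {q : α → ℤ}

theorem pt_ratI {c D : α → ℕ} {x : α → ℤ} (hc : PT A c) (hx : PT A x) (hD : PT A D) :
    PT A (fun a => ratI (c a) (x a) (D a)) :=
  pt_divN (PT.intMul (PT.natCast hc) hx) hD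

theorem pt_fOneFI (hn : NPT A n) (d : ℕ) (hq : PT A q) (hk : PT A k) {v : α → List ℤ}
    (hv : PT A v) : PT A (fun a => fOneFI (n a) d (q a) (k a) (v a)) := by
  have hg : ∀ i : ℕ, PT A (fun a => (v a).getD i 0) := fun i =>
    PT.getD hv (PT.const i) (PT.const 0)
  have hN := pt_Nn hn d hk
  have hN2 : PT A (fun a => Nn (n a) d (k a) ^ 2) := PT.powConst hN 2
  unfold fOneFI
  exact PT.intAdd (PT.intAdd (pt_ratI (pt_sRpow hn 683) (PT.intSub (hg 1) hq) hN2)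
    (pt_ratI (pt_sRpow hn 540) (hg 4) hN)) (pt_ratI (pt_sRpow hn 656) (hg 6) hN2)

theorem pt_PhiFI (hn : NPT A n) (d : ℕ) (hq : PT A q) (hk : PT A k)
    {v : α → List ℤ × List ℤ × ℤ} (hv : PT A v) :
    PT A (fun a => PhiFI (n a) d (q a) (k a) (v a)) :=
  PT.intAdd (pt_fOneFI hn d hq hk hv.fst) (pt_fOneFI hn d hq hk hv.snd.fst)

end

section

variable {n d : ℕ} {q r : ℤ} {e P : ℝ} {k : ℕ}

theorem NB.sR_le (h : NB n d q r e P) {j : ℕ} (hj : j ≤ 1000) :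
    ((sR n ^ j : ℕ) : ℝ) ≤ P ^ 1 :=
  h.nat_le ((sR_pow_le' h.hn hj).trans (Nat.le_mul_of_pos_right _ (by have := h.hd; omega)))

/-- `c x / D` -/
theorem nice_ratI (h : NP q e P) {l c D j : ℕ} {x : ℤ} {X C Y : ℝ} (hc : (c : ℝ) ≤ P ^ j)
    (hD : 0 < D) (hC : (c : ℝ) = C) (hY : (D : ℝ) = Y) (hx : Nice q e P l x X) :
    Nice q e P (l + j + 1) (ratI c x D) (X * C / Y) := by
  have h1 := hx.natMul h hc
  rw [hC, mul_comm C] at h1
  exact Nice.divNat' h hD hY h1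

theorem nice_fOneFI (h : NB n d q r e P) (hk : 2 * k < n * d)
    {ι : Type*} [Fintype ι] [DecidableEq ι] {v : List ℤ} {F : Finset ι} {Z : Matrix ι ι ℝ}
    (hv : ValsOK q e P v F Z) : Nice q e P 40 (fOneFI n d q k v) (Asm.fOneF n d k F Z) := by
  have np := h.np
  have hN : 0 < Nn n d k := by unfold Nn; omega
  have hN2 : ((Nn n d k ^ 2 : ℕ) : ℝ) = Nk n d k ^ 2 := by
    rw [Nk_eq_Nn hk.le]; push_cast; rfl
  have g1 : Nice q e P 31 (ratI (sR n ^ 683) (v.getD 1 0 - q) (Nn n d k ^ 2))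
      (Asm.fT2F n d k Z) :=
    nice_ratI np (h.sR_le (by norm_num)) (by positivity) (by push_cast; rfl) hN2
      (hv.T2.sub' np (Nice.one np))
  have g2 : Nice q e P 30 (ratI (sR n ^ 540) (v.getD 4 0) (Nn n d k)) (Asm.fSF n d k F Z) :=
    nice_ratI np (h.sR_le (by norm_num)) hN (by push_cast; rfl) (Nk_eq_Nn hk.le).symm hv.S
  have g3 : Nice q e P 30 (ratI (sR n ^ 656) (v.getD 6 0) (Nn n d k ^ 2))
      (Asm.fV2F n d k F Z) :=
    nice_ratI np (h.sR_le (by norm_num)) (by positivity) (by push_cast; rfl) hN2 hv.V2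
  unfold fOneFI Asm.fOneF
  exact ((g1.add' np g2).add' np g3).mono np (by norm_num)

/-- The fixed point version of `PhiF` approximates `PhiF`. -/
theorem nice_PhiFI {n d : ℕ} {q r : ℤ} {e P : ℝ} {k : ℕ} (h : NB n d q r e P)
    (hk : 2 * k < n * d) {v : List ℤ × List ℤ × ℤ}
    {σ : RSt (Fin (n * d))} (h1 : ValsOK q e P v.1 σ.F σ.Zp)
    (h2 : ValsOK q e P v.2.1 σ.F σ.Zm) :
    Nice q e P 80 (PhiFI n d q k v) (Asm.PhiF n d k σ) := by
  have g1 := nice_fOneFI h hk h1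
  have g2 := nice_fOneFI h hk h2
  exact (g1.add' h.np g2).mono h.np (by norm_num)

end

end Vale.Agent.P049.TS
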